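import Vale.Agent.P195.Pairing

/-!
The chain map between consecutive twisted complexes lifting a multiple of
`H (n+1) → X (n+1) → H n`,
and its transpose on the top cochains.
-/

namespace Vale.Agent.P195

variable {K : Type} [Field K]

variable (K) in
/-- contraction of the monomial by the first variable -/
noncomputable def shX : Zc K →ₗ[Am K] Zc K where
  toFun z vp b m := (m.1 + 1) • z vp b (m.1 + 1, m.2)
  map_add' z z' := by funext vp b m; exact zsmul_add _ _ _
  map_smul' a z := by funext vp b m; exact smul_comm _ a _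

variable (K) in
/-- contraction of the monomial by the second variable -/
noncomputable def shY : Zc K →ₗ[Am K] Zc K where
  toFun z vp b m := (m.2 + 1) • z vp b (m.1, m.2 + 1)
  map_add' z z' := by funext vp b m; exact zsmul_add _ _ _
  map_smul' a z := by funext vp b m; exact smul_comm _ a _

variable (K) in
/-- the polarisation -/
noncomputable def tT : Zc K →ₗ[Am K] Zc K :=
  rOp K !![gx K, 0; 0, gx K] ∘ₗ shX K + rOp K !![gy K, 0; 0, gy K] ∘ₗ shY K

variable (K) in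
/-- the correction at the two ends -/
noncomputable def rR : Zc K →ₗ[Am K] Zc K where
  toFun z vp b m := if vp = 0 ∧ b = 0 then z 1 1 m else 0
  map_add' z z' := by
    funext vp b m
    by_cases h : vp = 0 ∧ b = 0 <;> simp [h]
  map_smul' a z := by
    funext vp b m
    by_cases h : vp = 0 ∧ b = 0 <;> simp [h]

variable (K) in
/-- the chain map at the two ends -/
noncomputable def F03 : Zc K →ₗ[Am K] Zc K := tT K + rR K

variable (K) in
/-- the chain map in the middle -/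
noncomputable def F12 : Zc K × Zc K →ₗ[Am K] Zc K × Zc K := (tT K).prodMap (tT K)

variable (K) in
/-- the transpose of `F03` -/
noncomputable def FT : Zc K →+ Zc K where
  toFun φ vp b m := if 0 ≤ m.1 ∧ 0 ≤ m.2 then
      m.1 • (gx K * φ vp b (m.1 - 1, m.2)) + m.2 • (gy K * φ vp b (m.1, m.2 - 1))
        + (if vp = 1 ∧ b = 1 then φ 0 0 m else 0)
    else 0
  map_zero' := by
    funext vp b m
    by_cases h : 0 ≤ m.1 ∧ 0 ≤ m.2 <;> simp [h]
  map_add' φ ψ := by
    funext vp b m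
    by_cases h : 0 ≤ m.1 ∧ 0 ≤ m.2
    · by_cases h' : vp = 1 ∧ b = 1 <;> simp [h, h', mul_add] <;> abel
    · simp [h]

theorem shX_apply (z : Zc K) (vp b : Fin 2) (m : ℤ × ℤ) :
    shX K z vp b m = (m.1 + 1) • z vp b (m.1 + 1, m.2) := rfl

theorem shY_apply (z : Zc K) (vp b : Fin 2) (m : ℤ × ℤ) :
    shY K z vp b m = (m.2 + 1) • z vp b (m.1, m.2 + 1) := rfl

theorem tT_apply (z : Zc K) (vp b : Fin 2) (m : ℤ × ℤ) :
    tT K z vp b m
      = shX K z vp b m * gx K + shY K z vp b m * gy K := by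
  rcases fin2_cases vp with rfl | rfl <;> simp [tT, rOp]

theorem F12_apply (u : Zc K × Zc K) : F12 K u = (tT K u.1, tT K u.2) := rfl

theorem rR_apply (z : Zc K) (vp b : Fin 2) (m : ℤ × ℤ) :
    rR K z vp b m = if vp = 0 ∧ b = 0 then z 1 1 m else 0 := rfl

theorem F03_apply (z : Zc K) (vp b : Fin 2) (m : ℤ × ℤ) :
    F03 K z vp b m = tT K z vp b m + rR K z vp b m := rfl

theorem re_apply_zero (z : Zc K) (b : Fin 2) (m : ℤ × ℤ) :
    re K z 0 b m = -(z 1 b m * gdy K) := by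
  simp [re, rOp, eW, am_mul_neg]

theorem re_apply_one (z : Zc K) (b : Fin 2) (m : ℤ × ℤ) : re K z 1 b m = z 0 b m * gx K := by
  simp [re, rOp, eW]

theorem rf_apply_zero (z : Zc K) (b : Fin 2) (m : ℤ × ℤ) : rf K z 0 b m = z 1 b m * gdx K := by
  simp [rf, rOp, fW]

theorem rf_apply_one (z : Zc K) (b : Fin 2) (m : ℤ × ℤ) : rf K z 1 b m = z 0 b m * gy K := by
  simp [rf, rOp, fW]

theorem d3_apply (z : Zc K) : d3 K z = (rf K z + lf K z, -(re K z + le K z)) := rfl

/-! Commutation in the Weyl algebra. -/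

open MvPolynomial

theorem gy_mul_gx : gy K * gx K = gx K * gy K := by
  rw [gx, gy, SkewMonoidAlgebra.single_mul_single, SkewMonoidAlgebra.single_mul_single,
    mul_comm (sh 1 0) (sh 0 1)]
  simp

theorem gdy_mul_gx : gdy K * gx K = gx K * gdy K := by
  rw [gx, gdy, SkewMonoidAlgebra.single_mul_single, SkewMonoidAlgebra.single_mul_single,
    mul_comm (sh 1 0) (sh 0 (-1))]
  simp [smul_eq_trans, trans]

theorem gdx_mul_gy : gdx K * gy K = gy K * gdx K := by
  rw [gy, gdx, SkewMonoidAlgebra.single_mul_single, SkewMonoidAlgebra.single_mul_single,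
    mul_comm (sh 0 1) (sh (-1) 0)]
  simp [smul_eq_trans, trans]

theorem gdx_mul_gx : gdx K * gx K = gx K * gdx K + 1 := by
  rw [gx, gdx, SkewMonoidAlgebra.single_mul_single, SkewMonoidAlgebra.single_mul_single,
    SkewMonoidAlgebra.one_def, mul_comm (sh 1 0) (sh (-1) 0),
    show sh (-1) 0 * sh 1 0 = 1 from rfl, ← SkewMonoidAlgebra.single_add]
  congr 1
  simp [smul_eq_trans, trans]

theorem gdy_mul_gy : gdy K * gy K = gy K * gdy K + 1 := by
  rw [gy, gdy, SkewMonoidAlgebra.single_mul_single, SkewMonoidAlgebra.single_mul_single,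
    SkewMonoidAlgebra.one_def, mul_comm (sh 0 1) (sh 0 (-1)),
    show sh 0 (-1) * sh 0 1 = 1 from rfl, ← SkewMonoidAlgebra.single_add]
  congr 1
  simp [smul_eq_trans, trans]

theorem mul_gy_gx (a : Am K) : a * gy K * gx K = a * gx K * gy K := by
  rw [mul_assoc, gy_mul_gx, mul_assoc]

theorem mul_gdy_gx (a : Am K) : a * gdy K * gx K = a * gx K * gdy K := by
  rw [mul_assoc, gdy_mul_gx, mul_assoc]

theorem mul_gdx_gy (a : Am K) : a * gdx K * gy K = a * gy K * gdx K := by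
  rw [mul_assoc, gdx_mul_gy, mul_assoc]

theorem mul_gdx_gx (a : Am K) : a * gdx K * gx K = a * gx K * gdx K + a := by
  rw [mul_assoc, gdx_mul_gx, mul_add, mul_one, mul_assoc]

theorem mul_gdy_gy (a : Am K) : a * gdy K * gy K = a * gy K * gdy K + a := by
  rw [mul_assoc, gdy_mul_gy, mul_add, mul_one, mul_assoc]

/-- chains of the parity of a level -/
def Par (q : Fin 4) (z : Zc K) : Prop := ∀ vp b m, vp ≠ b + lp q → z vp b m = 0

theorem Mem.par {w n D : ℤ} {q : Fin 4} {z : Zc K} (h : Mem K w n D q z) : Par q z :=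
  fun vp b m hne => not_not.mp fun e => hne (h vp b m e).1

attribute [local irreducible] le lf re rf shX shY tT rR

theorem am_zsmul_zero (c : ℤ) : c • (0 : Am K) = 0 := zsmul_zero c

theorem d1_F12 {u : Zc K × Zc K} (h1 : Par 1 u.1) (h2 : Par 1 u.2) :
    d1 K (F12 K u) = F03 K (d1 K u) := by
  have a0 : ∀ m, u.1 0 0 m = 0 := fun m => h1 0 0 m (by decide)
  have a1 : ∀ m, u.1 1 1 m = 0 := fun m => h1 1 1 m (by decide)
  have b0 : ∀ m, u.2 0 0 m = 0 := fun m => h2 0 0 m (by decide)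
  have b1 : ∀ m, u.2 1 1 m = 0 := fun m => h2 1 1 m (by decide)
  funext vp b m
  rw [d1_apply, F12_apply, F03_apply]
  rcases fin2_cases vp with rfl | rfl <;> rcases fin2_cases b with rfl | rfl <;>
    simp [d1_apply, tT_apply, shX_apply, shY_apply, rR_apply, le_apply, lf_apply, re_apply_zero,
      re_apply_one, rf_apply_zero, rf_apply_one, a0, a1, b0, b1, add_mul, sub_mul, smul_mul_assoc,
      mul_gy_gx, mul_gdy_gx, mul_gdx_gy, mul_gdx_gx, mul_gdy_gy,
      am_neg_mul, am_zsmul_zero, -zsmul_eq_mul] <;>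
    (let _ : Module ℤ (Am K) := AddCommGroup.toIntModule _; module)

theorem d3_F03 {z : Zc K} (h : Par 3 z) : d3 K (F03 K z) = F12 K (d3 K z) := by
  have a0 : ∀ m, z 0 1 m = 0 := fun m => h 0 1 m (by decide)
  have a1 : ∀ m, z 1 0 m = 0 := fun m => h 1 0 m (by decide)
  rw [F12_apply, d3_apply, d3_apply]
  refine Prod.ext ?_ ?_ <;> funext vp b m <;>
    rcases fin2_cases vp with rfl | rfl <;> rcases fin2_cases b with rfl | rfl <;>
    simp [F03_apply, tT_apply, shX_apply, shY_apply, rR_apply, le_apply, lf_apply, re_apply_zero,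
      re_apply_one, rf_apply_zero, rf_apply_one, a0, a1, add_mul, smul_mul_assoc,
      mul_gy_gx, mul_gdy_gx, mul_gdx_gy, mul_gdx_gx, mul_gdy_gy,
      am_neg_mul, am_zsmul_zero, -zsmul_eq_mul] <;>
    (let _ : Module ℤ (Am K) := AddCommGroup.toIntModule _; module)

theorem d2_F12 {u : Zc K × Zc K} (h1 : Par 2 u.1) (h2 : Par 2 u.2) :
    d2 K (F12 K u) = F12 K (d2 K u) := by
  have a0 : ∀ m, u.1 0 0 m = 0 := fun m => h1 0 0 m (by decide)
  have a1 : ∀ m, u.1 1 1 m = 0 := fun m => h1 1 1 m (by decide)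
  have b0 : ∀ m, u.2 0 0 m = 0 := fun m => h2 0 0 m (by decide)
  have b1 : ∀ m, u.2 1 1 m = 0 := fun m => h2 1 1 m (by decide)
  rw [F12_apply, F12_apply, d2_apply, d2_apply]
  refine Prod.ext ?_ ?_ <;> funext vp b m <;>
    rcases fin2_cases vp with rfl | rfl <;> rcases fin2_cases b with rfl | rfl <;>
    simp [tT_apply, shX_apply, shY_apply, le_apply, lf_apply, re_apply_zero,
      re_apply_one, rf_apply_zero, rf_apply_one, a0, a1, b0, b1, add_mul, sub_mul, smul_mul_assoc,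
      mul_gy_gx, mul_gdy_gx, mul_gdx_gy, mul_gdx_gx, mul_gdy_gy,
      am_neg_mul, am_zsmul_zero, -zsmul_eq_mul] <;>
    (let _ : Module ℤ (Am K) := AddCommGroup.toIntModule _; module)

/-! Sums over exponents. -/

theorem sum_deg2_x {G : Type} [AddCommGroup G] (d : ℤ) (A : ℤ × ℤ → G) :
    ∑ m ∈ deg2 d, (m.1 + 1) • A (m.1 + 1, m.2) = ∑ m ∈ deg2 (d + 1), m.1 • A m := by
  rw [← Finset.sum_filter_of_ne (s := deg2 (d + 1)) (p := fun m => m.1 ≠ 0)
    (fun m _ h e => h (by rw [e, zero_smul]))]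
  refine Finset.sum_nbij' (fun m => (m.1 + 1, m.2)) (fun m => (m.1 - 1, m.2)) ?_ ?_ ?_ ?_ ?_
  · intro m hm
    simp only [Finset.mem_filter, mem_deg2] at hm ⊢
    omega
  · intro m hm
    simp only [Finset.mem_filter, mem_deg2] at hm ⊢
    omega
  · intro m _; simp
  · intro m _; simp
  · intro m _; rfl

theorem sum_deg2_y {G : Type} [AddCommGroup G] (d : ℤ) (A : ℤ × ℤ → G) :
    ∑ m ∈ deg2 d, (m.2 + 1) • A (m.1, m.2 + 1) = ∑ m ∈ deg2 (d + 1), m.2 • A m := by
  rw [← Finset.sum_filter_of_ne (s := deg2 (d + 1)) (p := fun m => m.2 ≠ 0)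
    (fun m _ h e => h (by rw [e, zero_smul]))]
  refine Finset.sum_nbij' (fun m => (m.1, m.2 + 1)) (fun m => (m.1, m.2 - 1)) ?_ ?_ ?_ ?_ ?_
  · intro m hm
    simp only [Finset.mem_filter, mem_deg2] at hm ⊢
    omega
  · intro m hm
    simp only [Finset.mem_filter, mem_deg2] at hm ⊢
    omega
  · intro m _; simp
  · intro m _; simp
  · intro m _; rfl

theorem sum_deg2_euler {G : Type} [AddCommGroup G] (d : ℤ) (A : ℤ × ℤ → G) :
    ∑ m ∈ deg2 d, ((m.1 + 1) • A (m.1 + 1, m.2) + (m.2 + 1) • A (m.1, m.2 + 1))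
      = (d + 1) • ∑ m ∈ deg2 (d + 1), A m := by
  rw [Finset.sum_add_distrib, sum_deg2_x, sum_deg2_y, ← Finset.sum_add_distrib, Finset.smul_sum]
  refine Finset.sum_congr rfl fun m hm => ?_
  rw [← add_smul, (mem_deg2.mp hm).2.2]

theorem sum_deg2_euler' {G : Type} [AddCommGroup G] (d : ℤ) (A : ℤ × ℤ → G) :
    ∑ m ∈ deg2 (d + 1), (m.1 • A (m.1 - 1, m.2) + m.2 • A (m.1, m.2 - 1))
      = (d + 2) • ∑ m ∈ deg2 d, A m := by
  rw [Finset.sum_add_distrib, ← sum_deg2_x, ← sum_deg2_y, ← Finset.sum_add_distrib,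
    Finset.smul_sum]
  refine Finset.sum_congr rfl fun m hm => ?_
  simp only [add_sub_cancel_right, Prod.mk.eta]
  rw [← add_smul, show m.1 + 1 + (m.2 + 1) = d + 2 by linarith [(mem_deg2.mp hm).2.2]]

theorem actFn_zsmul (c : ℤ) (a : Am K) (f : Fn K) : actFn K (c • a) f = c • actFn K a f :=
  map_zsmul (AddMonoidHom.mk' (fun x : Am K => actFn K x f) fun x y => actFn_add_left x y f) c a

theorem actFn_gx (f : Fn K) (m : ℤ × ℤ) : actFn K (gx K) f m = f (m.1 - 1, m.2) := by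
  simp [gx, actFn_single, sh, Sh.co]

theorem actFn_gy (f : Fn K) (m : ℤ × ℤ) : actFn K (gy K) f m = f (m.1, m.2 - 1) := by
  simp [gy, actFn_single, sh, Sh.co]

theorem actFn_gx_mono (m : ℤ × ℤ) : actFn K (gx K) (mono K m) = mono K (m.1 + 1, m.2) := by
  funext m'
  simp only [actFn_gx, mono, Pi.single_apply, Prod.ext_iff]
  exact if_congr (by constructor <;> intro h <;> omega) rfl rfl

theorem actFn_gy_mono (m : ℤ × ℤ) : actFn K (gy K) (mono K m) = mono K (m.1, m.2 + 1) := by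
  funext m'
  simp only [actFn_gy, mono, Pi.single_apply, Prod.ext_iff]
  exact if_congr (by constructor <;> intro h <;> omega) rfl rfl

theorem aug_F03 (n : ℕ) (z : Zc K) :
    aug K n (F03 K z) = ((n : K) + 1) • aug K ((n : ℤ) + 1) z := by
  have e1 : ∀ b : Fin 2, ∑ m ∈ deg2 ((n : ℤ) + ob b), actFn K (tT K z b b m) (mono K m)
      = ((n : ℤ) + ob b + 1) •
          ∑ m ∈ deg2 ((n : ℤ) + ob b + 1), actFn K (z b b m) (mono K m) := by
    intro b
    rw [← sum_deg2_euler]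
    refine Finset.sum_congr rfl fun m _ => ?_
    rw [tT_apply, shX_apply, shY_apply, smul_mul_assoc, smul_mul_assoc, actFn_add_left,
      actFn_zsmul, actFn_zsmul, actFn_mul, actFn_mul, actFn_gx_mono, actFn_gy_mono]
  simp only [aug, F03_apply, actFn_add_left, Finset.sum_add_distrib, e1, Fin.sum_univ_two,
    rR_apply]
  simp [ob, actFn_zero_left]
  funext m'
  simp
  ring

theorem coAug_FT (n : ℕ) (φ : Zc K) (f : Fn K) :
    coAug K ((n : ℤ) + 1) (FT K φ) f = ((n : K) + 1) * coAug K n φ f := by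
  have e1 : ∀ b : Fin 2, ∑ m ∈ deg2 ((n : ℤ) + ob b + 1),
      (m.1 • actFn K (φ b b (m.1 - 1, m.2)) f (m.1 - 1, m.2)
        + m.2 • actFn K (φ b b (m.1, m.2 - 1)) f (m.1, m.2 - 1))
      = ((n : ℤ) + ob b + 2) • ∑ m ∈ deg2 ((n : ℤ) + ob b), actFn K (φ b b m) f m :=
    fun b => sum_deg2_euler' _ fun m => actFn K (φ b b m) f m
  have e2 : ∀ b : Fin 2, ∑ m ∈ deg2 ((n : ℤ) + 1 + ob b), actFn K (FT K φ b b m) f m
      = ((n : ℤ) + ob b + 2) • ∑ m ∈ deg2 ((n : ℤ) + ob b), actFn K (φ b b m) f m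
        + if b = 1 then ∑ m ∈ deg2 (n : ℤ), actFn K (φ 0 0 m) f m else 0 := by
    intro b
    rw [show (n : ℤ) + 1 + ob b = n + ob b + 1 by ring, ← e1,
      show (if b = 1 then _ else (0 : K)) = ∑ m ∈ deg2 ((n : ℤ) + ob b + 1), (if b = 1 then actFn K (φ 0 0 m) f m else 0) by
        rcases fin2_cases b with rfl | rfl <;> simp [ob], ← Finset.sum_add_distrib]
    refine Finset.sum_congr rfl fun m hm => ?_
    obtain ⟨h0, h1, -⟩ := mem_deg2.mp hm
    rcases fin2_cases b with rfl | rfl <;>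
      simp [FT, h0, h1, actFn_add_left, actFn_zsmul, actFn_mul, actFn_gx, actFn_gy,
        -zsmul_eq_mul]
  simp only [coAug, e2, Fin.sum_univ_two]
  simp [ob]
  ring

theorem pair_F03 {n : ℕ} {z : Zc K} (hz : SuppN ((n : ℤ) + 1) z) (φ : Zc K) :
    pair n (F03 K z) φ = pair ((n : ℤ) + 1) z (FT K φ) := by
  have key : ∀ vp b : Fin 2, ∑ m ∈ deg2 ((n : ℤ) + ob b), tT K z vp b m * φ vp b m
      = ∑ m ∈ deg2 ((n : ℤ) + 1 + ob b), z vp b m *
        (m.1 • (gx K * φ vp b (m.1 - 1, m.2)) + m.2 • (gy K * φ vp b (m.1, m.2 - 1))) := by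
    intro vp b
    simp only [tT_apply, shX_apply, shY_apply, add_mul, mul_assoc, Finset.sum_add_distrib, mul_add]
    refine congrArg₂ (· + ·) ?_ ?_
    · refine Eq.trans ?_ ((sum_shift_adj ((n : ℤ) + ob b) ((n : ℤ) + 1 + ob b) (1, 0)
        (fun m => m.1 + 1) (z vp b) (fun m => gx K * φ vp b m) fun m hm => ?_).trans ?_)
      · exact Finset.sum_congr rfl fun m _ => by
          simp [show m + (1, 0) = (m.1 + 1, m.2) from Prod.ext rfl (add_zero _)]
      · obtain ⟨a, c, e⟩ := hz vp b m hm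
        refine ⟨mem_deg2.mpr ⟨a, c, by omega⟩, fun hne => mem_deg2.mpr ?_⟩
        simp only [Prod.fst_sub, Prod.snd_sub] at hne ⊢
        omega
      · exact Finset.sum_congr rfl fun m _ => by
          simp [show m - (1, 0) = (m.1 - 1, m.2) from Prod.ext rfl (sub_zero _)]
    · refine Eq.trans ?_ ((sum_shift_adj ((n : ℤ) + ob b) ((n : ℤ) + 1 + ob b) (0, 1)
        (fun m => m.2 + 1) (z vp b) (fun m => gy K * φ vp b m) fun m hm => ?_).trans ?_)
      · exact Finset.sum_congr rfl fun m _ => by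
          simp [show m + (0, 1) = (m.1, m.2 + 1) from Prod.ext (add_zero _) rfl]
      · obtain ⟨a, c, e⟩ := hz vp b m hm
        refine ⟨mem_deg2.mpr ⟨a, c, by omega⟩, fun hne => mem_deg2.mpr ?_⟩
        simp only [Prod.fst_sub, Prod.snd_sub] at hne ⊢
        omega
      · exact Finset.sum_congr rfl fun m _ => by
          simp [show m - (0, 1) = (m.1, m.2 - 1) from Prod.ext (sub_zero _) rfl]
  have hR : ∀ vp b : Fin 2, ∑ m ∈ deg2 ((n : ℤ) + ob b), rR K z vp b m * φ vp b m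
      = if vp = 0 ∧ b = 0 then ∑ m ∈ deg2 (n : ℤ), z 1 1 m * φ 0 0 m else 0 := by
    intro vp b
    by_cases h : vp = 0 ∧ b = 0
    · obtain ⟨rfl, rfl⟩ := h; simp [rR_apply, ob]
    · simp [rR_apply, h]
  have hF : ∀ vp b : Fin 2, ∑ m ∈ deg2 ((n : ℤ) + 1 + ob b), z vp b m * FT K φ vp b m
      = ∑ m ∈ deg2 ((n : ℤ) + 1 + ob b), z vp b m *
          (m.1 • (gx K * φ vp b (m.1 - 1, m.2)) + m.2 • (gy K * φ vp b (m.1, m.2 - 1)))
        + if vp = 1 ∧ b = 1 then ∑ m ∈ deg2 (n : ℤ), z 1 1 m * φ 0 0 m else 0 := by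
    intro vp b
    rw [show (if vp = 1 ∧ b = 1 then _ else (0 : Am K)) = ∑ m ∈ deg2 ((n : ℤ) + 1 + ob b),
        (if vp = 1 ∧ b = 1 then z 1 1 m * φ 0 0 m else 0) by
      by_cases h : vp = 1 ∧ b = 1
      · obtain ⟨rfl, rfl⟩ := h; simp [ob]
      · simp [h], ← Finset.sum_add_distrib]
    refine Finset.sum_congr rfl fun m hm => ?_
    obtain ⟨h0, h1, -⟩ := mem_deg2.mp hm
    by_cases h : vp = 1 ∧ b = 1
    · obtain ⟨rfl, rfl⟩ := h; simp [FT, h0, h1, mul_add, -zsmul_eq_mul]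
    · simp [FT, h0, h1, h, -zsmul_eq_mul]
  simp only [pair, F03_apply, add_mul, Finset.sum_add_distrib, key, hR, hF, Fin.sum_univ_two]
  simp

/-! Membership. -/

theorem inW_gx : InW K 1 1 (gx K) := by
  intro k hk
  have e : k = sh 1 0 := by
    by_contra h
    simp [gx, mon, SkewMonoidAlgebra.coeff_single, Ne.symm h] at hk
  subst e
  refine ⟨rfl, ?_, fun i t h h' => ?_⟩
  · simp [gx, mon]
  · fin_cases i <;> simp [sh, Sh.co] at h <;> omega

theorem inW_gy : InW K 1 1 (gy K) := by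
  intro k hk
  have e : k = sh 0 1 := by
    by_contra h
    simp [gy, mon, SkewMonoidAlgebra.coeff_single, Ne.symm h] at hk
  subst e
  refine ⟨rfl, ?_, fun i t h h' => ?_⟩
  · simp [gy, mon]
  · fin_cases i <;> simp [sh, Sh.co] at h <;> omega

/-- integer multiples of Weyl elements -/
theorem fmap_inW_zsmul {w d : ℤ} (c : ℤ) {a : Am K} (h : InW K w d a) : InW K w d (c • a) := by
  rw [← Int.cast_smul_eq_zsmul K]
  exact h.smul _

theorem tT_mem {w D : ℤ} {n : ℕ} {q : Fin 4} {z : Zc K} (hz : Mem K w ((n : ℤ) + 1) D q z) :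
    ∀ vp b m, tT K z vp b m ≠ 0 → vp = b + lp q ∧ Sup n b m
      ∧ InW K (w + 1 - ob vp) (D + 2 - lv q) (tT K z vp b m) := by
  intro vp b m h
  rw [tT_apply, shX_apply, shY_apply] at h ⊢
  have px : ∀ {c : ℤ} {g : Am K} {m' : ℤ × ℤ}, InW K 1 1 g →
      InW K (w + 1 - ob vp) (D + 2 - lv q) (c • z vp b m' * g) := by
    intro c g m' hg
    by_cases e : z vp b m' = 0
    · simp [e, InW.zero]
    · rw [show w + 1 - ob vp = w - ob vp + 1 by ring]
      exact (((fmap_inW_zsmul c (hz vp b m' e).2.2)).mul hg).mono (by linarith)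
  refine ⟨?_, ?_, (px inW_gx).add (px inW_gy)⟩
  all_goals
    by_cases e : (m.1 + 1) • z vp b (m.1 + 1, m.2) = 0
    · rw [e, zero_mul, zero_add] at h
      obtain ⟨hc, hn⟩ := zsmul_eq_zero_am fun e' => h (by rw [e', zero_mul])
      obtain ⟨p, ⟨a, c, s⟩, -⟩ := hz vp b _ hn
      first
        | exact p
        | exact ⟨a, by omega, by omega⟩
    · obtain ⟨hc, hn⟩ := zsmul_eq_zero_am e
      obtain ⟨p, ⟨a, c, s⟩, -⟩ := hz vp b _ hn
      first
        | exact p
        | exact ⟨by omega, c, by omega⟩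

theorem F03_mem {w D : ℤ} {n : ℕ} {q : Fin 4} (hq : q = 0 ∨ q = 3) {z : Zc K}
    (hz : Mem K w ((n : ℤ) + 1) D q z) : Mem K (w + 1) n (D + 2) q (F03 K z) := by
  have hlp : lp q = 0 := by rcases hq with rfl | rfl <;> rfl
  have iR : ∀ vp b m, InW K (w + 1 - ob vp) (D + 2 - lv q) (rR K z vp b m) := by
    intro vp b m
    rw [rR_apply]
    split_ifs with h'
    · obtain ⟨rfl, rfl⟩ := h'
      by_cases e : z 1 1 m = 0
      · rw [e]; exact InW.zero _ _
      · have := (hz 1 1 m e).2.2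
        simp [ob] at this ⊢
        exact this.mono (by linarith)
    · exact InW.zero _ _
  have iT : ∀ vp b m, InW K (w + 1 - ob vp) (D + 2 - lv q) (tT K z vp b m) := fun vp b m => by
    by_cases e : tT K z vp b m = 0
    · rw [e]; exact InW.zero _ _
    · exact (tT_mem hz vp b m e).2.2
  intro vp b m h
  rw [F03_apply] at h ⊢
  refine ⟨?_, ?_, (iT vp b m).add (iR vp b m)⟩ <;>
  · by_cases e : tT K z vp b m = 0
    · rw [e, zero_add, rR_apply] at h
      obtain ⟨h', hn⟩ := (ite_ne_right_iff.mp h)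
      obtain ⟨rfl, rfl⟩ := h'
      obtain ⟨-, ⟨a, c, s⟩, -⟩ := hz 1 1 m hn
      first
        | simp [hlp]
        | exact ⟨a, c, by simp [ob] at s ⊢; omega⟩
    · first
        | exact (tT_mem hz vp b m e).1
        | exact (tT_mem hz vp b m e).2.1

theorem F12_mem {w D : ℤ} {n : ℕ} {q : Fin 4} {u : Zc K × Zc K}
    (hu : Mem2 K w ((n : ℤ) + 1) D q u) : Mem2 K (w + 1) n (D + 2) q (F12 K u) :=
  ⟨fun vp b m h => tT_mem hu.1 vp b m h, fun vp b m h => tT_mem hu.2 vp b m h⟩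

theorem FT_mem {v D : ℤ} {n : ℕ} {φ : Zc K} (hφ : CoMem K v n D 3 φ) :
    CoMem K (v + 1) ((n : ℤ) + 1) (D + 2) 3 (FT K φ) := by
  intro vp b m h
  have hdef : FT K φ vp b m = if 0 ≤ m.1 ∧ 0 ≤ m.2 then
      m.1 • (gx K * φ vp b (m.1 - 1, m.2)) + m.2 • (gy K * φ vp b (m.1, m.2 - 1))
        + (if vp = 1 ∧ b = 1 then φ 0 0 m else 0)
    else 0 := rfl
  have hq : 0 ≤ m.1 ∧ 0 ≤ m.2 := by
    by_contra hc
    exact h (by rw [hdef, if_neg hc])
  have px : ∀ {c : ℤ} {g : Am K} {m' : ℤ × ℤ}, InW K 1 1 g →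
      InW K (ob vp + (v + 1)) (D + 2 + lv 3) (c • (g * φ vp b m')) := by
    intro c g m' hg
    by_cases e : φ vp b m' = 0
    · simp [e, InW.zero]
    · rw [show ob vp + (v + 1) = 1 + (ob vp + v) by ring]
      exact fmap_inW_zsmul c ((hg.mul (hφ vp b m' e).2.2).mono (by linarith))
  have pc : InW K (ob vp + (v + 1)) (D + 2 + lv 3) (if vp = 1 ∧ b = 1 then φ 0 0 m else 0) := by
    split_ifs with h'
    · obtain ⟨rfl, rfl⟩ := h'
      by_cases e : φ 0 0 m = 0
      · rw [e]; exact InW.zero _ _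
      · have := (hφ 0 0 m e).2.2
        simp [ob] at this ⊢
        exact this.mono (by linarith)
    · exact InW.zero _ _
  rw [hdef, if_pos hq] at h ⊢
  refine ⟨?_, ?_, ((px inW_gx).add (px inW_gy)).add pc⟩
  all_goals
    by_cases e1 : m.1 • (gx K * φ vp b (m.1 - 1, m.2)) = 0
    · by_cases e2 : m.2 • (gy K * φ vp b (m.1, m.2 - 1)) = 0
      · rw [e1, e2, zero_add, zero_add] at h
        obtain ⟨h', hn⟩ := (ite_ne_right_iff.mp h)
        obtain ⟨rfl, rfl⟩ := h'
        obtain ⟨-, ⟨a, c, s⟩, -⟩ := hφ 0 0 m hn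
        first
          | rfl
          | exact ⟨a, c, by simp [ob] at s ⊢; omega⟩
      · obtain ⟨-, hn⟩ := zsmul_eq_zero_am e2
        obtain ⟨p, ⟨a, c, s⟩, -⟩ := hφ vp b _ fun z => hn (by rw [z, mul_zero])
        first
          | exact p
          | exact ⟨a, by omega, by omega⟩
    · obtain ⟨-, hn⟩ := zsmul_eq_zero_am e1
      obtain ⟨p, ⟨a, c, s⟩, -⟩ := hφ vp b _ fun z => hn (by rw [z, mul_zero])
      first
        | exact p
        | exact ⟨by omega, c, by omega⟩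

end Vale.Agent.P195
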