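import Vale.Agent.P195.Rows

/-!
Componentwise maps from the lower block to the upper block.
-/

namespace Vale.Agent.P195

variable {K : Type} [Field K] {M M' : Type} [AddCommGroup M] [Module (Am K) M] [AddCommGroup M']
  [Module (Am K) M']

/-- the vector with upper entries `g` of the lower ones -/
noncomputable def upFun (g : M →ₗ[Am K] M') (z : MV K M) : MV K M' :=
  fun i => if i.1 = 0 then g (z (1, i.2)) else 0

theorem upFun_zero (g : M →ₗ[Am K] M') (z : MV K M) (r : V) : upFun g z (0, r) = g (z (1, r)) := rfl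

theorem upFun_one (g : M →ₗ[Am K] M') (z : MV K M) (r : V) : upFun g z (1, r) = 0 := rfl

/-- `upFun` as a linear map -/
noncomputable def upMV (g : M →ₗ[Am K] M') : MV K M →ₗ[A0 K] MV K M' where
  toFun := upFun g
  map_add' y z := funext fun ⟨a, r⟩ => by
    fin_cases a
    · exact map_add g (y (1, r)) (z (1, r))
    · exact (add_zero (0 : M')).symm
  map_smul' s z := funext fun ⟨a, r⟩ => by
    fin_cases a
    · rw [RingHom.id_apply]
      erw [smul_mv_zero]
      show g ((s • z) (1, r)) = _
      rw [smul_mv_one, map_sum]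
      simp [upFun]
    · rw [RingHom.id_apply]
      exact ((smul_mv_one s _ r).trans (Finset.sum_eq_zero fun v _ => by
        show _ • upFun g z (1, v) = 0
        rw [upFun_one, smul_zero])).symm

/-- `upFun` on rows -/
noncomputable def upMap (Q : QProp K M) (Q' : QProp K M') (g : M →ₗ[Am K] M')
    (h : ∀ w d x, Q.mem w d x → Q'.mem (w + 1) (d + 2) (g x)) : rowSub Q →ₗ[A0 K] rowSub Q' :=
  (upMV g).restrict fun _ hz r => ⟨Q'.zero _ _, h _ _ _ (hz r).1⟩

theorem upMap_apply (Q : QProp K M) (Q' : QProp K M') (g : M →ₗ[Am K] M') (h) (z : rowSub Q)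
    (i : Fin 2 × V) : (upMap Q Q' g h z).1 i = upFun g z.1 i := rfl

end Vale.Agent.P195
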