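import Vale.Agent.P195.CoHom
import Vale.Agent.P195.Up
import Vale.Agent.P195.FMap

/-!
`Ext` from `X 0` into the window algebra is concentrated in degree two.
-/

namespace Vale.Agent.P195

variable {K : Type} [Field K]

theorem coAug_add_left (n : ℤ) (x y : Zc K) (f : Fn K) :
    coAug K n (x + y) f = coAug K n x f + coAug K n y f := by
  simp only [coAug, ← Finset.sum_add_distrib, ← mul_add]
  refine Finset.sum_congr rfl fun b _ => congrArg _ (Finset.sum_congr rfl fun m _ => ?_)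
  exact congrFun (actFn_add_left (x b b m) (y b b m) f) m

theorem coAug_zero_left (n : ℤ) (f : Fn K) : coAug K n 0 f = 0 := by
  simp [coAug, actFn_zero_left]

theorem coAug_sub_left (n : ℤ) (x y : Zc K) (f : Fn K) :
    coAug K n (x - y) f = coAug K n x f - coAug K n y f := by
  have := coAug_add_left n (x - y) y f
  rw [sub_add_cancel] at this
  exact eq_sub_of_add_eq this.symm

theorem coAug_add_right (n : ℤ) (x : Zc K) (f g : Fn K) :
    coAug K n x (f + g) = coAug K n x f + coAug K n x g := by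
  simp only [coAug, ← Finset.sum_add_distrib, ← mul_add]
  refine Finset.sum_congr rfl fun b _ => congrArg _ (Finset.sum_congr rfl fun m _ => ?_)
  exact congrFun (actFn_add_right (x b b m) f g) m

theorem coAug_smul_right (n : ℤ) (x : Zc K) (c : K) (f : Fn K) :
    coAug K n x (c • f) = c * coAug K n x f := by
  simp only [coAug, Finset.mul_sum]
  refine Finset.sum_congr rfl fun b _ => Finset.sum_congr rfl fun m _ => ?_
  simp only [actFn_apply, Pi.smul_apply, smul_eq_mul, Finsupp.sum, Finset.mul_sum]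
  exact Finset.sum_congr rfl fun k _ => by ring

theorem coAug_zero_right (n : ℤ) (x : Zc K) : coAug K n x 0 = 0 := by
  simpa using coAug_smul_right n x 0 0

theorem coAug_eq_sum (n : ℤ) (x : Zc K) {d : ℤ} {f : Fn K} (hf : f ∈ Hom2 K d) :
    coAug K n x f = ∑ m ∈ deg2 d, f m * coAug K n x (mono K m) := by
  let L : Fn K →+ K :=
    { toFun := coAug K n x, map_zero' := coAug_zero_right n x, map_add' := coAug_add_right n x }
  conv_lhs => rw [hom2_eq_sum hf]
  show L _ = _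
  rw [map_sum]
  exact Finset.sum_congr rfl fun m _ => coAug_smul_right n x (f m) (mono K m)

variable (K)

/-- the chain map in level zero -/
noncomputable def fA0 (n : ℕ) : PM K (n + 1) 0 →ₗ[A0 K] PM K n 0 :=
  upMap _ _ (F03 K) fun _ _ x h => F03_mem (Or.inl rfl) (n := n) (z := x) (by exact_mod_cast h)

/-- the chain map in level one -/
noncomputable def fA1 (n : ℕ) : PM2 K (n + 1) 1 →ₗ[A0 K] PM2 K n 1 :=
  upMap _ _ (F12 K) fun _ _ x h => F12_mem (n := n) (u := x) (by exact_mod_cast h)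

/-- the chain map in level two -/
noncomputable def fA2 (n : ℕ) : PM2 K (n + 1) 2 →ₗ[A0 K] PM2 K n 2 :=
  upMap _ _ (F12 K) fun _ _ x h => F12_mem (n := n) (u := x) (by exact_mod_cast h)

/-- the chain map in level three -/
noncomputable def fA3 (n : ℕ) : PM K (n + 1) 3 →ₗ[A0 K] PM K n 3 :=
  upMap _ _ (F03 K) fun _ _ x h => F03_mem (Or.inr rfl) (n := n) (z := x) (by exact_mod_cast h)

variable {K}

/-- the family of the composite with the chain map -/
noncomputable def phi (φ : Fin 2 × V → Zc K) : Fin 2 × V → Zc K :=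
  fun j => if j.1 = 1 then FT K (φ (0, j.2)) else 0

theorem phi_isCo {n : ℕ} {φ : Fin 2 × V → Zc K} (h : IsCo n 3 φ) : IsCo (n + 1) 3 (phi φ) := by
  rintro ⟨a, c⟩
  fin_cases a
  · exact coMem_zero _ _ _ _
  · have := FT_mem (n := n) (h.base c)
    rw [show -off c + 1 = cv ((1, c) : Fin 2 × V) by simp [cv]; ring,
      show -lev c + 2 = cD ((1, c) : Fin 2 × V) by simp [cD]; ring] at this
    show CoMem K _ ((n + 1 : ℕ) : ℤ) _ 3 (FT K (φ (0, c)))
    exact_mod_cast this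

theorem toHom_comp_fA3 {n : ℕ} {φ : Fin 2 × V → Zc K} (h : IsCo n 3 φ) :
    toHom φ h ∘ₗ fA3 K n = toHom (phi φ) (phi_isCo h) := by
  refine LinearMap.ext fun z => mat_injective ?_
  show homMat n φ (upFun (F03 K) z.1) = homMat (n + 1 : ℕ) (phi φ) z.1
  ext1 ⟨a, r⟩ ⟨a', c⟩
  have e : ∀ ψ, pair (n : ℤ) (F03 K (z.1 (1, r))) ψ
      = pair ((n + 1 : ℕ) : ℤ) (z.1 (1, r)) (FT K ψ) := fun ψ => by
    have := pair_F03 (n := n) (φ := ψ) (z := z.1 (1, r)) (by exact_mod_cast (z.2 r).1.suppN)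
    exact_mod_cast this
  fin_cases a <;> fin_cases a' <;>
    simp [homMat, upFun, phi, e, pair_zero_left, pair_zero_right]

variable [CharZero K]

theorem incPr_apply (n : ℕ) (z : HM K (n + 1)) :
    ((incX K n ∘ₗ prX K (n + 1)) z).1 = shiftUp K z.1 := rfl

theorem coAug_c3' {n : ℕ} {u₁ u₂ : Fin 2 × V → Zc K} (h₁ : IsCo n 2 u₁) (h₂ : IsCo n 2 u₂)
    (j : Fin 2 × V) {f : Fn K} (hf : f ∈ Hom2 K ((n : ℤ) - cv j)) :
    coAug K n (c3 K (u₁ j, u₂ j)) f = 0 :=
  coAug_c3 ⟨h₁ j, h₂ j⟩ hf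

/-- a family whose composite is a coboundary has base part killed by every functional -/
theorem base_killed {n : ℕ} {φ : Fin 2 × V → Zc K} (h : IsCo n 3 φ)
    (e : ∃ g, g ∘ₗ (res K (n + 1)).d₃ = toHom φ h ∘ₗ fA3 K n) (c : V) {f : Fn K}
    (hf : f ∈ Hom2 K ((n : ℤ) + off c)) : coAug K n (φ (0, c)) f = 0 := by
  obtain ⟨g, hg⟩ := e
  obtain ⟨u₁, u₂, h₁, h₂, rfl⟩ := exists_toHom2 g
  rw [toHom_comp_fA3, toHom2_comp_d3] at hg
  have e1 := congrFun (toHom_inj _ _ hg) (1, c)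
  have hf' : f ∈ Hom2 K (((n + 1 : ℕ) : ℤ) - cv ((1, c) : Fin 2 × V)) := by
    rwa [show ((n + 1 : ℕ) : ℤ) - cv ((1, c) : Fin 2 × V) = (n : ℤ) + off c by simp [cv]; ring]
  have h0 : coAug K ((n + 1 : ℕ) : ℤ) (FT K (φ (0, c))) f = 0 := by
    have := coAug_c3' h₁ h₂ (1, c) hf'
    rw [show FT K (φ (0, c)) = c3 K (u₁ (1, c), u₂ (1, c)) from e1.symm]
    exact this
  have h1 := coAug_FT n (φ (0, c)) f
  rw [show ((n : ℤ) + 1) = ((n + 1 : ℕ) : ℤ) by push_cast; rfl, h0] at h1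
  exact (mul_eq_zero.1 h1.symm).resolve_left (by exact_mod_cast Nat.succ_ne_zero n)

theorem homA_phi0 (φ : PM K 0 3 →ₗ[A0 K] A0 K)
    (e : ∃ g, g ∘ₗ (res K 1).d₃ = φ ∘ₗ fA3 K 0) : ∃ g, g ∘ₗ (res K 0).d₃ = φ := by
  obtain ⟨χ, hχ, rfl⟩ : ∃ χ, ∃ h : IsCo 0 3 χ, toHom χ h = φ :=
    ⟨ofHom φ, ofHom_isCo φ, toHom_ofHom φ⟩
  have key : ∀ j, ∀ f ∈ Hom2 K (((0 : ℕ) : ℤ) - cv j), coAug K ((0 : ℕ) : ℤ) (χ j) f = 0 := by
    rintro ⟨a, c⟩ f hf
    fin_cases a
    · exact base_killed hχ e c (by simpa [cv] using hf)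
    · have : f = 0 := funext fun m => not_not.mp fun hm => by
        obtain ⟨a0, a1, a2⟩ := hf m hm
        have : off c ≤ 0 := by obtain ⟨l, p⟩ := c; fin_cases p <;> simp [off]
        simp [cv] at a2
        omega
      rw [this, coAug_zero_right]
  choose u hu hu' using fun j => coexact_q3 (cv_cases j) (cD_le j) (hχ j) (key j)
  refine ⟨toHom2 (fun j => (u j).1) (fun j => (u j).2) (fun j => (hu j).1) (fun j => (hu j).2),
    (toHom2_comp_d3 (fun j => (hu j).1) (fun j => (hu j).2)).trans ?_⟩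
  exact toHom_congr _ _ (funext fun j => hu' j)

/-- a base cochain with prescribed values on the monomials -/
theorem exists_coAug {v D : ℤ} {n : ℕ} (hv : v = 0 ∨ v = 1) (hD : 0 ≤ D + 4) (L : ℤ × ℤ → K) :
    ∃ ψ, CoMem K v n D 3 ψ ∧
      ∀ f ∈ Hom2 K ((n : ℤ) - v), coAug K n ψ f = ∑ m ∈ deg2 ((n : ℤ) - v), f m * L m := by
  obtain ⟨b, hb, hbs⟩ : ∃ b : Fin 2, ob b = -v ∧ (-1 : K) ^ b.val * (-1 : K) ^ b.val = 1 := by
    rcases hv with rfl | rfl
    · exact ⟨0, rfl, by simp⟩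
    · exact ⟨1, rfl, by simp⟩
  refine ⟨fun vp b' m => if vp = b ∧ b' = b ∧ m ∈ deg2 ((n : ℤ) - v) then
      algebraMap K (Am K) ((-1 : K) ^ b.val * L m) else 0, fun vp b' m h => ?_, fun f hf => ?_⟩
  · by_cases e : vp = b ∧ b' = b ∧ m ∈ deg2 ((n : ℤ) - v)
    · obtain ⟨rfl, rfl, hm⟩ := e
      simp only [hm, and_self, if_true] at h ⊢
      refine ⟨by simp [lp], ?_, ?_⟩
      · rw [sub_eq_add_neg, ← hb] at hm; exact mem_deg2.mp hm
      · rw [hb, neg_add_cancel]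
        exact res_inW_const _ (by simp [lv]; omega)
    · exact absurd (if_neg e) h
  · rw [coAug, Finset.sum_eq_single b, hb, ← sub_eq_add_neg, Finset.mul_sum]
    · refine Finset.sum_congr rfl fun m hm => ?_
      simp only [hm, and_self, if_true, algebraMap_am, actFn_single]
      simp [evm]
      linear_combination (f m * L m) * hbs
    · intro b' _ hne
      simp [hne, actFn_zero_left]
    · simp

theorem homA_phi (n : ℕ) (φ : PM K (n + 1) 3 →ₗ[A0 K] A0 K)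
    (e : ∃ g, g ∘ₗ (res K (n + 2)).d₃ = φ ∘ₗ fA3 K (n + 1)) :
    ∃ ψ : PM K n 3 →ₗ[A0 K] A0 K, ∃ g, g ∘ₗ (res K (n + 1)).d₃ = φ - ψ ∘ₗ fA3 K n := by
  obtain ⟨χ, hχ, rfl⟩ : ∃ χ, ∃ h : IsCo (n + 1) 3 χ, toHom χ h = φ :=
    ⟨ofHom φ, ofHom_isCo φ, toHom_ofHom φ⟩
  have hlev : ∀ c : V, lev c ≤ 4 := fun ⟨l, p⟩ => by fin_cases l <;> simp [lev]
  have hoff : ∀ c : V, -off c = 0 ∨ -off c = 1 := fun ⟨l, p⟩ => by fin_cases p <;> simp [off]
  choose ψ hψ hψ' using fun c : V => exists_coAug (K := K) (n := n) (v := -off c) (D := -lev c)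
    (hoff c) (by have := hlev c; omega)
    (fun m => ((n : K) + 1)⁻¹ * coAug K ((n + 1 : ℕ) : ℤ) (χ (1, c)) (mono K m))
  let ψf : Fin 2 × V → Zc K := fun j => if j.1 = 0 then ψ j.2 else 0
  have hψf : IsCo n 3 ψf := by
    rintro ⟨a, c⟩
    fin_cases a
    · simpa [ψf, cv, cD] using hψ c
    · exact coMem_zero _ _ _ _
  have hd : IsCo (n + 1) 3 (χ - phi ψf) := fun j => coMem_sub (hχ j) (phi_isCo hψf j)
  have key : ∀ j, ∀ f ∈ Hom2 K (((n + 1 : ℕ) : ℤ) - cv j),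
      coAug K ((n + 1 : ℕ) : ℤ) ((χ - phi ψf) j) f = 0 := by
    rintro ⟨a, c⟩ f hf
    fin_cases a
    · show coAug K _ (χ (0, c) - 0) f = 0
      rw [sub_zero]
      exact base_killed hχ e c (by simpa [cv] using hf)
    · rw [Pi.sub_apply, coAug_sub_left, sub_eq_zero]
      have hf' : f ∈ Hom2 K ((n : ℤ) - -off c) := by
        convert hf using 2
        simp [cv]
        ring
      show _ = coAug K ((n + 1 : ℕ) : ℤ) (FT K (ψ c)) f
      rw [show ((n + 1 : ℕ) : ℤ) = (n : ℤ) + 1 by push_cast; rfl, coAug_FT n (ψ c) f,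
        hψ' c f hf', coAug_eq_sum _ _ hf', Finset.mul_sum]
      refine Finset.sum_congr rfl fun m _ => ?_
      have : ((n : K) + 1) ≠ 0 := by exact_mod_cast Nat.succ_ne_zero n
      field_simp
      push_cast
      ring
  choose u hu hu' using fun j => coexact_q3 (cv_cases j) (cD_le j) (hd j) (key j)
  refine ⟨toHom ψf hψf, toHom2 (fun j => (u j).1) (fun j => (u j).2) (fun j => (hu j).1)
    (fun j => (hu j).2), (toHom2_comp_d3 (fun j => (hu j).1) (fun j => (hu j).2)).trans ?_⟩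
  refine (toHom_congr _ hd (funext fun j => hu' j)).trans ?_
  rw [toHom_comp_fA3, eq_sub_iff_add_eq]
  refine LinearMap.ext fun z => mat_injective ?_
  rw [LinearMap.add_apply, mat_add, mat_toHom, mat_toHom, mat_toHom]
  ext1 i j
  show homMat _ (χ - phi ψf) z.1 i j + homMat _ (phi ψf) z.1 i j = homMat _ χ z.1 i j
  simp only [homMat, Matrix.of_apply, Pi.sub_apply, pair_sub_right]
  split_ifs <;> abel

theorem fA_l0 (n : ℕ) : (res K n).π ∘ₗ fA0 K n
    = (((n : K) + 1) • incX K n ∘ₗ prX K (n + 1)) ∘ₗ (res K (n + 1)).π := by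
  refine LinearMap.ext fun z => Subtype.ext (funext fun ⟨a, r⟩ => ?_)
  fin_cases a
  · have := aug_F03 n (z.1 (1, r))
    show aug K n (F03 K (z.1 (1, r))) = ((n : K) + 1) • aug K ((n + 1 : ℕ) : ℤ) (z.1 (1, r))
    exact_mod_cast this
  · show aug K n (0 : Zc K) = ((n : K) + 1) • (0 : Fn K)
    rw [smul_zero]
    exact map_zero (augL K (n : ℤ))

theorem fA_l1 (n : ℕ) : (res K n).d₁ ∘ₗ fA1 K n = fA0 K n ∘ₗ (res K (n + 1)).d₁ := by
  refine LinearMap.ext fun z => Subtype.ext (funext fun ⟨a, r⟩ => ?_)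
  fin_cases a
  · exact d1_F12 (z.2 r).1.1.par (z.2 r).1.2.par
  · exact map_zero (d1 K)

theorem fA_l2 (n : ℕ) : (res K n).d₂ ∘ₗ fA2 K n = fA1 K n ∘ₗ (res K (n + 1)).d₂ := by
  refine LinearMap.ext fun z => Subtype.ext (funext fun ⟨a, r⟩ => ?_)
  fin_cases a
  · exact d2_F12 (z.2 r).1.1.par (z.2 r).1.2.par
  · exact map_zero (d2 K)

theorem fA_l3 (n : ℕ) : (res K n).d₃ ∘ₗ fA3 K n = fA2 K n ∘ₗ (res K (n + 1)).d₃ := by
  refine LinearMap.ext fun z => Subtype.ext (funext fun ⟨a, r⟩ => ?_)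
  fin_cases a
  · exact d3_F03 (z.2 r).1.par
  · exact map_zero (d3 K)

theorem ses_scaled (n : ℕ) : Ses (((n : K) + 1) • incX K n) (prX K n) := by
  have hc : ((n : K) + 1) ≠ 0 := by exact_mod_cast Nat.succ_ne_zero n
  refine ⟨fun x y e => incX_injective K n (smul_right_injective _ hc e), prX_surjective K n,
    fun z => ⟨fun e => ?_, ?_⟩⟩
  · obtain ⟨x, rfl⟩ := (incX_prX_exact K n z).1 e
    exact ⟨((n : K) + 1)⁻¹ • x, by
      rw [LinearMap.smul_apply, LinearMap.map_smul_of_tower, smul_smul, mul_inv_cancel₀ hc,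
        one_smul]⟩
  · rintro ⟨x, rfl⟩
    rw [LinearMap.smul_apply, LinearMap.map_smul_of_tower,
      (incX_prX_exact K n).apply_apply_eq_zero, smul_zero]

variable (K)

/-- `Ext^i(X 0, A0)` vanishes for `i = 1` and `i ≥ 3` and not for `i = 2` -/
theorem extX0A0 : Subsingleton (Ex (A0 K) (XM K 0) (A0 K) 1) ∧
    ¬ Subsingleton (Ex (A0 K) (XM K 0) (A0 K) 2) ∧
      ∀ i, 3 ≤ i → Subsingleton (Ex (A0 K) (XM K 0) (A0 K) i) :=
  ladder_ext (fun n => XM K n) (fun n => HM K n) (fun n => ses_scaled n) (res K) (fA0 K) (fA1 K)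
    (fA2 K) (fA3 K) fA_l0 fA_l1 fA_l2 fA_l3 (fun _ φ e => homA_q0 φ e)
    (fun _ φ e => homA_q1 φ e) (fun _ hn φ e => homA_q2 hn φ e) homA_q2_exception
    homA_phi0 homA_phi

end Vale.Agent.P195
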