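import Vale.Agent.P195.Ops

/-!
The Weyl elements acting on functions of exponents.
-/

namespace Vale.Agent.P195

open MvPolynomial

variable {K : Type} [Field K]

/-- evaluation of a coefficient at an exponent -/
noncomputable def evm (m : ℤ × ℤ) : Pol K →ₐ[K] K :=
  aeval ![((m.1 : ℤ) : K), ((m.2 : ℤ) : K)]

theorem evm_trans (k : Sh) (m : ℤ × ℤ) (p : Pol K) :
    evm m (k • p) = evm (m.1 - k.co 0, m.2 - k.co 1) p := by
  rw [smul_eq_trans, ← AlgHom.comp_apply]
  congr 1
  apply MvPolynomial.algHom_ext
  intro i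
  fin_cases i <;> simp [evm, trans]

theorem actFn_apply (a : Am K) (f : Fn K) (m : ℤ × ℤ) :
    actFn K a f m = a.coeff.sum fun k p => evm m p * f (m.1 - k.co 0, m.2 - k.co 1) := by
  simp only [actFn, evm, aeval_eq_eval]

theorem actFn_zero_left (f : Fn K) : actFn K 0 f = 0 := by
  funext m; simp [actFn_apply]

theorem actFn_add_left (a b : Am K) (f : Fn K) :
    actFn K (a + b) f = actFn K a f + actFn K b f := by
  classical
  funext m
  simp only [actFn_apply, Pi.add_apply, SkewMonoidAlgebra.coeff_add]
  rw [Finsupp.sum_add_index (by simp) (by simp [add_mul])]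

theorem actFn_single (k : Sh) (p : Pol K) (f : Fn K) (m : ℤ × ℤ) :
    actFn K (SkewMonoidAlgebra.single k p) f m = evm m p * f (m.1 - k.co 0, m.2 - k.co 1) := by
  simp [actFn_apply]

theorem actFn_add_right (a : Am K) (f g : Fn K) :
    actFn K a (f + g) = actFn K a f + actFn K a g := by
  funext m
  simp only [actFn_apply, Pi.add_apply, Finsupp.sum, mul_add, Finset.sum_add_distrib]

theorem actFn_one (f : Fn K) : actFn K 1 f = f := by
  funext m
  rw [SkewMonoidAlgebra.one_def, actFn_single]
  simp

theorem actFn_mul (a b : Am K) (f : Fn K) : actFn K (a * b) f = actFn K a (actFn K b f) := by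
  induction a using SkewMonoidAlgebra.induction_on generalizing f with
  | zero => simp [actFn_zero_left]
  | single k p =>
    induction b using SkewMonoidAlgebra.induction_on with
    | zero =>
      funext m
      simp [actFn_zero_left, actFn_single]
    | single l q =>
      funext m
      rw [SkewMonoidAlgebra.single_mul_single]
      simp only [actFn_single, map_mul, evm_trans, co_mul]
      rw [mul_assoc]
      simp only [sub_sub]
    | add x y hx hy =>
      rw [mul_add, actFn_add_left, actFn_add_left, actFn_add_right, hx, hy]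
  | add x y hx hy => rw [add_mul, actFn_add_left, actFn_add_left, hx, hy]

noncomputable instance : Module (Am K) (ℤ × ℤ → K) where
  smul := actFn K
  one_smul := actFn_one
  mul_smul := actFn_mul
  smul_zero a := by funext m; show actFn K a 0 m = _; simp [actFn_apply]
  smul_add := actFn_add_right
  add_smul := actFn_add_left
  zero_smul := actFn_zero_left

theorem smul_fn (a : Am K) (f : Fn K) : a • f = actFn K a f := rfl

instance : IsScalarTower K (Am K) (ℤ × ℤ → K) :=
  IsScalarTower.of_algebraMap_smul fun c f => by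
    funext m
    rw [smul_fn, algebraMap_am, actFn_single]
    simp [evm]

/-- Weyl elements keep polynomials polynomial -/
theorem actFn_hom2 {w d e : ℤ} {a : Am K} {f : Fn K} (ha : InW K w d a) (hf : f ∈ Hom2 K e) :
    actFn K a f ∈ Hom2 K (e + w) := by
  intro m hm
  rw [actFn_apply] at hm
  obtain ⟨k, hk, hne⟩ := Finset.exists_ne_zero_of_sum_ne_zero hm
  obtain ⟨hp, hf'⟩ := mul_ne_zero_iff.mp hne
  obtain ⟨h0, h1, h2⟩ := hf _ hf'
  obtain ⟨e1, -, e3⟩ := ha k (by simpa using hk)
  dsimp only at h0 h1 h2
  have key : ∀ i : Fin 2, 0 ≤ ![m.1, m.2] i := by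
    intro i
    by_contra hc
    push Not at hc
    refine hp ?_
    have h := e3 i (![m.1, m.2] i) (by fin_cases i <;> simp <;> omega) hc
    have c : (evm (K := K) m).comp
        (aeval fun j => if j = i then C ((![m.1, m.2] i : ℤ) : K) else X j) = evm m := by
      apply MvPolynomial.algHom_ext
      intro j
      fin_cases i <;> fin_cases j <;> simp [evm]
    have := DFunLike.congr_fun c (a.coeff k)
    rw [AlgHom.comp_apply, h, map_zero] at this
    exact this.symm
  refine ⟨key 0, key 1, ?_⟩
  omega

theorem mem_deg2 {d : ℤ} {m : ℤ × ℤ} : m ∈ deg2 d ↔ 0 ≤ m.1 ∧ 0 ≤ m.2 ∧ m.1 + m.2 = d := by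
  simp only [deg2, Finset.mem_image, Finset.mem_range]
  constructor
  · rintro ⟨i, hi, rfl⟩
    exact ⟨by simp, by dsimp; omega, by simp⟩
  · rintro ⟨h0, h1, h2⟩
    exact ⟨m.1.toNat, by omega, Prod.ext (by simp; omega) (by simp; omega)⟩

theorem mono_mem {d : ℤ} {m : ℤ × ℤ} (h : m ∈ deg2 d) : mono K m ∈ Hom2 K d := by
  intro m' hm
  by_cases e : m' = m
  · subst e; exact mem_deg2.mp h
  · exact absurd (by simp [mono, e]) hm

theorem hom2_eq_sum {d : ℤ} {f : Fn K} (h : f ∈ Hom2 K d) :
    f = ∑ m ∈ deg2 d, f m • mono K m := by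
  classical
  funext m
  simp only [Finset.sum_apply, Pi.smul_apply, mono, Pi.single_apply, smul_eq_mul, mul_ite, mul_one,
    mul_zero, Finset.sum_ite_eq]
  by_cases hm : m ∈ deg2 d
  · simp [hm]
  · rw [if_neg hm]
    exact not_not.mp fun hne => hm (mem_deg2.mpr (h m hne))

end Vale.Agent.P195
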