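import Vale.Agent.P195.Koszul

/-!
Weyl elements: more closure properties, relations of the generators, and the anti-automorphism
`x ↔ y`, `∂x ↦ -∂y`, `∂y ↦ -∂x`, which gives the left-handed Koszul lemmas.
-/

namespace Vale.Agent.P195

open MvPolynomial

variable {K : Type} [Field K]

/-! Closure properties. -/

theorem inW_mono {w d d' : ℤ} {a : Am K} (ha : InW K w d a) (h : d ≤ d') : InW K w d' a :=
  fun k hk => by
    obtain ⟨e1, e2, e3⟩ := ha k hk
    exact ⟨e1, e2.trans h, e3⟩

theorem inW_sub {w d : ℤ} {a b : Am K} (ha : InW K w d a) (hb : InW K w d b) :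
    InW K w d (a - b) := by
  rw [sub_eq_add_neg]; exact inW_add ha (inW_neg hb)

theorem inW_smul {w d : ℤ} (c : K) {a : Am K} (ha : InW K w d a) : InW K w d (c • a) := by
  intro k hk
  rw [SkewMonoidAlgebra.coeff_smul, Finsupp.smul_apply] at hk ⊢
  have h0 : a.coeff k ≠ 0 := fun h => hk (by rw [h, smul_zero])
  obtain ⟨e1, e2, e3⟩ := ha k h0
  refine ⟨e1, ?_, fun i t h1 h2 => by rw [map_smul, e3 i t h1 h2, smul_zero]⟩
  have := totalDegree_smul_le c (a.coeff k)
  omega

theorem inW_zsmul {w d : ℤ} (c : ℤ) {a : Am K} (ha : InW K w d a) : InW K w d (c • a) := by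
  have := inW_smul (c : K) ha
  rwa [Int.cast_smul_eq_zsmul] at this

theorem inW_const {d : ℤ} (c : K) (h : 0 ≤ d) : InW K 0 d (algebraMap K (Am K) c) := by
  rw [algebraMap_am]
  refine inW_single fun _ => ⟨by simp, by simpa using h, fun i t h1 h2 => ?_⟩
  simp at h1; omega

theorem eq_zero_of_neg {w d : ℤ} {a : Am K} (ha : InW K w d a) (hw : -1 ≤ w) (hd : d < 0) :
    a = 0 := by
  refine SkewMonoidAlgebra.ext fun k => ?_
  simp only [SkewMonoidAlgebra.coeff_zero, Finsupp.zero_apply]
  by_contra hk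
  obtain ⟨e1, e2, e3⟩ := ha k hk
  obtain ⟨i, hi⟩ : ∃ i, k.co i < 0 := by
    by_contra h
    push Not at h
    have := h 0
    have := h 1
    omega
  obtain ⟨q, hq, hqd⟩ := exists_div i ((k.co i : ℤ) : K) (a.coeff k)
  have h0 : ev i ((k.co i : ℤ) : K) (a.coeff k) = 0 := e3 i _ le_rfl hi
  rw [h0, sub_zero] at hq
  have := hqd.resolve_left fun h => hk (by rw [hq, h, mul_zero])
  omega

theorem inW_mul_gx {w d : ℤ} {a : Am K} (ha : InW K w d a) :
    InW K (w + 1) (d + 1) (a * gx K) := by
  intro k hk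
  rw [coeff_mul_gx] at hk ⊢
  obtain ⟨e1, e2, e3⟩ := ha _ hk
  simp at e1
  refine ⟨by omega, by omega, fun i t h1 h2 => e3 i t ?_ h2⟩
  fin_cases i <;> simp at h1 ⊢ <;> omega

theorem inW_mul_gy {w d : ℤ} {a : Am K} (ha : InW K w d a) :
    InW K (w + 1) (d + 1) (a * gy K) := by
  intro k hk
  rw [coeff_mul_gy] at hk ⊢
  obtain ⟨e1, e2, e3⟩ := ha _ hk
  simp at e1
  refine ⟨by omega, by omega, fun i t h1 h2 => e3 i t ?_ h2⟩
  fin_cases i <;> simp at h1 ⊢ <;> omega

theorem inW_mul_gdx {w d : ℤ} {a : Am K} (ha : InW K w d a) :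
    InW K (w - 1) (d + 1) (a * gdx K) := by
  intro k hk
  rw [coeff_mul_gdx] at hk ⊢
  obtain ⟨e1, e2, e3⟩ := ha _ (left_ne_zero_of_mul hk)
  simp at e1
  refine ⟨by omega, ?_, fun i t h1 h2 => ?_⟩
  · have := totalDegree_mul (a.coeff (k * sh 1 0)) (X 0 - C ((k.co 0 : ℤ) : K))
    have : (X 0 - C ((k.co 0 : ℤ) : K) : Pol K).totalDegree ≤ 1 :=
      (totalDegree_sub _ _).trans (by rw [totalDegree_X, totalDegree_C]; simp)
    omega
  · show ev i (t : K) (a.coeff (k * sh 1 0) * (X 0 - C ((k.co 0 : ℤ) : K))) = 0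
    revert h1
    obtain rfl | rfl : i = 0 ∨ i = 1 := by omega
    all_goals intro h1
    · by_cases ht : t = k.co 0
      · subst ht; simp [ev]
      · rw [map_mul, show ev (0 : Fin 2) (t : K) (a.coeff (k * sh 1 0)) = 0 from
          e3 0 t (by simp at h1 ⊢; omega) h2, zero_mul]
    · rw [map_mul, show ev (1 : Fin 2) (t : K) (a.coeff (k * sh 1 0)) = 0 from
        e3 1 t (by simp at h1 ⊢; omega) h2, zero_mul]

theorem inW_mul_gdy {w d : ℤ} {a : Am K} (ha : InW K w d a) :
    InW K (w - 1) (d + 1) (a * gdy K) := by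
  intro k hk
  rw [coeff_mul_gdy] at hk ⊢
  obtain ⟨e1, e2, e3⟩ := ha _ (left_ne_zero_of_mul hk)
  simp at e1
  refine ⟨by omega, ?_, fun i t h1 h2 => ?_⟩
  · have := totalDegree_mul (a.coeff (k * sh 0 1)) (X 1 - C ((k.co 1 : ℤ) : K))
    have : (X 1 - C ((k.co 1 : ℤ) : K) : Pol K).totalDegree ≤ 1 :=
      (totalDegree_sub _ _).trans (by rw [totalDegree_X, totalDegree_C]; simp)
    omega
  · show ev i (t : K) (a.coeff (k * sh 0 1) * (X 1 - C ((k.co 1 : ℤ) : K))) = 0
    revert h1
    obtain rfl | rfl : i = 0 ∨ i = 1 := by omega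
    all_goals intro h1
    · rw [map_mul, show ev (0 : Fin 2) (t : K) (a.coeff (k * sh 0 1)) = 0 from
        e3 0 t (by simp at h1 ⊢; omega) h2, zero_mul]
    · by_cases ht : t = k.co 1
      · subst ht; simp [ev]
      · rw [map_mul, show ev (1 : Fin 2) (t : K) (a.coeff (k * sh 0 1)) = 0 from
          e3 1 t (by simp at h1 ⊢; omega) h2, zero_mul]

/-! Relations of the generators. -/

theorem sh_comm (a b : ℤ) (c d : ℤ) : sh a b * sh c d = sh c d * sh a b := mul_comm _ _

theorem gx_gy : gx K * gy K = gy K * gx K := by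
  simp only [gx, gy, mon, SkewMonoidAlgebra.single_mul_single, smul_one_pol, mul_one]
  rw [mul_comm (sh 1 0)]

theorem gdx_gx : gdx K * gx K = gx K * gdx K + 1 := by
  simp only [gx, gdx, mon, SkewMonoidAlgebra.single_mul_single, smul_add, smul_one_pol,
    trans_apply_X, mul_one, one_mul, co_sh_zero, SkewMonoidAlgebra.one_def]
  rw [show sh (-1) 0 * sh 1 0 = 1 from Sh.ext' fun i => by fin_cases i <;> simp,
    show sh 1 0 * sh (-1) 0 = 1 from Sh.ext' fun i => by fin_cases i <;> simp,
    ← SkewMonoidAlgebra.single_add]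
  congr 1; simp

theorem gdy_gy : gdy K * gy K = gy K * gdy K + 1 := by
  simp only [gy, gdy, mon, SkewMonoidAlgebra.single_mul_single, smul_add, smul_one_pol,
    trans_apply_X, mul_one, one_mul, co_sh_one, SkewMonoidAlgebra.one_def]
  rw [show sh 0 (-1) * sh 0 1 = 1 from Sh.ext' fun i => by fin_cases i <;> simp,
    show sh 0 1 * sh 0 (-1) = 1 from Sh.ext' fun i => by fin_cases i <;> simp,
    ← SkewMonoidAlgebra.single_add]
  congr 1; simp

theorem gdx_gy : gdx K * gy K = gy K * gdx K := by
  simp only [gy, gdx, mon, SkewMonoidAlgebra.single_mul_single, smul_add, smul_one_pol,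
    trans_apply_X, mul_one, one_mul, co_sh_zero]
  rw [mul_comm (sh 0 1)]
  simp

theorem gdy_gx : gdy K * gx K = gx K * gdy K := by
  simp only [gx, gdy, mon, SkewMonoidAlgebra.single_mul_single, smul_add, smul_one_pol,
    trans_apply_X, mul_one, one_mul, co_sh_one]
  rw [mul_comm (sh 1 0)]
  simp

theorem gdx_gdy : gdx K * gdy K = gdy K * gdx K := by
  simp only [gdx, gdy, mon, SkewMonoidAlgebra.single_mul_single, smul_add, smul_one_pol,
    trans_apply_X, co_sh_zero, co_sh_one]
  rw [mul_comm (sh (-1) 0)]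
  congr 1
  simp; ring

/-! The anti-automorphism. -/

/-- the shift with exchanged coordinates -/
def sw (k : Sh) : Sh := sh (k.co 1) (k.co 0)

@[simp] theorem co_sw_zero (k : Sh) : (sw k).co 0 = k.co 1 := rfl
@[simp] theorem co_sw_one (k : Sh) : (sw k).co 1 = k.co 0 := rfl

theorem sw_sw (k : Sh) : sw (sw k) = k := Sh.ext' fun i => by fin_cases i <;> simp

theorem sw_mul (k l : Sh) : sw (k * l) = sw l * sw k :=
  Sh.ext' fun i => by fin_cases i <;> simp <;> ring

/-- the substitution `N_i ↦ k_i - 1 - N_(1-i)` -/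
noncomputable def sub (k : Sh) : Pol K →ₐ[K] Pol K :=
  aeval fun i => C (((k.co i : ℤ) : K) - 1) - X (![1, 0] i)

@[simp] theorem sub_X (k : Sh) (i : Fin 2) :
    sub k (X i : Pol K) = C (((k.co i : ℤ) : K) - 1) - X (![1, 0] i) := aeval_X _ _

theorem sub_C (k : Sh) (c : K) : sub k (C c : Pol K) = C c := aeval_C _ _

theorem sub_sw_sub (k : Sh) (p : Pol K) : sub (sw k) (sub k p) = p := by
  have h : (sub (sw k)).comp (sub k) = AlgHom.id K (Pol K) := by
    apply MvPolynomial.algHom_ext; intro i
    fin_cases i <;> simp [sub_C]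
  exact DFunLike.congr_fun h p

theorem totalDegree_sub_le (k : Sh) (p : Pol K) : (sub k p).totalDegree ≤ p.totalDegree := by
  rw [sub, aeval_def, eval₂_eq]
  refine totalDegree_finsetSum_le fun d hd => ?_
  refine (totalDegree_mul _ _).trans ?_
  rw [show algebraMap K (Pol K) (coeff d p) = C (coeff d p) from rfl, totalDegree_C, zero_add]
  refine (totalDegree_finsetProd _ _).trans (le_trans ?_ (le_totalDegree hd))
  rw [Finsupp.sum]
  refine Finset.sum_le_sum fun j _ => (totalDegree_pow _ _).trans ?_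
  have : (C (((k.co j : ℤ) : K) - 1) - X (![1, 0] j) : Pol K).totalDegree ≤ 1 :=
    (totalDegree_sub _ _).trans (by rw [totalDegree_C, totalDegree_X]; simp)
  simpa using Nat.mul_le_mul_left (d j) this

/-- the anti-automorphism -/
noncomputable def tau : Am K →+ Am K where
  toFun a := a.sum fun k p => SkewMonoidAlgebra.single (sw k) (sub k p)
  map_zero' := SkewMonoidAlgebra.sum_zero_index
  map_add' a b := by
    classical
    refine SkewMonoidAlgebra.sum_add_index' (fun k => by simp) fun k p q => ?_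
    rw [map_add, SkewMonoidAlgebra.single_add]

theorem tau_single (k : Sh) (p : Pol K) :
    tau (SkewMonoidAlgebra.single k p : Am K) = SkewMonoidAlgebra.single (sw k) (sub k p) :=
  by
  show (SkewMonoidAlgebra.single k p : Am K).sum
    (fun k p => SkewMonoidAlgebra.single (sw k) (sub k p)) = _
  rw [SkewMonoidAlgebra.sum_single_index]
  simp

theorem sub_mul_trans (k l : Sh) (p q : Pol K) :
    sub (k * l) (p * trans K k q) = sub l q * trans K (sw l) (sub k p) := by
  have h1 : (sub (k * l)).comp (trans K k) = sub (K := K) l := by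
    apply MvPolynomial.algHom_ext; intro i
    fin_cases i <;> simp [trans, sub_C] <;> ring
  have h2 : sub (K := K) (k * l) = (trans K (sw l)).comp (sub k) := by
    apply MvPolynomial.algHom_ext; intro i
    fin_cases i <;> simp [trans] <;> ring
  rw [map_mul, show sub (k * l) ((trans K k) q) = sub l q from DFunLike.congr_fun h1 q,
    show sub (k * l) p = trans K (sw l) (sub k p) from DFunLike.congr_fun h2 p, mul_comm]

theorem tau_mul (a b : Am K) : tau (a * b) = tau b * tau a := by
  induction a using SkewMonoidAlgebra.induction_on with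
  | zero => simp
  | add a a' ha ha' => rw [add_mul, map_add, map_add, mul_add, ha, ha']
  | single k p =>
    induction b using SkewMonoidAlgebra.induction_on with
    | zero => simp
    | add b b' hb hb' => rw [mul_add, map_add, map_add, add_mul, hb, hb']
    | single l q =>
      rw [SkewMonoidAlgebra.single_mul_single, tau_single, tau_single, tau_single,
        SkewMonoidAlgebra.single_mul_single, sw_mul]
      exact congrArg _ (sub_mul_trans k l p q)

theorem tau_tau (a : Am K) : tau (tau a) = a := by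
  induction a using SkewMonoidAlgebra.induction_on with
  | zero => simp
  | add a a' ha ha' => rw [map_add, map_add, ha, ha']
  | single k p => rw [tau_single, tau_single, sw_sw, sub_sw_sub]

theorem coeff_tau (a : Am K) (k : Sh) : (tau a).coeff k = sub (sw k) (a.coeff (sw k)) := by
  classical
  induction a using SkewMonoidAlgebra.induction_on with
  | zero => simp
  | add a a' ha ha' => simp [map_add, ha, ha']
  | single l p =>
    rw [tau_single, SkewMonoidAlgebra.coeff_single_apply, SkewMonoidAlgebra.coeff_single_apply]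
    by_cases h : sw l = k
    · rw [if_pos h, if_pos (by rw [← h, sw_sw]), ← h, sw_sw]
    · rw [if_neg h, if_neg (fun e => h (by rw [e, sw_sw])), map_zero]

theorem tau_algebraMap (c : K) : tau (algebraMap K (Am K) c) = algebraMap K (Am K) c := by
  rw [algebraMap_am, tau_single, sub_C]
  congr 1

theorem tau_one : tau (1 : Am K) = 1 := by simpa using tau_algebraMap (1 : K)

theorem tau_smul (c : K) (a : Am K) : tau (c • a) = c • tau a := by
  rw [Algebra.smul_def, Algebra.smul_def, tau_mul, tau_algebraMap, ← Algebra.commutes]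

theorem tau_gx : tau (gx K) = gy K := by
  rw [gx, mon, tau_single, map_one]; rfl

theorem tau_gy : tau (gy K) = gx K := by
  rw [gy, mon, tau_single, map_one]; rfl

theorem tau_gdx : tau (gdx K) = -gdy K := by
  rw [gdx, gdy, mon, mon, tau_single, map_add, map_one, ← SkewMonoidAlgebra.single_neg]
  congr 1
  simp; ring

theorem tau_gdy : tau (gdy K) = -gdx K := by
  rw [gdx, gdy, mon, mon, tau_single, map_add, map_one, ← SkewMonoidAlgebra.single_neg]
  congr 1
  simp; ring

theorem inW_tau {w d : ℤ} {a : Am K} (ha : InW K w d a) : InW K w d (tau a) := by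
  intro k hk
  rw [coeff_tau] at hk ⊢
  have h0 : a.coeff (sw k) ≠ 0 := fun h => hk (by rw [h, map_zero])
  obtain ⟨e1, e2, e3⟩ := ha _ h0
  simp at e1
  refine ⟨by omega, ?_, fun i t h1 h2 => ?_⟩
  · have := totalDegree_sub_le (sw k) (a.coeff (sw k))
    omega
  · show ev i (t : K) (sub (sw k) (a.coeff (sw k))) = 0
    have key : ∀ (j : Fin 2), ![1, 0] j = i → (sw k).co j = k.co i →
        ev i (t : K) (sub (sw k) (a.coeff (sw k))) = 0 := by
      intro j hj hco
      have h : (ev i (t : K)).comp (sub (sw k)) =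
          ((ev i (t : K)).comp (sub (sw k))).comp (ev j (((k.co i - 1 - t : ℤ)) : K)) := by
        apply MvPolynomial.algHom_ext; intro l
        by_cases hl : l = j
        · subst hl
          simp [ev, sub_C, hj, hco]
        · rw [AlgHom.comp_apply, AlgHom.comp_apply, AlgHom.comp_apply, ev_X_of_ne _ hl]
      have := DFunLike.congr_fun h (a.coeff (sw k))
      simp only [AlgHom.comp_apply] at this
      rw [this, show ev j (((k.co i - 1 - t : ℤ)) : K) (a.coeff (sw k)) = 0 from
        e3 j (k.co i - 1 - t) (by omega) (by omega), map_zero, map_zero]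
    fin_cases i
    · exact key 1 rfl rfl
    · exact key 0 rfl rfl

/-! Left multiplication. -/

theorem inW_gx_mul {w d : ℤ} {a : Am K} (ha : InW K w d a) :
    InW K (w + 1) (d + 1) (gx K * a) := by
  have := inW_tau (inW_mul_gy (inW_tau ha))
  rwa [tau_mul, tau_tau, tau_gy] at this

theorem inW_gy_mul {w d : ℤ} {a : Am K} (ha : InW K w d a) :
    InW K (w + 1) (d + 1) (gy K * a) := by
  have := inW_tau (inW_mul_gx (inW_tau ha))
  rwa [tau_mul, tau_tau, tau_gx] at this

theorem inW_gdx_mul {w d : ℤ} {a : Am K} (ha : InW K w d a) :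
    InW K (w - 1) (d + 1) (gdx K * a) := by
  have := inW_neg (inW_tau (inW_mul_gdy (inW_tau ha)))
  rwa [tau_mul, tau_tau, tau_gdy, am_neg_mul, neg_neg] at this

theorem inW_gdy_mul {w d : ℤ} {a : Am K} (ha : InW K w d a) :
    InW K (w - 1) (d + 1) (gdy K * a) := by
  have := inW_neg (inW_tau (inW_mul_gdx (inW_tau ha)))
  rwa [tau_mul, tau_tau, tau_gdx, am_neg_mul, neg_neg] at this

theorem gx_mul_cancel {a : Am K} (h : gx K * a = 0) : a = 0 := by
  have := congrArg tau h
  rw [tau_mul, tau_gx, map_zero] at this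
  rw [← tau_tau a, mul_gy_cancel this, map_zero]

/-- the kernel for left multiplication by `x`, `y` -/
theorem ker_xy_left {w d : ℤ} {a b : Am K} (ha : InW K w d a) (hb : InW K w d b)
    (h : gx K * a + gy K * b = 0) :
    ∃ s, InW K (w - 1) (d - 1) s ∧ a = gy K * s ∧ b = -(gx K * s) := by
  have e := congrArg tau h
  rw [map_add, tau_mul, tau_mul, tau_gx, tau_gy, map_zero, add_comm] at e
  obtain ⟨s, hs, e1, e2⟩ := ker_xy (inW_tau hb) (inW_tau ha) e
  refine ⟨-tau s, inW_neg (inW_tau hs), ?_, ?_⟩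
  · rw [← tau_tau a, e2, map_neg, tau_mul, tau_gx, am_mul_neg]
  · rw [← tau_tau b, e1, tau_mul, tau_gy, am_mul_neg, neg_neg]

/-- writing a weight `w ≥ 1` element by left multiples of `x`, `y` -/
theorem img_xy_left {w d : ℤ} {z : Am K} (hw : 1 ≤ w) (hz : InW K w d z) :
    ∃ a b, InW K (w - 1) (d - 1) a ∧ InW K (w - 1) (d - 1) b ∧ gx K * a + gy K * b = z := by
  obtain ⟨a, b, ha, hb, e⟩ := img_xy_one hw (inW_tau hz)
  refine ⟨tau b, tau a, inW_tau hb, inW_tau ha, ?_⟩
  rw [← tau_tau z, ← e, map_add, tau_mul, tau_mul, tau_gx, tau_gy, add_comm]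

end Vale.Agent.P195
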