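import Vale.Agent.P195.Shape

/-!
The relations of the twisted Koszul complex and `d ∘ d = 0`.
-/

namespace Vale.Agent.P195

variable {K : Type} [Field K]

theorem le_re (z : Zc K) : le K (re K z) = re K (le K z) := by
  funext vp b m
  rcases two_cases vp with rfl | rfl <;> rcases two_cases b with rfl | rfl <;>
    simp [re_zero, re_one, le_zero', le_one', mul_assoc, am_mul_neg]

theorem le_rf (z : Zc K) : le K (rf K z) = rf K (le K z) := by
  funext vp b m
  rcases two_cases vp with rfl | rfl <;> rcases two_cases b with rfl | rfl <;>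
    simp [rf_zero, rf_one, le_zero', le_one', mul_assoc]

theorem lf_re (z : Zc K) : lf K (re K z) = re K (lf K z) := by
  funext vp b m
  rcases two_cases vp with rfl | rfl <;> rcases two_cases b with rfl | rfl <;>
    simp [re_zero, re_one, lf_zero', lf_one', mul_assoc, am_mul_neg]

theorem lf_rf (z : Zc K) : lf K (rf K z) = rf K (lf K z) := by
  funext vp b m
  rcases two_cases vp with rfl | rfl <;> rcases two_cases b with rfl | rfl <;>
    simp [rf_zero, rf_one, lf_zero', lf_one', mul_assoc]

theorem re_re_rf (z : Zc K) : re K (re K (rf K z)) = rf K (re K (re K z)) + re K z := by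
  funext vp b m
  rcases two_cases vp with rfl | rfl
  · simp only [Pi.add_apply, re_zero, re_one, rf_zero, am_neg_mul, mul_assoc]
    rw [← mul_assoc (gdx K) (gx K), gdx_gx, add_mul, one_mul, mul_assoc, gdx_gdy,
      ← mul_assoc (gdy K) (gx K), gdy_gx, mul_assoc, mul_add]
    abel
  · simp only [Pi.add_apply, re_zero, re_one, rf_one, am_neg_mul, mul_assoc]
    rw [gdy_gx, gdy_gy, ← mul_assoc (gy K) (gx K), ← gx_gy, mul_assoc, mul_add, mul_one, mul_add]
    abel

theorem re_rf_rf (z : Zc K) : re K (rf K (rf K z)) = rf K (rf K (re K z)) + rf K z := by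
  funext vp b m
  rcases two_cases vp with rfl | rfl
  · simp only [Pi.add_apply, re_zero, rf_zero, rf_one, am_neg_mul, mul_assoc]
    rw [← mul_assoc (gdx K) (gy K), gdx_gy, mul_assoc, gdx_gdy, ← mul_assoc (gdy K) (gy K), gdy_gy,
      add_mul, one_mul, mul_assoc, mul_add]
    abel
  · simp only [Pi.add_apply, re_one, rf_zero, rf_one, mul_assoc]
    rw [gdx_gx, gdx_gy, ← mul_assoc (gx K) (gy K), gx_gy, mul_assoc, mul_add, mul_one, mul_add]

theorem lf_le_le (z : Zc K) : lf K (le K (le K z)) = le K (le K (lf K z)) + le K z := by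
  funext vp b m
  rcases two_cases b with rfl | rfl <;>
    simp only [Pi.add_apply, le_zero', le_one', lf_zero', lf_one', sub_add_cancel,
      add_sub_cancel_right, ← Int.cast_smul_eq_zsmul K, smul_smul] <;>
    match_scalars <;> ring

theorem lf_lf_le (z : Zc K) : lf K (lf K (le K z)) = le K (lf K (lf K z)) + lf K z := by
  funext vp b m
  rcases two_cases b with rfl | rfl <;>
    simp only [Pi.add_apply, le_zero', le_one', lf_zero', lf_one', sub_add_cancel,
      add_sub_cancel_right, ← Int.cast_smul_eq_zsmul K, smul_smul] <;>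
    match_scalars <;> ring

theorem d1_d2 (u : Zc K × Zc K) : d1 K (d2 K u) = 0 := by
  simp only [d1, d2, LinearMap.coprod_apply, LinearMap.prod_apply, Function.prod, LinearMap.add_apply,
    LinearMap.sub_apply, LinearMap.comp_apply, LinearMap.id_apply, map_add, map_sub, le_re, le_rf, lf_re, lf_rf, re_re_rf, re_rf_rf, lf_le_le, lf_lf_le]
  abel

theorem d2_d3 (z : Zc K) : d2 K (d3 K z) = 0 := by
  simp only [d3, d2, LinearMap.coprod_apply, LinearMap.prod_apply, Function.prod, LinearMap.add_apply,
    LinearMap.sub_apply, LinearMap.neg_apply, LinearMap.comp_apply, LinearMap.id_apply, map_add,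
    map_neg, le_re, le_rf, lf_re, lf_rf, re_re_rf, re_rf_rf, lf_le_le, lf_lf_le]
  refine Prod.ext ?_ ?_ <;>
    simp only [Prod.fst_add, Prod.snd_add, Prod.fst_neg, Prod.snd_neg,
      Prod.fst_zero, Prod.snd_zero] <;>
    abel

/-! The differences with the leading parts. -/

theorem d1_sub (u : Zc K × Zc K) : d1 K u - d10 K u = -(le K u.1 + lf K u.2) := by
  simp only [d1, d10, LinearMap.coprod_apply, LinearMap.sub_apply]
  abel

theorem d2_sub (u : Zc K × Zc K) :
    d2 K u - d20 K u = (le K (lf K u.1) + re K (lf K u.1) - le K (rf K u.1) + lf K (lf K u.2),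
      -le K (le K u.1) + (lf K (re K u.2) - lf K (le K u.2) - le K (rf K u.2))) := by
  simp only [d2, d20, LinearMap.coprod_apply, LinearMap.prod_apply, Function.prod, LinearMap.add_apply,
    LinearMap.sub_apply, LinearMap.neg_apply, LinearMap.comp_apply, LinearMap.id_apply,
    Prod.mk_add_mk, Prod.mk_sub_mk, Prod.mk.injEq]
  constructor <;> abel

theorem d3_sub (z : Zc K) : d3 K z - d30 K z = (lf K z, -le K z) := by
  simp only [d3, d30, LinearMap.prod_apply, Function.prod, LinearMap.add_apply, LinearMap.neg_apply,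
    Prod.mk_sub_mk, Prod.mk.injEq]
  constructor <;> abel

variable {σ : Fin 2} {w n e : ℤ} {z : Zc K} {u : Zc K × Zc K}

theorem RowP2.d1_sub (h : RowP2 (σ + 1) w n e u) : RowP σ w n e (P195.d1 K u - P195.d10 K u) := by
  rw [P195.d1_sub]
  have h1 := h.1.le
  have h2 := h.2.lf
  rw [fin2_add_two] at h1 h2
  exact (h1.add h2).neg

theorem RowP2.d2_sub (h : RowP2 σ w n e u) :
    RowP2 σ w n (e + 1) (P195.d2 K u - P195.d20 K u) := by
  rw [P195.d2_sub]
  have a1 := h.1.lf.le.mono (show e ≤ e + 1 by omega)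
  have a2 := h.1.lf.re
  have a3 := h.1.rf.le
  have a4 := h.2.lf.lf.mono (show e ≤ e + 1 by omega)
  have b1 := h.1.le.le.mono (show e ≤ e + 1 by omega)
  have b2 := h.2.re.lf
  have b3 := h.2.le.lf.mono (show e ≤ e + 1 by omega)
  have b4 := h.2.rf.le
  rw [fin2_add_two] at a1 a2 a3 a4 b1 b2 b3 b4
  exact ⟨((a1.add a2).sub a3).add a4, b1.neg.add ((b2.sub b3).sub b4)⟩

theorem RowP.d3_sub (h : RowP σ w n e z) : RowP2 (σ + 1) w n e (P195.d3 K z - P195.d30 K z) := by
  rw [P195.d3_sub]
  exact ⟨h.lf, h.le.neg⟩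

theorem RowP2.d1 (h : RowP2 (σ + 1) w n e u) : RowP σ w n (e + 1) (P195.d1 K u) := by
  have := h.d10.add (h.d1_sub.mono (show e ≤ e + 1 by omega))
  rwa [add_sub_cancel] at this

theorem RowP2.d2 (h : RowP2 σ w n e u) : RowP2 σ w n (e + 2) (P195.d2 K u) := by
  have := h.d20.add (h.d2_sub.mono (show e + 1 ≤ e + 2 by omega))
  rwa [add_sub_cancel] at this

theorem RowP.d3 (h : RowP σ w n e z) : RowP2 (σ + 1) w n (e + 1) (P195.d3 K z) := by
  have := h.d30.add (h.d3_sub.mono (show e ≤ e + 1 by omega))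
  rwa [add_sub_cancel] at this

end Vale.Agent.P195
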