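import Vale.Agent.P195.Lead
import Vale.Agent.P195.Rels

/-!
Exactness of the twisted Koszul complexes by induction on the degree.
-/

namespace Vale.Agent.P195

variable {K : Type} [Field K] [CharZero K] {ε : Fin 2} {w n : ℤ}

theorem row_q3 (hw : -1 ≤ w) {e : ℤ} {z : Zc K} (h : RowP ε w n e z) (hd : d3 K z = 0) : z = 0 := by
  obtain ⟨N, hN⟩ : ∃ N : ℕ, e < N := ⟨(e + 1).toNat, by omega⟩
  induction N generalizing e with
  | zero => exact h.eq_zero_of_neg hw (by simpa using hN)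
  | succ N ih =>
    have h1 := h.d3_sub
    rw [hd, zero_sub] at h1
    have h2 := h1.neg
    rw [neg_neg] at h2
    obtain ⟨z', hz', e'⟩ := exact20 h2 (d20_d30 z)
    have : z = z' := by
      refine sub_eq_zero.mp (d30_inj ?_)
      rw [map_sub, e', sub_self]
    rw [← this] at hz'
    exact ih hz' (by push_cast at hN; omega)

theorem row_q2 (hw : -1 ≤ w) (hw' : w ≤ 1) {e : ℤ} {z : Zc K × Zc K}
    (h : RowP2 (ε + 1) w n e z) (hd : d2 K z = 0) :
    ∃ u, RowP ε w n (e - 1) u ∧ d3 K u = z := by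
  obtain ⟨N, hN⟩ : ∃ N : ℕ, e < N := ⟨(e + 1).toNat, by omega⟩
  induction N generalizing e z with
  | zero =>
    exact ⟨0, RowP.zero, by rw [map_zero, h.eq_zero_of_neg hw (by simpa using hN)]⟩
  | succ N ih =>
    have h1 := h.d2_sub
    rw [hd, zero_sub] at h1
    have h2 := h1.neg
    rw [neg_neg] at h2
    obtain ⟨z', hz', e'⟩ := exact10 hw hw' h2 (d10_d20 z) (Or.inr ⟨z, rfl⟩)
    rw [show e + 1 - 2 = e - 1 by ring] at hz'
    obtain ⟨u, hu, eu⟩ := exact20 (h.sub (hz'.mono (show e - 1 ≤ e by omega)))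
      (by rw [map_sub, e', sub_self])
    have h3 : RowP2 (ε + 1) w n (e - 1) (z - d3 K u) := by
      have := hz'.sub hu.d3_sub
      rw [eu] at this
      convert this using 1
      abel
    obtain ⟨u', hu', eu'⟩ := ih h3 (by rw [map_sub, hd, d2_d3, sub_zero])
      (by push_cast at hN; omega)
    exact ⟨u + u', hu.add (hu'.mono (by omega)),
      by rw [map_add, eu', add_sub_cancel]⟩

theorem row_q1 (hw : -1 ≤ w) (hw' : w ≤ 0) {e : ℤ} {z : Zc K × Zc K}
    (h : RowP2 (ε + 1) w n e z) (hd : d1 K z = 0) :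
    ∃ u, RowP2 (ε + 1) w n (e - 2) u ∧ d2 K u = z := by
  obtain ⟨N, hN⟩ : ∃ N : ℕ, e < N := ⟨(e + 1).toNat, by omega⟩
  induction N generalizing e z with
  | zero =>
    exact ⟨0, RowP2.zero, by rw [map_zero, h.eq_zero_of_neg hw (by simpa using hN)]⟩
  | succ N ih =>
    have h1 := h.d1_sub
    rw [hd, zero_sub] at h1
    have h2 := h1.neg
    rw [neg_neg] at h2
    obtain ⟨a, C, ha, hC, -, e'⟩ := exact00 hw hw' h2
    have hC0 : C = 0 := by
      refine cst_im hC (h.sub (ha.mono (show e - 1 ≤ e by omega))) ?_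
      rw [map_sub, e', add_sub_cancel_left]
    rw [hC0, add_zero] at e'
    obtain ⟨u, hu, eu⟩ := exact10 hw (by omega) (h.sub (ha.mono (show e - 1 ≤ e by omega)))
      (by rw [map_sub, e', sub_self]) (Or.inl hw')
    have h3 : RowP2 (ε + 1) w n (e - 1) (z - d2 K u) := by
      have := ha.sub (hu.d2_sub.mono (show e - 2 + 1 ≤ e - 1 by omega))
      rw [eu] at this
      convert this using 1
      abel
    obtain ⟨u', hu', eu'⟩ := ih h3 (by rw [map_sub, hd, d1_d2, sub_zero])
      (by push_cast at hN; omega)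
    exact ⟨u + u', hu.add (hu'.mono (by omega)),
      by rw [map_add, eu', add_sub_cancel]⟩

theorem row_q0 (hw : -1 ≤ w) (hw' : w ≤ 0) {e : ℤ} {z : Zc K} (h : RowP ε w n e z) :
    ∃ u C, RowP2 (ε + 1) w n (e - 1) u ∧ Cst ε w n C ∧ RowP ε w n e C ∧ z = d1 K u + C := by
  obtain ⟨N, hN⟩ : ∃ N : ℕ, e < N := ⟨(e + 1).toNat, by omega⟩
  induction N generalizing e z with
  | zero =>
    refine ⟨0, 0, RowP2.zero, fun _ _ _ hne => absurd rfl hne, RowP.zero, ?_⟩
    rw [h.eq_zero_of_neg hw (by simpa using hN), map_zero, add_zero]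
  | succ N ih =>
    obtain ⟨a, C, ha, hC, hCe, e'⟩ := exact00 hw hw' h
    by_cases he : e ≤ 0
    · have ha0 : a = 0 := ha.eq_zero_of_neg hw (by omega)
      exact ⟨0, C, RowP2.zero, hC, hCe, by rw [e', ha0, map_zero, map_zero]⟩
    have h3 : RowP ε w n (e - 1) (z - d1 K a) := by
      have := (hC.pm (show 0 ≤ e - 1 by omega)).sub ha.d1_sub
      rw [e']
      convert this using 1
      abel
    obtain ⟨u', C', hu', hC', hCe', eu'⟩ := ih h3 (by push_cast at hN; omega)
    refine ⟨a + u', C', ha.add (hu'.mono (by omega)), hC', hCe'.mono (by omega), ?_⟩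
    rw [map_add, add_assoc, ← eu', add_sub_cancel]

end Vale.Agent.P195
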