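import Vale.Agent.P195.Act

/-!
The pairing between chains and cochains; the transposes are adjoint.
-/

namespace Vale.Agent.P195

variable {K : Type} [Field K]

/-- chains supported on the monomials of the right degree -/
def SuppN (n : ℤ) (z : Zc K) : Prop := ∀ vp b m, z vp b m ≠ 0 → Sup n b m

theorem Mem.suppN {w n D : ℤ} {q : Fin 4} {z : Zc K} (h : Mem K w n D q z) : SuppN n z :=
  fun vp b m e => (h vp b m e).2.1

theorem suppN_add {n : ℤ} {y z : Zc K} (hy : SuppN n y) (hz : SuppN n z) : SuppN n (y + z) := by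
  intro vp b m h
  by_cases h1 : y vp b m = 0
  · exact hz vp b m fun e => h (by show y vp b m + z vp b m = 0; rw [h1, e, add_zero])
  · exact hy vp b m h1

theorem suppN_neg {n : ℤ} {z : Zc K} (hz : SuppN n z) : SuppN n (-z) :=
  fun vp b m h => hz vp b m fun e => h (by show -z vp b m = 0; rw [e]; exact neg_zero)

theorem suppN_sub {n : ℤ} {y z : Zc K} (hy : SuppN n y) (hz : SuppN n z) : SuppN n (y - z) := by
  rw [sub_eq_add_neg]; exact suppN_add hy (suppN_neg hz)

/-- reindexing one shifted product -/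
theorem sum_shift_adj {A : Type} [Ring A] (d e : ℤ) (t : ℤ × ℤ) (c : ℤ × ℤ → ℤ)
    (u ψ : ℤ × ℤ → A)
    (h : ∀ m, u m ≠ 0 → m ∈ deg2 e ∧ (c (m - t) ≠ 0 → m - t ∈ deg2 d)) :
    ∑ m ∈ deg2 d, (c m • u (m + t)) * ψ m = ∑ m ∈ deg2 e, u m * (c (m - t) • ψ (m - t)) := by
  let g : ℤ × ℤ → A := fun m => (c (m - t) • u m) * ψ (m - t)
  have hg : ∀ m, g m ≠ 0 → m ∈ deg2 e ∧ m - t ∈ deg2 d := by
    intro m hm
    have hu : u m ≠ 0 := fun e => hm (by simp [g, e])
    exact ⟨(h m hu).1, (h m hu).2 fun e => hm (by simp [g, e])⟩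
  have h1 : ∑ᶠ m, g (m + t) = ∑ m ∈ deg2 d, g (m + t) :=
    finsum_eq_sum_of_support_subset _ fun m hm => by
      simpa using (hg (m + t) hm).2
  have h2 : ∑ᶠ m, g m = ∑ m ∈ deg2 e, g m :=
    finsum_eq_sum_of_support_subset _ fun m hm => (hg m hm).1
  calc ∑ m ∈ deg2 d, (c m • u (m + t)) * ψ m = ∑ m ∈ deg2 d, g (m + t) := by simp [g]
    _ = ∑ m ∈ deg2 e, g m := by rw [← h1, ← h2]; exact finsum_comp_equiv (Equiv.addRight t)
    _ = _ := Finset.sum_congr rfl fun m _ => by simp only [g, smul_mul_assoc, mul_smul_comm]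

variable (n : ℤ)

/-- the pairing -/
noncomputable def pair (z φ : Zc K) : Am K :=
  ∑ vp, ∑ b, ∑ m ∈ deg2 (n + ob b), z vp b m * φ vp b m

variable {n}

theorem pair_add_left (y z φ : Zc K) : pair n (y + z) φ = pair n y φ + pair n z φ := by
  simp only [pair, ← Finset.sum_add_distrib]
  exact Finset.sum_congr rfl fun _ _ => Finset.sum_congr rfl fun _ _ => Finset.sum_congr rfl
    fun _ _ => add_mul _ _ _

theorem pair_add_right (z φ ψ : Zc K) : pair n z (φ + ψ) = pair n z φ + pair n z ψ := by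
  simp only [pair, ← Finset.sum_add_distrib]
  exact Finset.sum_congr rfl fun _ _ => Finset.sum_congr rfl fun _ _ => Finset.sum_congr rfl
    fun _ _ => mul_add _ _ _

theorem pair_zero_left (φ : Zc K) : pair n 0 φ = 0 := by
  simp [pair]

theorem pair_zero_right (z : Zc K) : pair n z 0 = 0 := by
  simp [pair]

theorem pair_sub_left (y z φ : Zc K) : pair n (y - z) φ = pair n y φ - pair n z φ := by
  have := pair_add_left (n := n) (y - z) z φ
  rw [sub_add_cancel] at this
  exact eq_sub_of_add_eq this.symm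

theorem pair_sub_right (z φ ψ : Zc K) : pair n z (φ - ψ) = pair n z φ - pair n z ψ := by
  have := pair_add_right (n := n) z (φ - ψ) ψ
  rw [sub_add_cancel] at this
  exact eq_sub_of_add_eq this.symm

theorem pair_smul_left (a : Am K) (z φ : Zc K) : pair n (a • z) φ = a * pair n z φ := by
  simp only [pair, Finset.mul_sum, Pi.smul_apply, smul_eq_mul, mul_assoc]

theorem pair_sum_left {ι : Type} (S : Finset ι) (z : ι → Zc K) (φ : Zc K) :
    pair n (∑ i ∈ S, z i) φ = ∑ i ∈ S, pair n (z i) φ := by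
  classical
  induction S using Finset.induction with
  | empty => simp [pair_zero_left]
  | insert a s ha ih => rw [Finset.sum_insert ha, Finset.sum_insert ha, pair_add_left, ih]

/-- right multiplication is adjoint to left multiplication -/
theorem pair_rOp (e : Matrix (Fin 2) (Fin 2) (Am K)) (z φ : Zc K) :
    pair n (rOp K e z) φ = pair n z (lOp K e φ) := by
  simp only [pair, rOp, lOp, LinearMap.coe_mk, AddHom.coe_mk, AddMonoidHom.coe_mk,
    ZeroHom.coe_mk, Fin.sum_univ_two, add_mul, mul_add, mul_assoc, Finset.sum_add_distrib]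
  abel

theorem le_apply (z : Zc K) (vp b : Fin 2) (m : ℤ × ℤ) : le K z vp b m
    = if b = 0 then z vp 1 (m.1 - 1, m.2) else (-(m.2 + 1)) • z vp 0 (m.1, m.2 + 1) := rfl

theorem lf_apply (z : Zc K) (vp b : Fin 2) (m : ℤ × ℤ) : lf K z vp b m
    = if b = 0 then z vp 1 (m.1, m.2 - 1) else (m.1 + 1) • z vp 0 (m.1 + 1, m.2) := rfl

theorem zsmul_eq_zero_am {c : ℤ} {a : Am K} (h : c • a ≠ 0) : c ≠ 0 ∧ a ≠ 0 := by
  refine ⟨fun e => h ?_, fun e => h ?_⟩
  · rw [e]; exact zero_zsmul a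
  · rw [e]; exact zsmul_zero c

theorem suppN_rOp {n : ℤ} (e : Matrix (Fin 2) (Fin 2) (Am K)) {z : Zc K} (hz : SuppN n z) :
    SuppN n (rOp K e z) := by
  intro vp b m h
  by_contra hs
  have h0 : z 0 b m = 0 := not_not.mp fun e => hs (hz 0 b m e)
  have h1 : z 1 b m = 0 := not_not.mp fun e => hs (hz 1 b m e)
  exact h (by show z 0 b m * e 0 vp + z 1 b m * e 1 vp = 0; rw [h0, h1, zero_mul, zero_mul, add_zero])

theorem fin2_cases (b : Fin 2) : b = 0 ∨ b = 1 := by omega

theorem suppN_le {z : Zc K} (hz : SuppN n z) : SuppN n (le K z) := by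
  intro vp b m h
  rcases fin2_cases b with rfl | rfl
  · obtain ⟨a, c, e⟩ := hz vp 1 _ (by simpa [le_apply] using h)
    simp [ob] at a c e
    exact ⟨by omega, c, by simp [ob]; omega⟩
  · rw [le_apply, if_neg (show ¬(1 : Fin 2) = 0 by decide)] at h
    obtain ⟨hc, hz0⟩ := zsmul_eq_zero_am h
    obtain ⟨a, c, e⟩ := hz vp 0 _ hz0
    simp [ob] at a c e
    exact ⟨a, by omega, by simp [ob]; omega⟩

theorem suppN_lf {z : Zc K} (hz : SuppN n z) : SuppN n (lf K z) := by
  intro vp b m h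
  rcases fin2_cases b with rfl | rfl
  · obtain ⟨a, c, e⟩ := hz vp 1 _ (by simpa [lf_apply] using h)
    simp [ob] at a c e
    exact ⟨a, by omega, by simp [ob]; omega⟩
  · rw [lf_apply, if_neg (show ¬(1 : Fin 2) = 0 by decide)] at h
    obtain ⟨hc, hz0⟩ := zsmul_eq_zero_am h
    obtain ⟨a, c, e⟩ := hz vp 0 _ hz0
    simp [ob] at a c e
    exact ⟨by omega, c, by simp [ob]; omega⟩

theorem leT_zero (φ : Zc K) (vp : Fin 2) {d : ℤ} {m : ℤ × ℤ} (hm : m ∈ deg2 d) :
    leT K φ vp 0 m = (-m.2) • φ vp 1 (m.1, m.2 - 1) := by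
  have := mem_deg2.mp hm
  simp [leT, this.1, this.2.1]

theorem leT_one (φ : Zc K) (vp : Fin 2) {d : ℤ} {m : ℤ × ℤ} (hm : m ∈ deg2 d) :
    leT K φ vp 1 m = φ vp 0 (m.1 + 1, m.2) := by
  have := mem_deg2.mp hm
  simp [leT, this.1, this.2.1]

theorem lfT_zero (φ : Zc K) (vp : Fin 2) {d : ℤ} {m : ℤ × ℤ} (hm : m ∈ deg2 d) :
    lfT K φ vp 0 m = m.1 • φ vp 1 (m.1 - 1, m.2) := by
  have := mem_deg2.mp hm
  simp [lfT, this.1, this.2.1]

theorem lfT_one (φ : Zc K) (vp : Fin 2) {d : ℤ} {m : ℤ × ℤ} (hm : m ∈ deg2 d) :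
    lfT K φ vp 1 m = φ vp 0 (m.1, m.2 + 1) := by
  have := mem_deg2.mp hm
  simp [lfT, this.1, this.2.1]

theorem pair_le {z : Zc K} (hz : SuppN n z) (φ : Zc K) :
    pair n (le K z) φ = pair n z (leT K φ) := by
  simp only [pair]
  refine Finset.sum_congr rfl fun vp _ => ?_
  rw [Fin.sum_univ_two, Fin.sum_univ_two, add_comm (∑ m ∈ deg2 (n + ob 0), z vp 0 m * _)]
  have A := sum_shift_adj (n + ob 0) (n + ob 1) (-1, 0) (fun _ => 1) (z vp 1) (φ vp 0) fun m hm => by
    obtain ⟨a, c, e⟩ := hz vp 1 m hm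
    simp [ob] at a c e
    exact ⟨mem_deg2.mpr ⟨a, c, by simp [ob]; omega⟩, fun _ => mem_deg2.mpr (by simp [ob]; omega)⟩
  have B := sum_shift_adj (n + ob 1) (n + ob 0) (0, 1) (fun m => -(m.2 + 1)) (z vp 0) (φ vp 1)
    fun m hm => by
      obtain ⟨a, c, e⟩ := hz vp 0 m hm
      simp [ob] at a c e
      refine ⟨mem_deg2.mpr ⟨a, c, by simp [ob]; omega⟩, fun h => mem_deg2.mpr ?_⟩
      simp at h
      simp [ob]; omega
  refine congr (congrArg HAdd.hAdd ?_) ?_
  · refine Eq.trans (Finset.sum_congr rfl fun m _ => ?_)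
      (A.trans (Finset.sum_congr rfl fun m hm => ?_))
    · rw [le_apply, if_pos rfl]
      exact congrArg (· * _) ((congrArg (z vp 1) (Prod.ext (sub_eq_add_neg _ _) (add_zero _).symm)).trans (one_zsmul _).symm)
    · rw [leT_one φ vp hm]
      exact congrArg (_ * ·) ((one_zsmul _).trans (congrArg (φ vp 0) (Prod.ext (by simp) (by simp))))
  · refine Eq.trans (Finset.sum_congr rfl fun m _ => ?_)
      (B.trans (Finset.sum_congr rfl fun m hm => ?_))
    · rw [le_apply, if_neg (by decide)]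
      exact congrArg (fun p => (_ • z vp 0 p) * _) (Prod.ext (add_zero _).symm rfl)
    · rw [leT_zero φ vp hm]
      exact congrArg (_ * ·) (congr (congrArg HSMul.hSMul (by simp)) (congrArg (φ vp 1) (Prod.ext (by simp) (by simp))))

theorem pair_lf {z : Zc K} (hz : SuppN n z) (φ : Zc K) :
    pair n (lf K z) φ = pair n z (lfT K φ) := by
  simp only [pair]
  refine Finset.sum_congr rfl fun vp _ => ?_
  rw [Fin.sum_univ_two, Fin.sum_univ_two, add_comm (∑ m ∈ deg2 (n + ob 0), z vp 0 m * _)]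
  have A := sum_shift_adj (n + ob 0) (n + ob 1) (0, -1) (fun _ => 1) (z vp 1) (φ vp 0) fun m hm => by
    obtain ⟨a, c, e⟩ := hz vp 1 m hm
    simp [ob] at a c e
    exact ⟨mem_deg2.mpr ⟨a, c, by simp [ob]; omega⟩, fun _ => mem_deg2.mpr (by simp [ob]; omega)⟩
  have B := sum_shift_adj (n + ob 1) (n + ob 0) (1, 0) (fun m => m.1 + 1) (z vp 0) (φ vp 1)
    fun m hm => by
      obtain ⟨a, c, e⟩ := hz vp 0 m hm
      simp [ob] at a c e
      refine ⟨mem_deg2.mpr ⟨a, c, by simp [ob]; omega⟩, fun h => mem_deg2.mpr ?_⟩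
      simp at h
      simp [ob]; omega
  refine congr (congrArg HAdd.hAdd ?_) ?_
  · refine Eq.trans (Finset.sum_congr rfl fun m _ => ?_)
      (A.trans (Finset.sum_congr rfl fun m hm => ?_))
    · rw [lf_apply, if_pos rfl]
      exact congrArg (· * _) ((congrArg (z vp 1) (Prod.ext (add_zero _).symm (sub_eq_add_neg _ _))).trans (one_zsmul _).symm)
    · rw [lfT_one φ vp hm]
      exact congrArg (_ * ·) ((one_zsmul _).trans (congrArg (φ vp 0) (Prod.ext (by simp) (by simp))))
  · refine Eq.trans (Finset.sum_congr rfl fun m _ => ?_)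
      (B.trans (Finset.sum_congr rfl fun m hm => ?_))
    · rw [lf_apply, if_neg (by decide)]
      exact congrArg (fun p => (_ • z vp 0 p) * _) (Prod.ext rfl (add_zero _).symm)
    · rw [lfT_zero φ vp hm]
      exact congrArg (_ * ·) (congr (congrArg HSMul.hSMul (by simp)) (congrArg (φ vp 1) (Prod.ext (by simp) (by simp))))

/-- the pairing of pairs -/
noncomputable def pair2 (n : ℤ) (z φ : Zc K × Zc K) : Am K :=
  pair n z.1 φ.1 + pair n z.2 φ.2

theorem pair_re (z φ : Zc K) : pair n (re K z) φ = pair n z (reL K φ) := pair_rOp _ _ _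

theorem pair_rf (z φ : Zc K) : pair n (rf K z) φ = pair n z (rfL K φ) := pair_rOp _ _ _

theorem suppN_re {z : Zc K} (hz : SuppN n z) : SuppN n (re K z) := suppN_rOp _ hz

theorem suppN_rf {z : Zc K} (hz : SuppN n z) : SuppN n (rf K z) := suppN_rOp _ hz

theorem pair_neg (z φ : Zc K) : pair n (-z) φ = pair n z (-φ) := by
  have h1 := pair_add_left (n := n) (-z) z φ
  have h2 := pair_add_right (n := n) z (-φ) φ
  rw [neg_add_cancel, pair_zero_left] at h1
  rw [neg_add_cancel, pair_zero_right] at h2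
  exact (eq_neg_of_add_eq_zero_left h1.symm).trans (eq_neg_of_add_eq_zero_left h2.symm).symm

attribute [local irreducible] le lf re rf leT lfT reL rfL pair

theorem d1_apply (z : Zc K × Zc K) : d1 K z = (re K z.1 - le K z.1) + (rf K z.2 - lf K z.2) := rfl

theorem c1_apply (φ : Zc K) : c1 K φ = (reL K φ - leT K φ, rfL K φ - lfT K φ) := rfl

theorem pair_d1 {z : Zc K × Zc K} (h1 : SuppN n z.1) (h2 : SuppN n z.2) (φ : Zc K) :
    pair n (d1 K z) φ = pair2 n z (c1 K φ) := by
  rw [d1_apply, c1_apply, pair2, pair_add_left, pair_sub_left, pair_sub_left, pair_re, pair_rf,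
    pair_le h1, pair_lf h2, pair_sub_right, pair_sub_right]

theorem d2_apply (z : Zc K × Zc K) : d2 K z =
    ((le K (lf K z.1) + re K (lf K z.1) - le K (rf K z.1) - re K (rf K z.1) + z.1)
        + (lf K (lf K z.2) - rf K (rf K z.2)),
      (re K (re K z.1) - le K (le K z.1))
        + (lf K (re K z.2) + rf K (re K z.2) - lf K (le K z.2) - le K (rf K z.2) + z.2)) := rfl

theorem c2_apply (φ : Zc K × Zc K) : c2 K φ =
    ((lfT K (leT K φ.1) + lfT K (reL K φ.1) - rfL K (leT K φ.1) - rfL K (reL K φ.1) + φ.1)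
        + (reL K (reL K φ.2) - leT K (leT K φ.2)),
      (lfT K (lfT K φ.1) - rfL K (rfL K φ.1))
        + (reL K (lfT K φ.2) + reL K (rfL K φ.2) - leT K (lfT K φ.2) - rfL K (leT K φ.2) + φ.2)) :=
  rfl

theorem pair_d2 {z : Zc K × Zc K} (h1 : SuppN n z.1) (h2 : SuppN n z.2) (φ : Zc K × Zc K) :
    pair2 n (d2 K z) φ = pair2 n z (c2 K φ) := by
  rw [d2_apply, c2_apply]
  have a : ∀ ψ, pair n (le K (lf K z.1) + re K (lf K z.1) - le K (rf K z.1) - re K (rf K z.1) + z.1) ψ
      = pair n z.1 (lfT K (leT K ψ) + lfT K (reL K ψ) - rfL K (leT K ψ) - rfL K (reL K ψ) + ψ) := by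
    intro ψ
    rw [pair_add_left, pair_sub_left, pair_sub_left, pair_add_left, pair_le (suppN_lf h1),
      pair_re, pair_le (suppN_rf h1), pair_re, pair_lf h1, pair_lf h1, pair_rf, pair_rf,
      pair_add_right, pair_sub_right, pair_sub_right, pair_add_right]
  have b : ∀ ψ, pair n (lf K (lf K z.2) - rf K (rf K z.2)) ψ
      = pair n z.2 (lfT K (lfT K ψ) - rfL K (rfL K ψ)) := by
    intro ψ
    rw [pair_sub_left, pair_lf (suppN_lf h2), pair_lf h2, pair_rf, pair_rf, pair_sub_right]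
  have c : ∀ ψ, pair n (re K (re K z.1) - le K (le K z.1)) ψ
      = pair n z.1 (reL K (reL K ψ) - leT K (leT K ψ)) := by
    intro ψ
    rw [pair_sub_left, pair_le (suppN_le h1), pair_le h1, pair_re, pair_re, pair_sub_right]
  have d : ∀ ψ,
      pair n (lf K (re K z.2) + rf K (re K z.2) - lf K (le K z.2) - le K (rf K z.2) + z.2) ψ
      = pair n z.2 (reL K (lfT K ψ) + reL K (rfL K ψ) - leT K (lfT K ψ) - rfL K (leT K ψ) + ψ) := by
    intro ψ
    rw [pair_add_left, pair_sub_left, pair_sub_left, pair_add_left, pair_lf (suppN_re h2),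
      pair_rf, pair_lf (suppN_le h2), pair_le (suppN_rf h2), pair_re, pair_re, pair_le h2, pair_rf,
      pair_add_right, pair_sub_right, pair_sub_right, pair_add_right]
  refine (congrArg₂ (· + ·) ((pair_add_left _ _ _).trans (congrArg₂ (· + ·) (a _) (b _)))
    ((pair_add_left _ _ _).trans (congrArg₂ (· + ·) (c _) (d _)))).trans
    ((add_add_add_comm _ _ _ _).trans ?_)
  exact (congrArg₂ (· + ·) (pair_add_right _ _ _) (pair_add_right _ _ _)).symm

theorem pair_d3 {z : Zc K} (h : SuppN n z) (φ : Zc K × Zc K) :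
    pair2 n (d3 K z) φ = pair n z (c3 K φ) := by
  simp only [d3, c3, pair2, LinearMap.prod_apply, Function.prod, LinearMap.add_apply,
    LinearMap.neg_apply, AddMonoidHom.coprod_apply, AddMonoidHom.add_apply,
    AddMonoidHom.neg_apply]
  rw [pair_add_left, pair_rf, pair_lf h, pair_neg, pair_add_left, pair_re, pair_le h]
  rw [← pair_add_right, ← pair_add_right, ← pair_add_right]
  congr 1
  simp only [map_neg]
  abel

end Vale.Agent.P195
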