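import Vale.Agent.P195.CoRels
import Vale.Agent.P195.Pairing
import Vale.Agent.P195.Filtr

/-!
The two augmentations.
-/

namespace Vale.Agent.P195

variable {K : Type} [Field K] {n : ℤ}

/-! Generators on monomials. -/

theorem gx_smul_apply (f : ℤ × ℤ → K) (m : ℤ × ℤ) : (gx K • f) m = f (m.1 - 1, m.2) := by
  rw [smul_fn, gx, mon, actFn_single]; simp

theorem gy_smul_apply (f : ℤ × ℤ → K) (m : ℤ × ℤ) : (gy K • f) m = f (m.1, m.2 - 1) := by
  rw [smul_fn, gy, mon, actFn_single]; simp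

theorem gdx_smul_apply (f : ℤ × ℤ → K) (m : ℤ × ℤ) :
    (gdx K • f) m = ((m.1 : K) + 1) * f (m.1 + 1, m.2) := by
  rw [smul_fn, gdx, mon, actFn_single]; simp [evm]

theorem gdy_smul_apply (f : ℤ × ℤ → K) (m : ℤ × ℤ) :
    (gdy K • f) m = ((m.2 : K) + 1) * f (m.1, m.2 + 1) := by
  rw [smul_fn, gdy, mon, actFn_single]; simp [evm]

theorem gx_smul_mono (m : ℤ × ℤ) : gx K • mono K m = mono K (m.1 + 1, m.2) := by
  funext p
  rw [gx_smul_apply]
  simp only [mono, Pi.single_apply, Prod.ext_iff]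
  exact if_congr (by omega) rfl rfl

theorem gy_smul_mono (m : ℤ × ℤ) : gy K • mono K m = mono K (m.1, m.2 + 1) := by
  funext p
  rw [gy_smul_apply]
  simp only [mono, Pi.single_apply, Prod.ext_iff]
  exact if_congr (by omega) rfl rfl

theorem gdx_smul_mono (m : ℤ × ℤ) : gdx K • mono K m = (m.1 : K) • mono K (m.1 - 1, m.2) := by
  funext p
  rw [gdx_smul_apply, Pi.smul_apply]
  simp only [mono, Pi.single_apply, Prod.ext_iff, smul_eq_mul, mul_ite, mul_one, mul_zero]
  by_cases h : p.1 + 1 = m.1 ∧ p.2 = m.2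
  · rw [if_pos h, if_pos (by omega), ← h.1]; simp
  · rw [if_neg h, if_neg (by omega)]

theorem gdy_smul_mono (m : ℤ × ℤ) : gdy K • mono K m = (m.2 : K) • mono K (m.1, m.2 - 1) := by
  funext p
  rw [gdy_smul_apply, Pi.smul_apply]
  simp only [mono, Pi.single_apply, Prod.ext_iff, smul_eq_mul, mul_ite, mul_one, mul_zero]
  by_cases h : p.1 = m.1 ∧ p.2 + 1 = m.2
  · rw [if_pos h, if_pos (by omega), ← h.2]; simp
  · rw [if_neg h, if_neg (by omega)]

theorem zsmul_fn (c : ℤ) (a : Am K) (f : ℤ × ℤ → K) : (c • a) • f = (c : K) • (a • f) := by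
  rw [← Int.cast_smul_eq_zsmul K, smul_assoc]

theorem algebraMap_fn (c : K) (f : ℤ × ℤ → K) : algebraMap K (Am K) c • f = c • f :=
  algebraMap_smul (Am K) c f

/-- reindexing -/
theorem sum_deg2_shift {A : Type} [AddCommMonoid A] (d e : ℤ) (t : ℤ × ℤ) (g : ℤ × ℤ → A)
    (h : ∀ m, g m ≠ 0 → m ∈ deg2 e ∧ m - t ∈ deg2 d) :
    ∑ m ∈ deg2 d, g (m + t) = ∑ m ∈ deg2 e, g m := by
  have h1 : ∑ᶠ m, g (m + t) = ∑ m ∈ deg2 d, g (m + t) :=
    finsum_eq_sum_of_support_subset _ fun m hm => by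
      simpa using (h (m + t) hm).2
  have h2 : ∑ᶠ m, g m = ∑ m ∈ deg2 e, g m :=
    finsum_eq_sum_of_support_subset _ fun m hm => (h m hm).1
  rw [← h1, ← h2]
  exact finsum_comp_equiv (Equiv.addRight t)

/-! The augmentation. -/

theorem aug_eq (z : Zc K) : aug K n z
    = (∑ m ∈ deg2 n, z 0 0 m • mono K m) + ∑ m ∈ deg2 (n - 1), z 1 1 m • mono K m := by
  show ∑ b, ∑ m ∈ deg2 (n + ob b), z b b m • mono K m = _
  rw [Fin.sum_univ_two]
  simp [ob, sub_eq_add_neg]

theorem aug_zero : aug K n (0 : Zc K) = 0 := by simp [aug_eq]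

theorem aug_add (z z' : Zc K) : aug K n (z + z') = aug K n z + aug K n z' := by
  simp only [aug_eq, Pi.add_apply, add_smul, Finset.sum_add_distrib]
  abel

theorem aug_sub (z z' : Zc K) : aug K n (z - z') = aug K n z - aug K n z' := by
  have := aug_add (n := n) (z - z') z'
  rw [sub_add_cancel] at this
  exact eq_sub_of_add_eq this.symm

theorem aug_smul (a : Am K) (z : Zc K) : aug K n (a • z) = a • aug K n z := by
  simp only [aug_eq, Pi.smul_apply, smul_eq_mul, mul_smul, smul_add, Finset.smul_sum]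

theorem aug_re {u : Zc K} (h : SuppN n u) : aug K n (re K u) = aug K n (le K u) := by
  rw [aug_eq, aug_eq, add_comm]
  refine congrArg₂ (· + ·) ?_ ?_
  · have key := sum_deg2_shift n (n - 1) (-1, 0) (fun m => u 0 1 m • mono K (m.1 + 1, m.2))
      fun m hm => by
        obtain ⟨a, b, c⟩ := h 0 1 m fun e => hm (by rw [e, zero_smul])
        simp [mem_deg2, ob] at c ⊢; omega
    calc _ = ∑ m ∈ deg2 (n - 1), u 0 1 m • mono K (m.1 + 1, m.2) :=
          Finset.sum_congr rfl fun m _ => by rw [re_one, mul_smul, gx_smul_mono]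
      _ = _ := key.symm
      _ = _ := Finset.sum_congr rfl fun m _ => by simp [le_zero', sub_eq_add_neg, Prod.add_def]
  · have key := sum_deg2_shift (n - 1) n (0, 1)
      (fun m => -((m.2 : K) • u 1 0 m • mono K (m.1, m.2 - 1))) fun m hm => by
        obtain ⟨a, b, c⟩ := h 1 0 m fun e => hm (by rw [e, zero_smul, smul_zero, neg_zero])
        have : m.2 ≠ 0 := fun e => hm (by rw [e]; simp)
        simp [mem_deg2, ob] at c ⊢; omega
    calc _ = ∑ m ∈ deg2 n, -((m.2 : K) • u 1 0 m • mono K (m.1, m.2 - 1)) :=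
          Finset.sum_congr rfl fun m _ => by
            rw [re_zero, neg_smul, mul_smul, gdy_smul_mono, smul_comm]
      _ = _ := key.symm
      _ = _ := Finset.sum_congr rfl fun m _ => by
            rw [le_one', zsmul_fn, ← neg_smul]; simp [Prod.add_def]

theorem aug_rf {u : Zc K} (h : SuppN n u) : aug K n (rf K u) = aug K n (lf K u) := by
  rw [aug_eq, aug_eq, add_comm]
  refine congrArg₂ (· + ·) ?_ ?_
  · have key := sum_deg2_shift n (n - 1) (0, -1) (fun m => u 0 1 m • mono K (m.1, m.2 + 1))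
      fun m hm => by
        obtain ⟨a, b, c⟩ := h 0 1 m fun e => hm (by rw [e, zero_smul])
        simp [mem_deg2, ob] at c ⊢; omega
    calc _ = ∑ m ∈ deg2 (n - 1), u 0 1 m • mono K (m.1, m.2 + 1) :=
          Finset.sum_congr rfl fun m _ => by rw [rf_one, mul_smul, gy_smul_mono]
      _ = _ := key.symm
      _ = _ := Finset.sum_congr rfl fun m _ => by simp [lf_zero', sub_eq_add_neg, Prod.add_def]
  · have key := sum_deg2_shift (n - 1) n (1, 0)
      (fun m => (m.1 : K) • u 1 0 m • mono K (m.1 - 1, m.2)) fun m hm => by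
        obtain ⟨a, b, c⟩ := h 1 0 m fun e => hm (by rw [e, zero_smul, smul_zero])
        have : m.1 ≠ 0 := fun e => hm (by rw [e]; simp)
        simp [mem_deg2, ob] at c ⊢; omega
    calc _ = ∑ m ∈ deg2 n, (m.1 : K) • u 1 0 m • mono K (m.1 - 1, m.2) :=
          Finset.sum_congr rfl fun m _ => by
            rw [rf_zero, mul_smul, gdx_smul_mono, smul_comm]
      _ = _ := key.symm
      _ = _ := Finset.sum_congr rfl fun m _ => by
            rw [lf_one', zsmul_fn]; simp [Prod.add_def]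

theorem RowP.suppN {σ : Fin 2} {w e : ℤ} {z : Zc K} (h : RowP σ w n e z) : SuppN n z :=
  fun vp b m h0 => (h vp b m h0).2.1

theorem aug_d1_supp {u : Zc K × Zc K} (h : SuppN n u.1) (h' : SuppN n u.2) :
    aug K n (d1 K u) = 0 := by
  simp only [d1, LinearMap.coprod_apply, LinearMap.sub_apply, aug_add, aug_sub, aug_re h,
    aug_rf h', sub_self, add_zero]

/-! The evaluation of the top cochains. -/

theorem coAug_eq (z : Zc K) (f : Fn K) : coAug K n z f
    = (∑ m ∈ deg2 n, (z 0 0 m • f) m) - ∑ m ∈ deg2 (n - 1), (z 1 1 m • f) m := by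
  show ∑ b : Fin 2, (-1 : K) ^ b.val * ∑ m ∈ deg2 (n + ob b), (z b b m • f) m = _
  rw [Fin.sum_univ_two]
  simp [ob, sub_eq_add_neg]

theorem coAug_add (z z' : Zc K) (f : Fn K) :
    coAug K n (z + z') f = coAug K n z f + coAug K n z' f := by
  simp only [coAug_eq, Pi.add_apply, add_smul, Finset.sum_add_distrib]
  abel

theorem coAug_sub (z z' : Zc K) (f : Fn K) :
    coAug K n (z - z') f = coAug K n z f - coAug K n z' f := by
  have := coAug_add (n := n) (z - z') z' f
  rw [sub_add_cancel] at this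
  exact eq_sub_of_add_eq this.symm

theorem coAug_rmul (a : Am K) (z : Zc K) (f : Fn K) :
    coAug K n (rmul a z) f = coAug K n z (a • f) := by
  simp only [coAug_eq, rmul_apply, mul_smul]

variable {σ : Fin 2} {v w e : ℤ}

theorem ColP.eval_mem {u : Zc K} (h : ColP σ v n e u) (vp b : Fin 2) (m : ℤ × ℤ) {f : Fn K}
    (hf : f ∈ Hom2 K (n - v)) {p : ℤ × ℤ} (hp : (u vp b m • f) p ≠ 0) :
    Sup n b m ∧ 0 ≤ p.1 ∧ 0 ≤ p.2 ∧ p.1 + p.2 = n + ob vp := by
  have h0 : u vp b m ≠ 0 := fun e => hp (by rw [e, zero_smul]; rfl)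
  obtain ⟨-, h2, h3⟩ := h vp b m h0
  obtain ⟨a, b', c⟩ := actFn_hom2 h3 hf p hp
  exact ⟨h2, a, b', by omega⟩

theorem coAug_rfL {u : Zc K} (h : ColP σ v n e u) {f : Fn K} (hf : f ∈ Hom2 K (n - v)) :
    coAug K n (rfL K u + lfT K u) f = 0 := by
  have e1 : ∑ m ∈ deg2 n, (rfL K u 0 0 m • f) m = ∑ m ∈ deg2 (n - 1), (lfT K u 1 1 m • f) m := by
    have key := sum_deg2_shift (n - 1) n (0, 1) (fun m => (u 1 0 m • f) (m.1, m.2 - 1))
      fun m hm => by
        obtain ⟨⟨-, -, s⟩, a, b, c⟩ := h.eval_mem 1 0 m hf hm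
        simp [mem_deg2, ob] at s a b c ⊢; omega
    calc _ = ∑ m ∈ deg2 n, (u 1 0 m • f) (m.1, m.2 - 1) :=
          Finset.sum_congr rfl fun m _ => by rw [rfL_zero, mul_smul, gy_smul_apply]
      _ = _ := key.symm
      _ = _ := Finset.sum_congr rfl fun m hm => by
            obtain ⟨a, b, -⟩ := mem_deg2.mp hm
            rw [lfT_one', if_pos ⟨a, b⟩]; simp [Prod.add_def]
  have e2 : ∑ m ∈ deg2 (n - 1), (rfL K u 1 1 m • f) m
      = ∑ m ∈ deg2 n, (lfT K u 0 0 m • f) m := by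
    have key := sum_deg2_shift n (n - 1) (-1, 0)
      (fun m => ((m.1 : K) + 1) * (u 0 1 m • f) (m.1 + 1, m.2)) fun m hm => by
        obtain ⟨⟨s1, s2, s⟩, -, b, c⟩ := h.eval_mem 0 1 m hf (right_ne_zero_of_mul hm)
        simp [mem_deg2, ob] at s s1 s2 b c ⊢; omega
    calc _ = ∑ m ∈ deg2 (n - 1), ((m.1 : K) + 1) * (u 0 1 m • f) (m.1 + 1, m.2) :=
          Finset.sum_congr rfl fun m _ => by rw [rfL_one, mul_smul, gdx_smul_apply]
      _ = _ := key.symm
      _ = _ := Finset.sum_congr rfl fun m hm => by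
            obtain ⟨a, b, -⟩ := mem_deg2.mp hm
            rw [lfT_zero', if_pos ⟨a, b⟩, zsmul_fn]
            simp [sub_eq_add_neg, Prod.add_def]
  rw [coAug_add, coAug_eq, coAug_eq, e1, e2]
  abel

theorem coAug_reL {u : Zc K} (h : ColP σ v n e u) {f : Fn K} (hf : f ∈ Hom2 K (n - v)) :
    coAug K n (reL K u + leT K u) f = 0 := by
  have e1 : ∑ m ∈ deg2 n, (reL K u 0 0 m • f) m = ∑ m ∈ deg2 (n - 1), (leT K u 1 1 m • f) m := by
    have key := sum_deg2_shift (n - 1) n (1, 0) (fun m => (u 1 0 m • f) (m.1 - 1, m.2))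
      fun m hm => by
        obtain ⟨⟨-, -, s⟩, a, b, c⟩ := h.eval_mem 1 0 m hf hm
        simp [mem_deg2, ob] at s a b c ⊢; omega
    calc _ = ∑ m ∈ deg2 n, (u 1 0 m • f) (m.1 - 1, m.2) :=
          Finset.sum_congr rfl fun m _ => by rw [reL_zero, mul_smul, gx_smul_apply]
      _ = _ := key.symm
      _ = _ := Finset.sum_congr rfl fun m hm => by
            obtain ⟨a, b, -⟩ := mem_deg2.mp hm
            rw [leT_one', if_pos ⟨a, b⟩]; simp [Prod.add_def]
  have e2 : ∑ m ∈ deg2 (n - 1), (reL K u 1 1 m • f) m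
      = ∑ m ∈ deg2 n, (leT K u 0 0 m • f) m := by
    have key := sum_deg2_shift n (n - 1) (0, -1)
      (fun m => -(((m.2 : K) + 1) * (u 0 1 m • f) (m.1, m.2 + 1))) fun m hm => by
        obtain ⟨⟨s1, s2, s⟩, a, -, c⟩ :=
          h.eval_mem 0 1 m hf (right_ne_zero_of_mul (neg_ne_zero.mp hm))
        simp [mem_deg2, ob] at s s1 s2 a c ⊢; omega
    calc _ = ∑ m ∈ deg2 (n - 1), -(((m.2 : K) + 1) * (u 0 1 m • f) (m.1, m.2 + 1)) :=
          Finset.sum_congr rfl fun m _ => by
            rw [reL_one, neg_smul, mul_smul, Pi.neg_apply, gdy_smul_apply]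
      _ = _ := key.symm
      _ = _ := Finset.sum_congr rfl fun m hm => by
            obtain ⟨a, b, -⟩ := mem_deg2.mp hm
            rw [leT_zero', if_pos ⟨a, b⟩, zsmul_fn]
            simp [sub_eq_add_neg, Prod.add_def]
  rw [coAug_add, coAug_eq, coAug_eq, e1, e2]
  abel

theorem coAug_c3_col {u : Zc K × Zc K} (h : ColP2 σ v n e u) {f : Fn K} (hf : f ∈ Hom2 K (n - v)) :
    coAug K n (c3 K u) f = 0 := by
  have h2 : c3 K u = (rfL K u.1 + lfT K u.1) - (reL K u.2 + leT K u.2) := by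
    simp only [c3, AddMonoidHom.coprod_apply, AddMonoidHom.add_apply, AddMonoidHom.neg_apply]
    abel
  rw [h2, coAug_sub, coAug_rfL h.1 hf, coAug_reL h.2 hf, sub_self]

/-! Constants. -/

open Classical in
variable (K n) in
/-- the constants `g` in the block `b0` -/
noncomputable def constC (b0 : Fin 2) (g : ℤ × ℤ → K) : Zc K := fun vp b m =>
  if vp = b0 ∧ b = b0 ∧ Sup n b0 m then algebraMap K (Am K) (g m) else 0

theorem constC_cst {b0 : Fin 2} {g : ℤ × ℤ → K} : Cst 0 (ob b0) n (constC K n b0 g) := by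
  intro vp b m h
  simp only [constC] at h ⊢
  by_cases hc : vp = b0 ∧ b = b0 ∧ Sup n b0 m
  · rw [if_pos hc]
    exact ⟨by rw [hc.1, hc.2.1, add_zero], hc.2.1.symm ▸ hc.2.2, by rw [hc.1, sub_self], _, rfl⟩
  · exact absurd (if_neg hc) h

theorem constC_cm {b0 : Fin 2} {g : ℤ × ℤ → K} (he : 0 ≤ e) :
    ColP 0 (-ob b0) n e (constC K n b0 g) := by
  intro vp b m h
  obtain ⟨h1, h2, h3, c, hc⟩ := constC_cst vp b m h
  exact ⟨h1, h2, by rw [hc, show ob vp + -ob b0 = 0 by omega]; exact inW_const c he⟩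

theorem constC_self {b0 : Fin 2} {g : ℤ × ℤ → K} {m : ℤ × ℤ} (hm : m ∈ deg2 (n + ob b0)) :
    constC K n b0 g b0 b0 m = algebraMap K (Am K) (g m) := by
  simp only [constC]
  exact if_pos ⟨rfl, rfl, mem_deg2.mp hm⟩

theorem constC_other {b0 b : Fin 2} {g : ℤ × ℤ → K} (hb : b ≠ b0) (m : ℤ × ℤ) :
    constC K n b0 g b b m = 0 := by
  simp only [constC]
  exact if_neg fun h => hb h.2.1

theorem aug_constC {b0 : Fin 2} {g : ℤ × ℤ → K} (hg : g ∈ Hom2 K (n + ob b0)) :
    aug K n (constC K n b0 g) = g := by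
  show ∑ b, ∑ m ∈ deg2 (n + ob b), constC K n b0 g b b m • mono K m = g
  rw [Fintype.sum_eq_single b0 fun b hb => Finset.sum_eq_zero fun m _ => by
    rw [constC_other hb, zero_smul]]
  conv_rhs => rw [hom2_eq_sum hg]
  exact Finset.sum_congr rfl fun m hm => by rw [constC_self hm, algebraMap_fn]

theorem coAug_constC {b0 : Fin 2} (g : ℤ × ℤ → K) (f : Fn K) :
    coAug K n (constC K n b0 g) f
      = (-1 : K) ^ b0.val * ∑ m ∈ deg2 (n + ob b0), g m * f m := by
  show ∑ b : Fin 2, (-1 : K) ^ b.val * ∑ m ∈ deg2 (n + ob b),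
    (constC K n b0 g b b m • f) m = _
  rw [Fintype.sum_eq_single b0 fun b hb => by
    rw [Finset.sum_eq_zero fun m _ => by rw [constC_other hb, zero_smul]; rfl, mul_zero]]
  congr 1
  exact Finset.sum_congr rfl fun m hm => by
    rw [constC_self hm, algebraMap_fn]; rfl

theorem coAug_constC_mono {b0 : Fin 2} (g : ℤ × ℤ → K) {p : ℤ × ℤ}
    (hp : p ∈ deg2 (n + ob b0)) :
    coAug K n (constC K n b0 g) (mono K p) = (-1 : K) ^ b0.val * g p := by
  rw [coAug_constC, Finset.sum_eq_single p]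
  · simp [mono]
  · intro m _ hm; simp [mono, hm]
  · exact fun h => absurd hp h

/-- constants are supported in one block -/
theorem Cst.exists_constC {z : Zc K} (h : Cst 0 w n z) (hz : z ≠ 0) :
    ∃ b0 g, w = ob b0 ∧ g ∈ Hom2 K (n + ob b0) ∧ z = constC K n b0 g := by
  classical
  obtain ⟨vp, b, m, hne⟩ : ∃ vp b m, z vp b m ≠ 0 := by
    by_contra hh
    push Not at hh
    exact hz (by funext vp b m; exact hh vp b m)
  obtain ⟨h1, -, h3, -⟩ := h vp b m hne
  rw [add_zero] at h1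
  subst h1
  let g : ℤ × ℤ → K := fun p =>
    if hp : z vp vp p ≠ 0 then (h vp vp p hp).2.2.2.choose else 0
  have hg : ∀ p, z vp vp p = algebraMap K (Am K) (g p) := fun p => by
    by_cases hp : z vp vp p ≠ 0
    · simp only [g, dif_pos hp]; exact (h vp vp p hp).2.2.2.choose_spec
    · simp only [g, dif_neg hp, map_zero]; exact not_not.mp hp
  refine ⟨vp, g, by omega, fun p hp => ?_, ?_⟩
  · by_cases hzp : z vp vp p ≠ 0
    · exact (h vp vp p hzp).2.1
    · exact absurd (by simp only [g, dif_neg hzp]) hp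
  · funext q c p
    simp only [constC]
    by_cases hc : q = vp ∧ c = vp ∧ Sup n vp p
    · obtain ⟨rfl, rfl, hs⟩ := hc
      rw [if_pos ⟨rfl, rfl, hs⟩]
      exact hg p
    · rw [if_neg hc]
      by_contra hq
      obtain ⟨a1, a2, a3, -⟩ := h q c p hq
      rw [add_zero] at a1
      subst a1
      have : q = vp := by
        rcases two_cases q with rfl | rfl <;> rcases two_cases vp with rfl | rfl <;>
          first | rfl | (simp [ob] at a3 h3; omega)
      subst this
      exact hc ⟨rfl, rfl, a2⟩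

theorem Cst.eq_zero_of_aug {z : Zc K} (h : Cst 0 w n z) (ha : aug K n z = 0) : z = 0 := by
  by_contra hz
  obtain ⟨b0, g, -, hg, e⟩ := h.exists_constC hz
  rw [e, aug_constC hg] at ha
  refine hz ?_
  rw [e, ha]
  funext q c p
  simp [constC]

theorem Cst.eq_zero_of_coAug {z : Zc K} (h : Cst 0 (-v) n z)
    (ha : ∀ p ∈ deg2 (n - v), coAug K n z (mono K p) = 0) : z = 0 := by
  by_contra hz
  obtain ⟨b0, g, hw, hg, e⟩ := h.exists_constC hz
  have hv : n - v = n + ob b0 := by omega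
  refine hz ?_
  have hg0 : g = 0 := funext fun p => by
    by_cases hp : p ∈ deg2 (n + ob b0)
    · have := ha p (by rwa [hv])
      rw [e, coAug_constC_mono g hp] at this
      exact (mul_eq_zero.mp this).resolve_left (pow_ne_zero _ (by simp))
    · exact not_not.mp fun hne => hp (mem_deg2.mpr (hg p hne))
  rw [e, hg0]
  funext q c p
  simp [constC]

end Vale.Agent.P195
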