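import Vale.Agent.P195.Killer

/-!
The interface between the window algebra and the killing construction.
-/

namespace Vale.Agent.P195

open CategoryTheory

/-- vanishing of an Ext group of modules -/
abbrev ExtVan (R : Type) [Ring R] (M N : Type) [AddCommGroup M] [Module R M] [AddCommGroup N]
    [Module R N] (i : ℕ) : Prop :=
  Subsingleton (Abelian.Ext (ModuleCat.of R M) (ModuleCat.of R N) i)

variable (K : Type) [Field K] (A₀ : Type) [Ring A₀] [Algebra K A₀]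
  (X X₁ H : Type) [AddCommGroup X] [Module A₀ X] [Module K X] [IsScalarTower K A₀ X]
  [AddCommGroup X₁] [Module A₀ X₁] [Module K X₁] [IsScalarTower K A₀ X₁]
  [AddCommGroup H] [Module A₀ H] [Module K H] [IsScalarTower K A₀ H]

/-- A module `X` with one self-extension class in degree three, coming from a cocycle, an orbit
module `X₁` and a module `H` extending `X` by `X₁` with a four-term projective resolution. -/
structure Base where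
  θ : Cocycle K A₀
  ext_proj : ∀ i, 3 ≤ i → ExtVan A₀ X A₀ i
  ext_proj_one : ExtVan A₀ X A₀ 1
  ext_proj_two : ¬ ExtVan A₀ X A₀ 2
  ext_orbit : ∀ i, ExtVan A₀ X₁ X i
  inc : X₁ →ₗ[A₀] H
  pr : H →ₗ[A₀] X
  inc_inj : Function.Injective inc
  pr_surj : Function.Surjective pr
  ex : LinearMap.ker pr = LinearMap.range inc
  ε : Fin 4 → A₀
  idem : ∀ p, ε p * ε p = ε p
  norm_left : ∀ p b c, θ.θ (ε p) b c = 0
  norm_mid : ∀ p a c, θ.θ a (ε p) c = 0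
  norm_right : ∀ p a b, θ.θ a b (ε p) = 0
  d1 : Fin 2 → A₀
  d2 : Fin 2 → Fin 2 → A₀
  d3 : Fin 2 → A₀
  d1_eq : ∀ j, ε 1 * d1 j * ε 0 = d1 j
  d2_eq : ∀ i j, ε 2 * d2 i j * ε 1 = d2 i j
  d3_eq : ∀ i, ε 3 * d3 i * ε 2 = d3 i
  d32 : ∀ j, ∑ i, d3 i * d2 i j = 0
  d21 : ∀ i, ∑ j, d2 i j * d1 j = 0
  gen : H
  gen_eq : ε 0 • gen = gen
  gen_span : ∀ h : H, ∃ a : A₀, a • gen = h
  d1_gen : ∀ j, d1 j • gen = 0
  exact3 : ∀ u, u * ε 3 = u → (∀ i, u * d3 i = 0) → u = 0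
  exact2 : ∀ u : Fin 2 → A₀, (∀ i, u i * ε 2 = u i) → (∀ j, ∑ i, u i * d2 i j = 0) →
    ∃ v, v * ε 3 = v ∧ ∀ i, v * d3 i = u i
  exact1 : ∀ u : Fin 2 → A₀, (∀ j, u j * ε 1 = u j) → ∑ j, u j * d1 j = 0 →
    ∃ v : Fin 2 → A₀, (∀ i, v i * ε 2 = v i) ∧ ∀ j, ∑ i, v i * d2 i j = u j
  exact0 : ∀ u, u * ε 0 = u → u • gen = 0 →
    ∃ v : Fin 2 → A₀, (∀ j, v j * ε 1 = v j) ∧ ∑ j, v j * d1 j = u
  x₀ : X
  x₀_ne : x₀ ≠ 0
  x₀_pr : pr gen = x₀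
  x₀_ε0 : ε 0 • x₀ = x₀
  x₀_gen : ∀ x : X, ∃ a : A₀, a • x₀ = x
  X_span0 : ∀ x : X, ∃ c : K, c • x₀ = ε 0 • x
  X_ε1 : ∀ x : X, ε 1 • x = 0
  X_ε2 : ∀ x : X, ε 2 • x = 0
  X_span3 : ∀ x : X, ∃ c : K, c • ((∑ i, ∑ j, θ.θ (d3 i) (d2 i j) (d1 j)) • x₀) = ε 3 • x
  theta_ne : (∑ i, ∑ j, θ.θ (d3 i) (d2 i j) (d1 j)) • x₀ ≠ 0

end Vale.Agent.P195
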