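import Vale.Agent.P195.ColExact

/-!
Exactness of the row and column complexes (`d1_d2`, `d2_d3` are in `Rels`, `c2_c1`, `c3_c2` in
`CoRels`).
-/

namespace Vale.Agent.P195

variable {K : Type} [Field K]

theorem comem_iff {v n D : ℤ} {q : Fin 4} {z : Zc K} :
    CoMem K v n D q z ↔ ColP (lp q) v n (D + lv q) z := Iff.rfl

theorem coMem2_one {v n D : ℤ} {u : Zc K × Zc K} :
    CoMem2 K v n D 1 u ↔ ColP2 1 v n (D + 1) u := Iff.rfl

theorem coMem2_two {v n D : ℤ} {u : Zc K × Zc K} :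
    CoMem2 K v n D 2 u ↔ ColP2 1 v n (D + 3) u := Iff.rfl

theorem mem2_one {w n D : ℤ} {u : Zc K × Zc K} :
    Mem2 K w n D 1 u ↔ RowP2 1 w n (D - 1) u := Iff.rfl

theorem mem2_two {w n D : ℤ} {u : Zc K × Zc K} :
    Mem2 K w n D 2 u ↔ RowP2 1 w n (D - 3) u := Iff.rfl

theorem mem_zero {w n D : ℤ} {z : Zc K} :
    Mem K w n D 0 z ↔ RowP 0 w n (D - 0) z := Iff.rfl

theorem mem_three {w n D : ℤ} {z : Zc K} :
    Mem K w n D 3 z ↔ RowP 0 w n (D - 4) z := Iff.rfl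

variable {w v : ℤ} {n : ℕ} {D : ℤ}

theorem d1_mem {u : Zc K × Zc K} (h : Mem2 K w n D 1 u) : Mem K w n D 0 (d1 K u) := by
  refine mem_zero.mpr ?_
  have := RowP2.d1 (σ := 0) (mem2_one.mp h)
  rwa [sub_add_cancel, ← sub_zero D] at this
theorem d2_mem {u : Zc K × Zc K} (h : Mem2 K w n D 2 u) : Mem2 K w n D 1 (d2 K u) := by
  refine mem2_one.mpr ?_
  have := (mem2_two.mp h).d2
  rwa [show D - 3 + 2 = D - 1 by ring] at this
theorem d3_mem {z : Zc K} (h : Mem K w n D 3 z) : Mem2 K w n D 2 (d3 K z) := by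
  refine mem2_two.mpr ?_
  have := (mem_three.mp h).d3
  rwa [show D - 4 + 1 = D - 3 by ring, zero_add] at this
theorem c1_mem {z : Zc K} (h : CoMem K v n D 0 z) : CoMem2 K v n D 1 (c1 K z) := by
  refine coMem2_one.mpr ?_
  have := ColP.c1 (σ := 0) (e := D + 0) h
  rwa [add_zero, zero_add] at this
theorem c2_mem {u : Zc K × Zc K} (h : CoMem2 K v n D 1 u) : CoMem2 K v n D 2 (c2 K u) := by
  refine coMem2_two.mpr ?_
  have := (coMem2_one.mp h).c2
  rwa [show D + 1 + 2 = D + 3 by ring] at this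
theorem c3_mem {u : Zc K × Zc K} (h : CoMem2 K v n D 2 u) : CoMem K v n D 3 (c3 K u) := by
  have := (coMem2_two.mp h).c3
  rw [show D + 3 + 1 = D + 4 by ring] at this
  exact this

theorem aug_d1 {u : Zc K × Zc K} (h : Mem2 K w n D 1 u) : aug K n (d1 K u) = 0 :=
  aug_d1_supp (Mem.suppN h.1) (Mem.suppN h.2)

theorem coAug_c3 {u : Zc K × Zc K} (h : CoMem2 K v n D 2 u) {f : Fn K}
    (hf : f ∈ Hom2 K ((n : ℤ) - v)) : coAug K n (c3 K u) f = 0 :=
  coAug_c3_col (coMem2_two.mp h) hf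

variable [CharZero K]

/-! The rows: `w = off r + s ∈ {-1, 0, 1}`. -/

theorem exact_q3 (hw : w = -1 ∨ w = 0 ∨ w = 1) {z : Zc K} (h : Mem K w n D 3 z)
    (e : d3 K z = 0) : z = 0 :=
  row_q3 (ε := 0) (by omega) (mem_three.mp h) e

theorem exact_q2 (hw : w = -1 ∨ w = 0 ∨ w = 1) (hD : w = 1 → 2 ≤ D) {z : Zc K × Zc K}
    (h : Mem2 K w n D 2 z) (e : d2 K z = 0) : ∃ u, Mem K w n D 3 u ∧ d3 K u = z := by
  obtain ⟨u, hu, eu⟩ := row_q2 (ε := 0) (by omega) (by omega) (mem2_two.mp h) e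
  exact ⟨u, mem_three.mpr (by rwa [show D - 4 = D - 3 - 1 by ring]), eu⟩

theorem exact_q1 (hw : w = -1 ∨ w = 0 ∨ w = 1) (hD : w = 1 → 2 ≤ D) {z : Zc K × Zc K}
    (h : Mem2 K w n D 1 z) (e : d1 K z = 0) : ∃ u, Mem2 K w n D 2 u ∧ d2 K u = z := by
  obtain ⟨u, hu, eu⟩ := row0_q1 (by omega) (by omega) (mem2_one.mp h) e
  exact ⟨u, mem2_two.mpr (by rwa [show D - 3 = D - 1 - 2 by ring]), eu⟩

theorem exact_q0 (hw : w = -1 ∨ w = 0 ∨ w = 1) (hD : w = 1 → 2 ≤ D) {z : Zc K}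
    (h : Mem K w n D 0 z) (e : aug K n z = 0) : ∃ u, Mem2 K w n D 1 u ∧ d1 K u = z := by
  obtain ⟨u, hu, eu⟩ := row0_q0 (by omega) (by omega) (by simpa using hD) (mem_zero.mp h) e
  exact ⟨u, mem2_one.mpr (by rwa [sub_zero] at hu), eu⟩

/-! The columns: `v = s - off c ∈ {0, 1, 2}`. -/

theorem coexact_q0 (hv : v = 0 ∨ v = 1 ∨ v = 2) {z : Zc K} (h : CoMem K v n D 0 z)
    (e : c1 K z = 0) : z = 0 :=
  col_q0 (e := D + 0) (by omega) h e

theorem coexact_q1 (hv : v = 0 ∨ v = 1 ∨ v = 2) (hD : v = 2 → -2 ≤ D) {z : Zc K × Zc K}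
    (h : CoMem2 K v n D 1 z) (e : c2 K z = 0) : ∃ u, CoMem K v n D 0 u ∧ c1 K u = z := by
  obtain ⟨u, hu, eu⟩ := col_q1 (by omega) (by omega) (coMem2_one.mp h) e
  exact ⟨u, comem_iff.mpr (by simpa [lp, lv] using hu), eu⟩

theorem coexact_q2 (hv : v = 0 ∨ v = 1 ∨ v = 2) (hD : v = 2 → -2 ≤ D) (hn : v = 2 → n ≠ 0)
    {z : Zc K × Zc K} (h : CoMem2 K v n D 2 z) (e : c3 K z = 0) :
    ∃ u, CoMem2 K v n D 1 u ∧ c2 K u = z := by
  rcases (show v ≤ 1 ∨ v = 2 by omega) with hv1 | rfl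
  · obtain ⟨u, hu, eu⟩ := col_q2 (by omega) hv1 (coMem2_two.mp h) e
    exact ⟨u, coMem2_one.mpr (by rwa [show D + 1 = D + 3 - 2 by ring]), eu⟩
  · obtain ⟨u, hu, eu⟩ := col2_q2 (by have := hn rfl; omega) (coMem2_two.mp h) e
    exact ⟨u, coMem2_one.mpr (by rwa [show D + 1 = D + 3 - 2 by ring]), eu⟩

theorem coexact_q2_exception :
    ∃ z : Zc K × Zc K, CoMem2 K 2 ((0 : ℕ) : ℤ) 2 2 z ∧ c3 K z = 0 ∧
      ∀ u, CoMem2 K 2 ((0 : ℕ) : ℤ) 2 1 u → c2 K u ≠ z := by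
  refine ⟨(fun vp b m => if vp = 1 ∧ b = 0 ∧ m = (0, 0) then gx K else 0,
    fun vp b m => if vp = 1 ∧ b = 0 ∧ m = (0, 0) then gy K else 0),
    ⟨fun vp b m h0 => ?_, fun vp b m h0 => ?_⟩, ?_, fun u _ hu => ?_⟩
  · by_cases hc : vp = 1 ∧ b = 0 ∧ m = (0, 0)
    · simp only [if_pos hc] at h0 ⊢
      obtain ⟨rfl, rfl, rfl⟩ := hc
      refine ⟨by simp [lp], ⟨le_rfl, le_rfl, by simp [ob]⟩, ?_⟩
      have := inW_mono (inW_gx_mul (inW_const (K := K) 1 le_rfl)) (show (0 : ℤ) + 1 ≤ 5 by omega)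
      simpa [ob, lv] using this
    · simp only [if_neg hc] at h0; exact absurd rfl h0
  · by_cases hc : vp = 1 ∧ b = 0 ∧ m = (0, 0)
    · simp only [if_pos hc] at h0 ⊢
      obtain ⟨rfl, rfl, rfl⟩ := hc
      refine ⟨by simp [lp], ⟨le_rfl, le_rfl, by simp [ob]⟩, ?_⟩
      have := inW_mono (inW_gy_mul (inW_const (K := K) 1 le_rfl)) (show (0 : ℤ) + 1 ≤ 5 by omega)
      simpa [ob, lv] using this
    · simp only [if_neg hc] at h0; exact absurd rfl h0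
  · simp only [c3, AddMonoidHom.coprod_apply, AddMonoidHom.add_apply, AddMonoidHom.neg_apply]
    funext vp b m
    simp only [Pi.add_apply, Pi.neg_apply, Pi.zero_apply]
    rcases two_cases vp with rfl | rfl <;> rcases two_cases b with rfl | rfl <;>
      simp only [reL_zero, reL_one, rfL_zero, rfL_one, leT_zero', leT_one', lfT_zero', lfT_one']
    all_goals
      by_cases hm : m = (0, 0)
      · subst hm; simp [gx_gy]
      · obtain ⟨i, j⟩ := m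
        simp [Prod.ext_iff] at hm ⊢
        try (split_ifs <;> first | omega | simp)
  · have key := congrFun (congrFun (congrFun (congrArg Prod.fst hu) 1) 0) (0, 0)
    simp only [c2, AddMonoidHom.prod_apply, AddMonoidHom.coprod_apply, AddMonoidHom.add_apply,
      AddMonoidHom.sub_apply, AddMonoidHom.comp_apply, AddMonoidHom.id_apply, Pi.add_apply,
      Pi.sub_apply, reL_zero, reL_one, rfL_one, leT_zero', lfT_zero', le_refl, and_self, if_pos,
      neg_zero, zero_zsmul, zero_add, sub_zero, mul_zero] at key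
    have e1 : gx K * (gdx K * u.1 1 0 (0, 0) + gdy K * u.2 1 0 (0, 0)) = -gx K := by
      conv_rhs => rw [← key]
      rw [← mul_assoc (gdx K) (gx K), gdx_gx, ← mul_assoc (gdy K) (gx K), gdy_gx,
        add_mul, one_mul, mul_add, mul_assoc, mul_assoc]
      abel
    have e2 : gdx K * u.1 1 0 (0, 0) + gdy K * u.2 1 0 (0, 0) + 1 = 0 :=
      gx_mul_cancel (by rw [mul_add, e1, mul_one, neg_add_cancel])
    have e3 := congrArg tau e2
    rw [map_add, map_add, map_zero, tau_mul, tau_mul, tau_gdx, tau_gdy, tau_one, am_mul_neg,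
      am_mul_neg] at e3
    have e4 : tau (u.2 1 0 (0, 0)) * gdx K + tau (u.1 1 0 (0, 0)) * gdy K
        = algebraMap K (Am K) 1 := by
      rw [map_one, ← sub_eq_zero, ← neg_eq_zero, ← e3]
      abel
    exact one_ne_zero (const_d e4)

theorem coexact_q3 (hv : v = 0 ∨ v = 1 ∨ v = 2) (hD : v = 2 → -2 ≤ D) {z : Zc K}
    (h : CoMem K v n D 3 z) (e : ∀ f ∈ Hom2 K ((n : ℤ) - v), coAug K n z f = 0) :
    ∃ u, CoMem2 K v n D 2 u ∧ c3 K u = z := by
  have hp : ∀ p ∈ deg2 ((n : ℤ) - v), coAug K n z (mono K p) = 0 := fun p hp =>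
    e _ (mono_mem hp)
  rcases (show v ≤ 1 ∨ v = 2 by omega) with hv1 | rfl
  · obtain ⟨u, hu, eu⟩ := col_q3 (e := D + 4) (by omega) hv1 h hp
    exact ⟨u, coMem2_two.mpr (by rwa [show D + 3 = D + 4 - 1 by ring]), eu⟩
  · obtain ⟨u, hu, eu⟩ := col2_q3 (e := D + 4) (by have := hD rfl; omega) h hp
    exact ⟨u, coMem2_two.mpr (by rwa [show D + 3 = D + 4 - 1 by ring]), eu⟩

end Vale.Agent.P195
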