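import Vale.Agent.P195.LadderBase

/-!
Ext groups along a ladder `0 → X (n+1) → H n → X n → 0` whose middle terms have resolutions of
length three.
-/

namespace Vale.Agent.P195

set_option linter.style.haveILetI false

/-- a projective resolution of length three -/
structure Res (R : Type) [Ring R] (H P₀ P₁ P₂ P₃ : Type) [AddCommGroup H] [Module R H]
    [AddCommGroup P₀] [Module R P₀] [AddCommGroup P₁] [Module R P₁] [AddCommGroup P₂] [Module R P₂]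
    [AddCommGroup P₃] [Module R P₃] where
  d₁ : P₁ →ₗ[R] P₀
  d₂ : P₂ →ₗ[R] P₁
  d₃ : P₃ →ₗ[R] P₂
  π : P₀ →ₗ[R] H
  surj : Function.Surjective π
  ex₀ : Function.Exact d₁ π
  ex₁ : Function.Exact d₂ d₁
  ex₂ : Function.Exact d₃ d₂
  inj : Function.Injective d₃
  proj₀ : Module.Projective R P₀
  proj₁ : Module.Projective R P₁
  proj₂ : Module.Projective R P₂
  proj₃ : Module.Projective R P₃

variable {R : Type} [Ring R] {M : Type} [AddCommGroup M] [Module R M]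

namespace Res

variable {H P₀ P₁ P₂ P₃ : Type} [AddCommGroup H] [Module R H]
    [AddCommGroup P₀] [Module R P₀] [AddCommGroup P₁] [Module R P₁] [AddCommGroup P₂] [Module R P₂]
    [AddCommGroup P₃] [Module R P₃] (P : Res R H P₀ P₁ P₂ P₃)

theorem ses₀ : Ses (LinearMap.range P.d₁).subtype P.π :=
  ⟨Submodule.injective_subtype _, P.surj, fun y => by
    rw [P.ex₀ y]
    exact ⟨fun ⟨x, hx⟩ => ⟨⟨y, x, hx⟩, rfl⟩, fun ⟨⟨_, x, hx⟩, h⟩ => ⟨x, hx.trans h⟩⟩⟩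

theorem ses₁ : Ses (LinearMap.range P.d₂).subtype P.d₁.rangeRestrict := by
  refine ⟨Submodule.injective_subtype _, LinearMap.surjective_rangeRestrict _, fun y => ?_⟩
  constructor
  · intro hy
    obtain ⟨x, hx⟩ := (P.ex₁ y).1 (by simpa using congrArg Subtype.val hy)
    exact ⟨⟨y, x, hx⟩, rfl⟩
  · rintro ⟨⟨_, x, rfl⟩, rfl⟩
    exact Subtype.ext (by simpa using P.ex₁.apply_apply_eq_zero x)

theorem ses₂ : Ses P.d₃ P.d₂.rangeRestrict := by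
  refine ⟨P.inj, LinearMap.surjective_rangeRestrict _, fun y => ?_⟩
  rw [← P.ex₂ y]
  exact ⟨fun h => congrArg Subtype.val h, fun h => Subtype.ext h⟩

/-- the class of degree three of a map on the last term -/
noncomputable def top (φ : P₃ →ₗ[R] M) : Ex R H M 3 :=
  P.ses₀.del (P.ses₁.del (P.ses₂.del (hom₀ φ)))

theorem top_surjective (x : Ex R H M 3) : ∃ φ, P.top φ = x := by
  haveI := P.proj₀; haveI := P.proj₁; haveI := P.proj₂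
  obtain ⟨x₁, rfl⟩ := P.ses₀.del_surjective x
  obtain ⟨x₂, rfl⟩ := P.ses₁.del_surjective x₁
  obtain ⟨x₃, rfl⟩ := P.ses₂.del_surjective x₂
  obtain ⟨φ, rfl⟩ := hom₀_surjective x₃
  exact ⟨φ, rfl⟩

theorem top_eq_zero_iff (φ : P₃ →ₗ[R] M) : P.top φ = 0 ↔ ∃ g, g ∘ₗ P.d₃ = φ := by
  haveI := P.proj₀; haveI := P.proj₁
  rw [← P.ses₂.del_hom₀_eq_zero_iff]
  refine ⟨fun h => P.ses₁.del_injective _ (P.ses₀.del_injective _ h), fun h => ?_⟩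
  rw [top, h, Ses.del_zero, Ses.del_zero]

theorem top_sub (φ ψ : P₃ →ₗ[R] M) (h : ∃ g, g ∘ₗ P.d₃ = φ - ψ) : P.top φ = P.top ψ := by
  obtain ⟨g, hg⟩ := h
  have e : hom₀ φ = hom₀ ψ + hom₀ (g ∘ₗ P.d₃) := by
    rw [hg]
    unfold hom₀
    rw [← CategoryTheory.Abelian.Ext.mk₀_add]
    congr 1
    ext x
    simp
  unfold top
  rw [e]
  congr 2
  rw [P.ses₂.del_add, (P.ses₂.del_hom₀_eq_zero_iff _).2 ⟨g, rfl⟩, add_zero]

theorem zero_deg_zero (h : ∀ φ : P₀ →ₗ[R] M, φ ∘ₗ P.d₁ = 0 → φ = 0) : Subsingleton (Ex R H M 0) := by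
  refine subsingleton_of_forall_eq 0 fun x => ?_
  rw [← pre_eq_zero_iff P.surj]
  obtain ⟨ψ, rfl⟩ := hom₀_surjective x
  rw [pre_hom₀, h (ψ ∘ₗ P.π) (by
    rw [LinearMap.comp_assoc, P.ex₀.linearMap_comp_eq_zero, LinearMap.comp_zero]), hom₀_zero]

theorem zero_deg_one (h : ∀ φ : P₁ →ₗ[R] M, φ ∘ₗ P.d₂ = 0 → ∃ g, g ∘ₗ P.d₁ = φ) :
    Subsingleton (Ex R H M 1) := by
  haveI := P.proj₀
  refine subsingleton_of_forall_eq 0 fun x => ?_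
  obtain ⟨y, rfl⟩ := P.ses₀.del_surjective x
  obtain ⟨φ, rfl⟩ := hom₀_surjective y
  obtain ⟨g, hg⟩ := h (φ ∘ₗ P.d₁.rangeRestrict) (LinearMap.ext fun x => by
    show φ (P.d₁.rangeRestrict (P.d₂ x)) = 0
    rw [show P.d₁.rangeRestrict (P.d₂ x) = 0 from Subtype.ext (P.ex₁.apply_apply_eq_zero x),
      map_zero])
  refine (P.ses₀.del_hom₀_eq_zero_iff φ).2 ⟨g, LinearMap.ext ?_⟩
  rintro ⟨_, z, rfl⟩
  exact LinearMap.congr_fun hg z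

theorem zero_deg_two (h : ∀ φ : P₂ →ₗ[R] M, φ ∘ₗ P.d₃ = 0 → ∃ g, g ∘ₗ P.d₂ = φ) :
    Subsingleton (Ex R H M 2) := by
  haveI := P.proj₀; haveI := P.proj₁
  refine subsingleton_of_forall_eq 0 fun x => ?_
  obtain ⟨y, rfl⟩ := P.ses₀.del_surjective x
  obtain ⟨z, rfl⟩ := P.ses₁.del_surjective y
  obtain ⟨φ, rfl⟩ := hom₀_surjective z
  obtain ⟨g, hg⟩ := h (φ ∘ₗ P.d₂.rangeRestrict) (LinearMap.ext fun x => by
    show φ (P.d₂.rangeRestrict (P.d₃ x)) = 0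
    rw [show P.d₂.rangeRestrict (P.d₃ x) = 0 from Subtype.ext (P.ex₂.apply_apply_eq_zero x),
      map_zero])
  rw [(P.ses₁.del_hom₀_eq_zero_iff φ).2 ⟨g, LinearMap.ext (by
    rintro ⟨_, z, rfl⟩
    exact LinearMap.congr_fun hg z)⟩, Ses.del_zero]

theorem not_zero_deg_two (ψ : P₂ →ₗ[R] M) (h : ψ ∘ₗ P.d₃ = 0)
    (hne : ∀ g, g ∘ₗ P.d₂ ≠ ψ) : ¬ Subsingleton (Ex R H M 2) := by
  haveI := P.proj₀; haveI := P.proj₁
  intro hs
  have hker : LinearMap.ker P.d₂.rangeRestrict ≤ LinearMap.ker ψ := by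
    intro x hx
    obtain ⟨y, rfl⟩ := (P.ex₂ x).1 (by simpa using congrArg Subtype.val (LinearMap.mem_ker.1 hx))
    exact LinearMap.mem_ker.2 (LinearMap.congr_fun h y)
  let e := P.d₂.rangeRestrict.quotKerEquivOfSurjective (LinearMap.surjective_rangeRestrict _)
  let φ : LinearMap.range P.d₂ →ₗ[R] M := (LinearMap.ker P.d₂.rangeRestrict).liftQ ψ hker ∘ₗ e.symm
  have hφ : ∀ x, φ (P.d₂.rangeRestrict x) = ψ x := by
    intro x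
    have : e.symm (P.d₂.rangeRestrict x) = Submodule.Quotient.mk x := e.symm_apply_apply (Submodule.Quotient.mk x)
    simp [φ, this]
  have h1 : P.ses₁.del (hom₀ φ) = 0 :=
    P.ses₀.del_injective _ (Subsingleton.elim _ _)
  obtain ⟨g, hg⟩ := (P.ses₁.del_hom₀_eq_zero_iff φ).1 h1
  exact hne g (LinearMap.ext fun x => (LinearMap.congr_fun hg (P.d₂.rangeRestrict x)).trans (hφ x))

include P in
theorem zero_deg_high (j : ℕ) : Subsingleton (Ex R H M (j + 4)) := by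
  haveI := P.proj₀; haveI := P.proj₁; haveI := P.proj₂; haveI := P.proj₃
  refine subsingleton_of_forall_eq 0 fun x => ?_
  obtain ⟨x₁, rfl⟩ := P.ses₀.del_surjective x
  obtain ⟨x₂, rfl⟩ := P.ses₁.del_surjective x₁
  obtain ⟨x₃, rfl⟩ := P.ses₂.del_surjective x₂
  have : CategoryTheory.Projective (ModuleCat.of R P₃) :=
    (IsProjective.iff_projective P₃).1 inferInstance
  rw [show x₃ = 0 from CategoryTheory.Abelian.Ext.eq_zero_of_projective _, Ses.del_zero,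
    Ses.del_zero, Ses.del_zero]

theorem pre_top {H' P₀' P₁' P₂' P₃' : Type} [AddCommGroup H'] [Module R H']
    [AddCommGroup P₀'] [Module R P₀'] [AddCommGroup P₁'] [Module R P₁'] [AddCommGroup P₂']
    [Module R P₂'] [AddCommGroup P₃'] [Module R P₃'] (P' : Res R H' P₀' P₁' P₂' P₃')
    (c : H' →ₗ[R] H) (f₀ : P₀' →ₗ[R] P₀) (f₁ : P₁' →ₗ[R] P₁) (f₂ : P₂' →ₗ[R] P₂)
    (f₃ : P₃' →ₗ[R] P₃) (h₀ : P.π ∘ₗ f₀ = c ∘ₗ P'.π) (h₁ : P.d₁ ∘ₗ f₁ = f₀ ∘ₗ P'.d₁)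
    (h₂ : P.d₂ ∘ₗ f₂ = f₁ ∘ₗ P'.d₂) (h₃ : P.d₃ ∘ₗ f₃ = f₂ ∘ₗ P'.d₃) (φ : P₃ →ₗ[R] M) :
    pre c (P.top φ) = P'.top (φ ∘ₗ f₃) := by
  have m₁ : ∀ x ∈ LinearMap.range P'.d₁, f₀ x ∈ LinearMap.range P.d₁ := by
    rintro _ ⟨x, rfl⟩
    exact ⟨f₁ x, LinearMap.congr_fun h₁ x⟩
  have m₂ : ∀ x ∈ LinearMap.range P'.d₂, f₁ x ∈ LinearMap.range P.d₂ := by
    rintro _ ⟨x, rfl⟩
    exact ⟨f₂ x, LinearMap.congr_fun h₂ x⟩
  rw [top, top, ← pre_hom₀]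
  rw [P'.ses₀.pre_del P.ses₀ (f₀.restrict m₁) f₀ c rfl h₀.symm,
    P'.ses₁.pre_del P.ses₁ (f₁.restrict m₂) f₁ (f₀.restrict m₁) rfl
      (LinearMap.ext fun x => Subtype.ext (LinearMap.congr_fun h₁ x).symm),
    P'.ses₂.pre_del P.ses₂ f₃ f₂ (f₁.restrict m₂) h₃.symm
      (LinearMap.ext fun x => Subtype.ext (LinearMap.congr_fun h₂ x).symm)]

end Res

section Ladder

variable (X H : ℕ → Type) [∀ n, AddCommGroup (X n)] [∀ n, Module R (X n)]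
  [∀ n, AddCommGroup (H n)] [∀ n, Module R (H n)]
  {P₀ P₁ P₂ P₃ : ℕ → Type} [∀ n, AddCommGroup (P₀ n)] [∀ n, Module R (P₀ n)]
  [∀ n, AddCommGroup (P₁ n)] [∀ n, Module R (P₁ n)] [∀ n, AddCommGroup (P₂ n)]
  [∀ n, Module R (P₂ n)] [∀ n, AddCommGroup (P₃ n)] [∀ n, Module R (P₃ n)]
  {inc : ∀ n, X (n + 1) →ₗ[R] H n} {pr : ∀ n, H n →ₗ[R] X n}
  (S : ∀ n, Ses (inc n) (pr n))
  (P : ∀ n, Res R (H n) (P₀ n) (P₁ n) (P₂ n) (P₃ n))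

include S in
/-- if `Ext` from the middle terms vanishes from step one on, then so does it from the orbit -/
theorem orbit_vanish (hH : ∀ n, 1 ≤ n → ∀ j, Subsingleton (Ex R (H n) M j)) :
    ∀ i n, 1 ≤ n → Subsingleton (Ex R (X n) M i) := by
  intro i
  induction i with
  | zero =>
    intro n hn
    refine subsingleton_of_forall_eq 0 fun x => ?_
    rw [← pre_eq_zero_iff (S n).surj]
    exact (hH n hn 0).elim _ _
  | succ i ih =>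
    intro n hn
    refine subsingleton_of_forall_eq 0 fun x => ?_
    obtain ⟨y, rfl⟩ := (S n).exact_right x ((hH n hn _).elim _ _)
    rw [(ih (n + 1) (by omega)).elim y 0, Ses.del_zero]

include P in
/-- vanishing of `Ext` from a middle term whose complex of maps into `M` is exact -/
theorem middle_vanish (n : ℕ) (h₀ : ∀ φ : P₀ n →ₗ[R] M, φ ∘ₗ (P n).d₁ = 0 → φ = 0)
    (h₁ : ∀ φ : P₁ n →ₗ[R] M, φ ∘ₗ (P n).d₂ = 0 → ∃ g, g ∘ₗ (P n).d₁ = φ)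
    (h₂ : ∀ φ : P₂ n →ₗ[R] M, φ ∘ₗ (P n).d₃ = 0 → ∃ g, g ∘ₗ (P n).d₂ = φ)
    (h₃ : ∀ φ : P₃ n →ₗ[R] M, ∃ g, g ∘ₗ (P n).d₃ = φ) :
    ∀ j, Subsingleton (Ex R (H n) M j)
  | 0 => (P n).zero_deg_zero h₀
  | 1 => (P n).zero_deg_one h₁
  | 2 => (P n).zero_deg_two h₂
  | 3 => subsingleton_of_forall_eq 0 fun x => by
      obtain ⟨φ, rfl⟩ := (P n).top_surjective x
      exact ((P n).top_eq_zero_iff φ).2 (h₃ φ)
  | j + 4 => (P n).zero_deg_high j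

variable (f₀ : ∀ n, P₀ (n + 1) →ₗ[R] P₀ n) (f₁ : ∀ n, P₁ (n + 1) →ₗ[R] P₁ n)
  (f₂ : ∀ n, P₂ (n + 1) →ₗ[R] P₂ n) (f₃ : ∀ n, P₃ (n + 1) →ₗ[R] P₃ n)

include S in
/-- `Ext` from `X 0` into `M` is concentrated in degree two -/
theorem ladder_ext (l₀ : ∀ n, (P n).π ∘ₗ f₀ n = (inc n ∘ₗ pr (n + 1)) ∘ₗ (P (n + 1)).π)
    (l₁ : ∀ n, (P n).d₁ ∘ₗ f₁ n = f₀ n ∘ₗ (P (n + 1)).d₁)
    (l₂ : ∀ n, (P n).d₂ ∘ₗ f₂ n = f₁ n ∘ₗ (P (n + 1)).d₂)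
    (l₃ : ∀ n, (P n).d₃ ∘ₗ f₃ n = f₂ n ∘ₗ (P (n + 1)).d₃)
    (h₀ : ∀ n, ∀ φ : P₀ n →ₗ[R] M, φ ∘ₗ (P n).d₁ = 0 → φ = 0)
    (h₁ : ∀ n, ∀ φ : P₁ n →ₗ[R] M, φ ∘ₗ (P n).d₂ = 0 → ∃ g, g ∘ₗ (P n).d₁ = φ)
    (h₂ : ∀ n, 1 ≤ n → ∀ φ : P₂ n →ₗ[R] M, φ ∘ₗ (P n).d₃ = 0 → ∃ g, g ∘ₗ (P n).d₂ = φ)
    (h₂' : ∃ ψ : P₂ 0 →ₗ[R] M, ψ ∘ₗ (P 0).d₃ = 0 ∧ ∀ g, g ∘ₗ (P 0).d₂ ≠ ψ)
    (hΦ₀ : ∀ φ : P₃ 0 →ₗ[R] M, (∃ g, g ∘ₗ (P 1).d₃ = φ ∘ₗ f₃ 0) → ∃ g, g ∘ₗ (P 0).d₃ = φ)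
    (hΦ : ∀ n, ∀ φ : P₃ (n + 1) →ₗ[R] M, (∃ g, g ∘ₗ (P (n + 2)).d₃ = φ ∘ₗ f₃ (n + 1)) →
      ∃ ψ : P₃ n →ₗ[R] M, ∃ g, g ∘ₗ (P (n + 1)).d₃ = φ - ψ ∘ₗ f₃ n) :
    Subsingleton (Ex R (X 0) M 1) ∧ ¬ Subsingleton (Ex R (X 0) M 2) ∧
      ∀ i, 3 ≤ i → Subsingleton (Ex R (X 0) M i) := by
  have X0 : ∀ n, Subsingleton (Ex R (X n) M 0) := fun n => subsingleton_of_forall_eq 0 fun x => by
    rw [← pre_eq_zero_iff (S n).surj]
    exact ((P n).zero_deg_zero (h₀ n)).elim _ _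
  have X1 : ∀ n, Subsingleton (Ex R (X n) M 1) := fun n => subsingleton_of_forall_eq 0 fun x => by
    obtain ⟨y, rfl⟩ := (S n).exact_right x (((P n).zero_deg_one (h₁ n)).elim _ _)
    rw [(X0 _).elim y 0, Ses.del_zero]
  have X2 : ∀ n, 1 ≤ n → Subsingleton (Ex R (X n) M 2) := fun n hn =>
    subsingleton_of_forall_eq 0 fun x => by
      obtain ⟨y, rfl⟩ := (S n).exact_right x (((P n).zero_deg_two (h₂ n hn)).elim _ _)
      rw [(X1 _).elim y 0, Ses.del_zero]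
  have q_inj : ∀ n (x : Ex R (X n) M 3), pre (pr n) x = 0 → x = 0 := fun n x hx => by
    obtain ⟨y, rfl⟩ := (S n).exact_right x hx
    rw [(X2 (n + 1) (by omega)).elim y 0, Ses.del_zero]
  have Φ_eq : ∀ n φ, pre (pr (n + 1)) (pre (inc n) ((P n).top φ))
      = (P (n + 1)).top (M := M) (φ ∘ₗ f₃ n) := fun n φ => by
    rw [pre_comp, (P n).pre_top (P (n + 1)) (inc n ∘ₗ pr (n + 1)) (f₀ n) (f₁ n) (f₂ n) (f₃ n)
      (l₀ n) (l₁ n) (l₂ n) (l₃ n)]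
  have r_surj : ∀ n (x : Ex R (X (n + 1)) M 3), ∃ z, pre (inc n) z = x := by
    intro n x
    obtain ⟨φ, hφ⟩ := (P (n + 1)).top_surjective (pre (pr (n + 1)) x)
    have h0 : (P (n + 2)).top (φ ∘ₗ f₃ (n + 1)) = (0 : Ex R (H (n + 2)) M 3) := by
      rw [← Φ_eq, hφ, (S (n + 1)).pre_pre, pre_zero]
    obtain ⟨ψ, hψ⟩ := hΦ n φ (((P (n + 2)).top_eq_zero_iff _).1 h0)
    refine ⟨(P n).top ψ, ?_⟩
    have e : pre (pr (n + 1)) (pre (inc n) ((P n).top ψ)) = pre (pr (n + 1)) x := by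
      rw [Φ_eq, ← hφ, (P (n + 1)).top_sub φ (ψ ∘ₗ f₃ n) hψ]
    refine sub_eq_zero.1 (q_inj (n + 1) _ ?_)
    rw [pre_sub]
    exact sub_eq_zero.2 e
  have X3 : Subsingleton (Ex R (X 0) M 3) := subsingleton_of_forall_eq 0 fun x => by
    obtain ⟨φ, hφ⟩ := (P 0).top_surjective (pre (pr 0) x)
    have h0 : (P 1).top (φ ∘ₗ f₃ 0) = (0 : Ex R (H 1) M 3) := by
      rw [← Φ_eq, hφ, (S 0).pre_pre, pre_zero]
    refine q_inj 0 x ?_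
    rw [← hφ, (P 0).top_eq_zero_iff]
    exact hΦ₀ φ (((P 1).top_eq_zero_iff _).1 h0)
  have high : ∀ i n, Subsingleton (Ex R (X n) M (i + 4)) := by
    intro i
    induction i with
    | zero =>
      exact fun n => subsingleton_of_forall_eq 0 fun x => by
        obtain ⟨y, rfl⟩ := (S n).exact_right x (((P n).zero_deg_high 0).elim _ _)
        obtain ⟨z, rfl⟩ := r_surj n y
        exact (S n).del_pre z
    | succ i ih =>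
      exact fun n => subsingleton_of_forall_eq 0 fun x => by
        obtain ⟨y, rfl⟩ := (S n).exact_right x (((P n).zero_deg_high (i + 1)).elim _ _)
        rw [(ih (n + 1)).elim y 0, Ses.del_zero]
  refine ⟨X1 0, fun h2 => ?_, fun i hi => ?_⟩
  · obtain ⟨ψ, hψ, hne⟩ := h₂'
    refine (P 0).not_zero_deg_two ψ hψ hne (subsingleton_of_forall_eq 0 fun z => ?_)
    obtain ⟨x, rfl⟩ := (S 0).exact_middle z ((X2 1 le_rfl).elim _ _)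
    rw [h2.elim x 0, pre_zero]
  · obtain ⟨j, rfl⟩ : ∃ j, i = j + 3 := ⟨i - 3, by omega⟩
    rcases j with - | j
    · exact X3
    · exact high j 0

end Ladder

end Vale.Agent.P195
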