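import Vale.Agent.P195.Rows

/-!
The projective terms: rows of the twisted complexes.
-/

namespace Vale.Agent.P195

variable {K : Type} [Field K]

/-- the product of two predicates -/
def QProp.prod {M M' : Type} [AddCommGroup M] [Module (Am K) M] [AddCommGroup M']
    [Module (Am K) M'] (Q : QProp K M) (Q' : QProp K M') : QProp K (M × M') where
  mem w d x := Q.mem w d x.1 ∧ Q'.mem w d x.2
  zero w d := ⟨Q.zero w d, Q'.zero w d⟩
  add hx hy := ⟨Q.add hx.1 hy.1, Q'.add hx.2 hy.2⟩
  smul ha hx := ⟨Q.smul ha hx.1, Q'.smul ha hx.2⟩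

theorem smul_zc (a : Am K) (z : Zc K) (vp b : Fin 2) (m : ℤ × ℤ) :
    (a • z) vp b m = a * z vp b m := rfl

variable (K)

/-- the membership predicate of one term -/
def qMem (n : ℤ) (q : Fin 4) : QProp K (Zc K) where
  mem w d z := Mem K w n d q z
  zero w d := fun vp b m h => absurd rfl h
  add {w d x y} hx hy := fun vp b m h => by
    by_cases h1 : x vp b m = 0
    · have h2 : y vp b m ≠ 0 := fun e => h (by show x vp b m + y vp b m = 0; rw [h1, e, add_zero])
      obtain ⟨a1, a2, a3⟩ := hy vp b m h2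
      refine ⟨a1, a2, ?_⟩
      show InW K _ _ (x vp b m + y vp b m)
      rwa [h1, zero_add]
    · obtain ⟨a1, a2, a3⟩ := hx vp b m h1
      refine ⟨a1, a2, a3.add ?_⟩
      by_cases h2 : y vp b m = 0
      · rw [h2]; exact InW.zero _ _
      · exact (hy vp b m h2).2.2
  smul {w w' d d' a x} ha hx := fun vp b m h => by
    rw [smul_zc] at h ⊢
    obtain ⟨a1, a2, a3⟩ := hx vp b m (right_ne_zero_of_mul h)
    refine ⟨a1, a2, ?_⟩
    have := ha.mul a3
    rwa [show w - w' + (w' - ob vp) = w - ob vp by ring,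
      show d - d' + (d' - lv q) = d - lv q by ring] at this

/-- a term -/
noncomputable abbrev PM (n : ℕ) (q : Fin 4) : Submodule (A0 K) (MV K (Zc K)) :=
  rowSub (qMem K (n : ℤ) q)

/-- a double term -/
noncomputable abbrev PM2 (n : ℕ) (q : Fin 4) : Submodule (A0 K) (MV K (Zc K × Zc K)) :=
  rowSub ((qMem K (n : ℤ) q).prod (qMem K (n : ℤ) q))

/-- generators of a term -/
abbrev Gen (n : ℕ) : Type := (b : Fin 2) × {m : ℤ × ℤ // m ∈ deg2 ((n : ℤ) + ob b)}

variable {K}

/-- the vertex of a generator -/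
def Gen.r {n : ℕ} (q : Fin 4) (g : Gen n) : V := (q, g.1 + lp q)

/-- the entry at a generator -/
def at' {n : ℕ} (q : Fin 4) (g : Gen n) (z : Zc K) : Am K := z (g.1 + lp q) g.1 g.2.1

/-- the unit vector of a generator -/
noncomputable def delta {n : ℕ} (q : Fin 4) (g : Gen n) : Zc K := fun vp b m =>
  if vp = g.1 + lp q ∧ b = g.1 ∧ m = g.2.1 then 1 else 0

/-- a generator -/
noncomputable def gen {n : ℕ} (q : Fin 4) (g : Gen n) : PM K n q :=
  ⟨fun i => if i = (1, g.r q) then delta q g else 0, fun r => ⟨fun vp b m h => by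
    by_cases e : ((1, r) : Fin 2 × V) = (1, g.r q)
    · obtain rfl : r = g.r q := (Prod.ext_iff.mp e).2
      simp only [if_pos, delta] at h ⊢
      obtain ⟨rfl, rfl, rfl⟩ : vp = g.1 + lp q ∧ b = g.1 ∧ m = g.2.1 := by
        by_contra hc; exact h (if_neg hc)
      refine ⟨rfl, mem_deg2.mp g.2.2, ?_⟩
      simp only [and_self, if_true]
      rw [show off (g.r q) - ob (g.1 + lp q) = 0 from sub_self _,
        show lev (g.r q) - lv q = 0 from sub_self _]
      exact InW.one
    · exact absurd (by simp [e]) h, fun vp b m h => absurd (by simp) h⟩⟩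

/-- the matrix giving the coefficient at a generator -/
noncomputable def coefMat {n : ℕ} (q : Fin 4) (g : Gen n) (z : MV K (Zc K)) : Big K :=
  Matrix.of fun i j =>
    if j.2 = g.r q then
      (if j.1 = 1 then at' q g (z i) else if i.1 = 0 then at' q g (z (1, i.2)) else 0)
    else 0

theorem at_inW {n : ℕ} {q : Fin 4} (g : Gen n) {w d : ℤ} {x : Zc K}
    (h : (qMem K (n : ℤ) q).mem w d x) :
    InW K (w - ob (g.1 + lp q)) (d - lv q) (at' q g x) := by
  by_cases e : at' q g x = 0
  · rw [e]; exact InW.zero _ _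
  · exact (h _ _ _ e).2.2

theorem coefMat_inA {n : ℕ} (q : Fin 4) (g : Gen n) (z : PM K n q) :
    InA K (coefMat q g z.1) where
  diag v w := by simp [coefMat]
  lower v w := by simp [coefMat]
  base v w := by
    by_cases h : w = g.r q
    · subst h
      have := at_inW g (z.2 v).1
      simpa [coefMat, off, ob, lev, lv, Gen.r] using this
    · simp only [coefMat, Matrix.of_apply, if_neg h]; exact InW.zero _ _
  tran v w := by
    by_cases h : w = g.r q
    · subst h
      have := at_inW g (z.2 v).2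
      rw [show off v + 1 - ob (g.1 + lp q) = off v - off (g.r q) + 1 by
          simp [off, ob, Gen.r]; ring,
        show lev v + 2 - lv q = lev v - lev (g.r q) + 2 by simp [lev, lv, Gen.r]; ring] at this
      simpa [coefMat] using this
    · simp only [coefMat, Matrix.of_apply, if_neg h]; exact InW.zero _ _

theorem at_sum {n : ℕ} (q : Fin 4) (g : Gen n) {ι : Type} (S : Finset ι) (a : ι → Am K)
    (x : ι → Zc K) : at' q g (∑ i ∈ S, a i • x i) = ∑ i ∈ S, a i * at' q g (x i) := by
  simp only [at', Finset.sum_apply, smul_zc]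

/-- the coefficient at a generator -/
noncomputable def coef {n : ℕ} (q : Fin 4) (g : Gen n) : PM K n q →ₗ[A0 K] A0 K where
  toFun z := ofMat K _ (coefMat_inA q g z)
  map_add' y z := mat_injective <| by
    rw [mat_add, mat_ofMat, mat_ofMat, mat_ofMat]
    ext1 i j
    show coefMat q g (y.1 + z.1) i j = coefMat q g y.1 i j + coefMat q g z.1 i j
    simp only [coefMat, Matrix.of_apply]
    split_ifs with h1 h2 h3
    · rfl
    · rfl
    · simp
    · simp
  map_smul' s z := mat_injective <| by
    show coefMat q g (s • z.1) = mat K s * coefMat q g z.1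
    ext1 i ⟨a, v⟩
    simp only [Matrix.mul_apply, coefMat, Matrix.of_apply]
    by_cases h : v = g.r q
    · simp only [if_pos h]
      by_cases ha : a = 1
      · simp only [if_pos ha, smul_mv]
        exact at_sum q g _ _ _
      · simp only [if_neg ha]
        obtain ⟨c, r⟩ := i
        fin_cases c
        · rw [Fintype.sum_prod_type, Fin.sum_univ_two]
          simp only [Fin.zero_eta, if_true, smul_mv_one]
          refine (at_sum q g Finset.univ _ _).trans ?_
          simp
        · simp [Fintype.sum_prod_type, Fin.sum_univ_two, (mat_mem s).lower]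
    · simp [if_neg h]

theorem sum_coef {n : ℕ} (q : Fin 4) (z : PM K n q) : ∑ g, coef q g z • gen q g = z := by
  refine Subtype.ext (funext fun i => funext fun vp => funext fun b => funext fun m => ?_)
  simp only [Submodule.coe_sum, Submodule.coe_smul]
  have key : ∀ g : Gen n, (coef q g z • (gen q g).1) i vp b m
      = if vp = g.1 + lp q ∧ b = g.1 ∧ m = g.2.1 then z.1 i vp b m else 0 := by
    intro g
    rw [smul_mv, Finset.sum_eq_single ((1 : Fin 2), g.r q)]
    · simp only [gen, if_pos, smul_zc, delta]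
      by_cases h : vp = g.1 + lp q ∧ b = g.1 ∧ m = g.2.1
      · obtain ⟨rfl, rfl, rfl⟩ := h
        simp [coef, mat_ofMat, coefMat, at']
      · simp [if_neg h]
    · intro j _ hj
      simp [gen, if_neg hj]
    · simp
  let ev : MV K (Zc K) →+ Am K :=
    { toFun := fun y => y i vp b m, map_zero' := rfl, map_add' := fun _ _ => rfl }
  have e2 : (∑ g, coef q g z • (gen q g).1) i vp b m
      = ∑ g, (coef q g z • (gen q g).1) i vp b m :=
    map_sum ev (fun g => coef q g z • (gen q g).1) Finset.univ
  rw [e2, Finset.sum_congr rfl fun g _ => key g]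
  by_cases hz : z.1 i vp b m = 0
  · simp [hz]
  · have hmem : vp = b + lp q ∧ Sup (n : ℤ) b m := by
      obtain ⟨a, r⟩ := i
      fin_cases a
      · exact ⟨((z.2 r).2 vp b m hz).1, ((z.2 r).2 vp b m hz).2.1⟩
      · exact ⟨((z.2 r).1 vp b m hz).1, ((z.2 r).1 vp b m hz).2.1⟩
    rw [Finset.sum_eq_single ⟨b, m, mem_deg2.mpr hmem.2⟩]
    · simp [hmem.1]
    · intro g _ hg
      rw [if_neg]
      rintro ⟨-, rfl, rfl⟩
      exact hg rfl
    · simp

theorem hom_ext_gen {n : ℕ} {q : Fin 4} {N : Type} [AddCommGroup N] [Module (A0 K) N]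
    {φ ψ : PM K n q →ₗ[A0 K] N} (h : ∀ g, φ (gen q g) = ψ (gen q g)) : φ = ψ := by
  refine LinearMap.ext fun z => ?_
  rw [← sum_coef q z]
  simp only [map_sum, map_smul, h]

instance projective_PM (n : ℕ) (q : Fin 4) : Module.Projective (A0 K) (PM K n q) :=
  Module.Projective.of_split
    (LinearMap.pi fun g : Gen n => coef q g)
    (Fintype.linearCombination (A0 K) (gen q))
    (LinearMap.ext fun z => by
      simp [Fintype.linearCombination_apply, sum_coef])

/-- a double term is a pair of terms -/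
noncomputable def PM2.equiv (n : ℕ) (q : Fin 4) : PM2 K n q ≃ₗ[A0 K] PM K n q × PM K n q where
  toFun z := (⟨fun i => (z.1 i).1, fun r => ⟨(z.2 r).1.1, (z.2 r).2.1⟩⟩,
    ⟨fun i => (z.1 i).2, fun r => ⟨(z.2 r).1.2, (z.2 r).2.2⟩⟩)
  map_add' y z := rfl
  map_smul' s z := by
    refine Prod.ext (Subtype.ext (funext fun i => ?_)) (Subtype.ext (funext fun i => ?_))
    · exact Prod.fst_sum.trans rfl
    · exact Prod.snd_sum.trans rfl
  invFun p := ⟨fun i => (p.1.1 i, p.2.1 i),
    fun r => ⟨⟨(p.1.2 r).1, (p.2.2 r).1⟩, ⟨(p.1.2 r).2, (p.2.2 r).2⟩⟩⟩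
  left_inv z := rfl
  right_inv p := rfl

instance projective_PM2 (n : ℕ) (q : Fin 4) : Module.Projective (A0 K) (PM2 K n q) :=
  Module.Projective.of_equiv (PM2.equiv n q).symm

end Vale.Agent.P195
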