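import Vale.Agent.P195.HX
import Vale.Agent.P195.PMods
import Vale.Agent.P195.Exact
import Vale.Agent.P195.Ladder

/-!
The resolution of `H n` by the twisted complexes.
-/

namespace Vale.Agent.P195

variable {K : Type} [Field K]

/-- componentwise surjectivity -/
theorem rowMap_surjective {M M' : Type} [AddCommGroup M] [Module (Am K) M] [AddCommGroup M']
    [Module (Am K) M'] (Q : QProp K M) (Q' : QProp K M') (g : M →ₗ[Am K] M') (h)
    (hs : ∀ w d y, Valid w d → 0 ≤ d → Q'.mem w d y → ∃ x, Q.mem w d x ∧ g x = y) :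
    Function.Surjective (rowMap Q Q' g h) := by
  intro y
  have hl : ∀ r : V, 0 ≤ lev r := fun ⟨a, b⟩ => by fin_cases a <;> simp [lev]
  choose x hx hgx using fun r => hs _ _ _ (valid_base r) (hl r) (y.2 r).1
  choose x' hx' hgx' using fun r =>
    hs _ _ _ (valid_top r) (by have := hl r; omega) (y.2 r).2
  let z : MV K M := fun i => if i.1 = 0 then x' i.2 else x i.2
  refine ⟨⟨z, fun r => ⟨hx r, hx' r⟩⟩, Subtype.ext (funext fun i => ?_)⟩
  obtain ⟨a, r⟩ := i
  fin_cases a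
  · exact hgx' r
  · exact hgx r

variable (K)

/-- the augmentation, linearly -/
noncomputable def augL (n : ℤ) : Zc K →ₗ[Am K] Fn K where
  toFun := aug K n
  map_add' y z := by
    simp only [aug, ← Finset.sum_add_distrib]
    exact Finset.sum_congr rfl fun b _ => Finset.sum_congr rfl fun m _ => actFn_add_left _ _ _
  map_smul' a z := by
    rw [RingHom.id_apply]
    simp only [aug, Finset.smul_sum]
    exact Finset.sum_congr rfl fun b _ => Finset.sum_congr rfl fun m _ => actFn_mul a _ _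

variable {K}

theorem aug_mem {n w D : ℤ} {z : Zc K} (h : Mem K w n D 0 z) : aug K n z ∈ Hom2 K (n + w) := by
  refine Submodule.sum_mem _ fun b _ => Submodule.sum_mem _ fun m hm => ?_
  by_cases e : z b b m = 0
  · rw [e, actFn_zero_left]; exact Submodule.zero_mem _
  · have := actFn_hom2 (h b b m e).2.2 (mono_mem (K := K) hm)
    rwa [show n + ob b + (w - ob b) = n + w by ring] at this

theorem res_inW_const (c : K) {d : ℤ} (hd : 0 ≤ d) :
    InW K 0 d (algebraMap K (Am K) c) := by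
  rw [Algebra.algebraMap_eq_smul_one]
  exact (InW.one.mono hd).smul c

theorem res_inW_gx {d : ℤ} (hd : 1 ≤ d) : InW K 1 d (gx K) := by
  refine inW_single fun _ => ⟨by simp, ?_, fun i t h1 h2 => ?_⟩
  · rw [MvPolynomial.totalDegree_one]; omega
  · fin_cases i <;> simp at h1 <;> omega

theorem res_inW_gy {d : ℤ} (hd : 1 ≤ d) : InW K 1 d (gy K) := by
  refine inW_single fun _ => ⟨by simp, ?_, fun i t h1 h2 => ?_⟩
  · rw [MvPolynomial.totalDegree_one]; omega
  · fin_cases i <;> simp at h1 <;> omega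

theorem inW_cases (w d : ℤ) (a : Am K) (m : ℤ × ℤ) (n : ℕ) (b : Fin 2)
    (hm : m ∈ deg2 ((n : ℤ) + ob b)) (ha : InW K (w - ob b) d a) :
    Mem K w n d 0 (fun vp b' m' => if vp = b ∧ b' = b ∧ m' = m then a else 0) := by
  intro vp b' m' h
  by_cases e : vp = b ∧ b' = b ∧ m' = m
  · obtain ⟨rfl, rfl, rfl⟩ := e
    simp only [and_self, if_true] at h ⊢
    refine ⟨by simp [lp], mem_deg2.mp hm, ?_⟩
    simpa [lv] using ha
  · exact absurd (if_neg e) h

theorem aug_delta (n : ℕ) (a : Am K) {m : ℤ × ℤ} (b : Fin 2) (hm : m ∈ deg2 ((n : ℤ) + ob b)) :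
    aug K n (fun vp b' m' => if vp = b ∧ b' = b ∧ m' = m then a else 0)
      = actFn K a (mono K m) := by
  rw [aug, Finset.sum_eq_single b, Finset.sum_eq_single m]
  · simp
  · intro m' _ h; simp [h, actFn_zero_left]
  · exact fun h => absurd hm h
  · intro b' _ h
    exact Finset.sum_eq_zero fun m' _ => by simp [h, actFn_zero_left]
  · simp

theorem res_actFn_gx_mono (m : ℤ × ℤ) : actFn K (gx K) (mono K m) = mono K (m.1 + 1, m.2) := by
  funext p
  rw [gx, mon, actFn_single]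
  obtain ⟨p1, p2⟩ := p
  obtain ⟨m1, m2⟩ := m
  simp [mono, Pi.single_apply, sub_eq_iff_eq_add]

theorem res_actFn_gy_mono (m : ℤ × ℤ) : actFn K (gy K) (mono K m) = mono K (m.1, m.2 + 1) := by
  funext p
  rw [gy, mon, actFn_single]
  obtain ⟨p1, p2⟩ := p
  obtain ⟨m1, m2⟩ := m
  simp [mono, Pi.single_apply, sub_eq_iff_eq_add]

theorem exists_aug_mono {w d : ℤ} (hv : Valid w d) (hd : 0 ≤ d) (n : ℕ) {m : ℤ × ℤ}
    (hm : m ∈ deg2 ((n : ℤ) + w)) :
    ∃ z, Mem K w n d 0 z ∧ aug K n z = mono K m := by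
  obtain ⟨hw, hw1⟩ := hv
  obtain ⟨a0, a1, a2⟩ := mem_deg2.mp hm
  rcases hw with rfl | rfl | rfl
  · have h : m ∈ deg2 ((n : ℤ) + ob 1) := by simpa [ob] using hm
    exact ⟨_, inW_cases (-1) d 1 m n 1 h (by simpa [ob] using InW.one.mono hd),
      (aug_delta n 1 1 h).trans (actFn_one _)⟩
  · have h : m ∈ deg2 ((n : ℤ) + ob 0) := by simpa [ob] using hm
    exact ⟨_, inW_cases 0 d 1 m n 0 h (by simpa [ob] using InW.one.mono hd),
      (aug_delta n 1 0 h).trans (actFn_one _)⟩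
  · have hd' := hw1 rfl
    by_cases h0 : 1 ≤ m.1
    · have h : (m.1 - 1, m.2) ∈ deg2 ((n : ℤ) + ob 0) := mem_deg2.mpr (by simp [ob]; omega)
      exact ⟨_, inW_cases 1 d (gx K) _ n 0 h (by simpa [ob] using res_inW_gx (by omega)),
        (aug_delta n _ 0 h).trans (by simp [res_actFn_gx_mono])⟩
    · have h : (m.1, m.2 - 1) ∈ deg2 ((n : ℤ) + ob 0) := mem_deg2.mpr (by simp [ob]; omega)
      exact ⟨_, inW_cases 1 d (gy K) _ n 0 h (by simpa [ob] using res_inW_gy (by omega)),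
        (aug_delta n _ 0 h).trans (by simp [res_actFn_gy_mono])⟩

theorem exists_aug {w d : ℤ} (hv : Valid w d) (hd : 0 ≤ d) (n : ℕ) {f : Fn K}
    (hf : f ∈ Hom2 K ((n : ℤ) + w)) : ∃ z, Mem K w n d 0 z ∧ aug K n z = f := by
  choose! z hz hz' using fun m => exists_aug_mono (K := K) hv hd n (m := m)
  refine ⟨∑ m ∈ deg2 ((n : ℤ) + w), algebraMap K (Am K) (f m) • z m, ?_, ?_⟩
  · exact (qMem K (n : ℤ) 0).sum _ fun m hm =>
      (qMem K (n : ℤ) 0).smul (by simpa using res_inW_const (K := K) (f m) le_rfl) (hz m hm)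
  · show augL K n _ = f
    rw [map_sum]
    conv_rhs => rw [hom2_eq_sum hf]
    refine Finset.sum_congr rfl fun m hm => ?_
    rw [map_smul, show augL K (n : ℤ) (z m) = mono K m from hz' m hm]
    exact algebraMap_smul (Am K) (f m) (mono K m)

variable (K) [CharZero K]

/-- the four differentials and the augmentation -/
noncomputable def res (n : ℕ) :
    Res (A0 K) (HM K n) (PM K n 0) (PM2 K n 1) (PM2 K n 2) (PM K n 3) where
  d₁ := rowMap _ _ (d1 K) fun _ _ _ h => d1_mem h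
  d₂ := rowMap _ _ (d2 K) fun _ _ _ h => d2_mem h
  d₃ := rowMap _ _ (d3 K) fun _ _ _ h => d3_mem h
  π := rowMap _ _ (augL K n) fun _ _ _ h => aug_mem h
  surj := rowMap_surjective _ _ _ _ fun _ _ _ hv hd hy => exists_aug hv hd n hy
  ex₀ := rowMap_exact _ _ _ _ _ _ _ (fun _ _ _ h => aug_d1 h)
    fun _ _ _ hv h e => exact_q0 hv.1 hv.2 h e
  ex₁ := rowMap_exact _ _ _ _ _ _ _ (fun _ _ x _ => d1_d2 x)
    fun _ _ _ hv h e => exact_q1 hv.1 hv.2 h e
  ex₂ := rowMap_exact _ _ _ _ _ _ _ (fun _ _ x _ => d2_d3 x)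
    fun _ _ _ hv h e => exact_q2 hv.1 hv.2 h e
  inj := rowMap_injective _ _ _ _ fun _ _ _ hv h e => exact_q3 hv.1 h e
  proj₀ := inferInstance
  proj₁ := inferInstance
  proj₂ := inferInstance
  proj₃ := inferInstance

theorem sesX (n : ℕ) : Ses (incX K n) (prX K n) :=
  ⟨incX_injective K n, prX_surjective K n, incX_prX_exact K n⟩

end Vale.Agent.P195
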