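import Mathlib

/-!
The algebra `Kill θ`: a square-zero extension of `A₀` by `End_k(A₀)/A₀`, twisted by a normalised
Hochschild three-cocycle, glued with one extra vertex.
Elements are `(u, q, r, s, c)` standing for the matrix `((u + q, r), (s, c))`.
-/

namespace Vale.Agent.P195

variable (K : Type) [Field K] (A₀ : Type) [Ring A₀] [Algebra K A₀]

/-- left multiplications inside all endomorphisms -/
noncomputable def leftImage : Submodule K (Module.End K A₀) :=
  LinearMap.range (LinearMap.mul K A₀)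

abbrev Quot₀ := Module.End K A₀ ⧸ leftImage K A₀

/-- a normalised Hochschild three-cocycle with values in `A₀` -/
structure Cocycle where
  θ : A₀ →ₗ[K] A₀ →ₗ[K] A₀ →ₗ[K] A₀
  closed : ∀ a b c d, a * θ b c d - θ (a * b) c d + θ a (b * c) d - θ a b (c * d) + θ a b c * d = 0
  one_left : ∀ b c, θ 1 b c = 0
  one_mid : ∀ a c, θ a 1 c = 0
  one_right : ∀ a b, θ a b 1 = 0

variable {K A₀}

/-- carrier of the extension -/
@[ext]
structure Kill (θ : Cocycle K A₀) where
  u : A₀
  q : Quot₀ K A₀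
  r : A₀
  s : Module.Dual K A₀
  c : K

namespace Kill

variable {θ : Cocycle K A₀}

/-- left action on the quotient -/
noncomputable def qleft (a : A₀) : Quot₀ K A₀ →ₗ[K] Quot₀ K A₀ :=
  Submodule.mapQ _ _ ((LinearMap.mul K A₀ a).compRight K) (by
    rintro _ ⟨b, rfl⟩
    exact ⟨a * b, by ext c; simp [mul_assoc]⟩)

/-- right action on the quotient -/
noncomputable def qright (a : A₀) : Quot₀ K A₀ →ₗ[K] Quot₀ K A₀ :=
  Submodule.mapQ _ _ ((LinearMap.mul K A₀ a).lcomp K A₀) (by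
    rintro _ ⟨b, rfl⟩
    exact ⟨b * a, by ext c; simp [mul_assoc]⟩)

/-- the two-cochain -/
noncomputable def gam (θ : Cocycle K A₀) (a b : A₀) : Quot₀ K A₀ := Submodule.Quotient.mk (θ.θ a b)

/-- rank one class -/
noncomputable def rs (r : A₀) (s : Module.Dual K A₀) : Quot₀ K A₀ :=
  Submodule.Quotient.mk (s.smulRight r)

noncomputable instance : Zero (Kill θ) := ⟨⟨0, 0, 0, 0, 0⟩⟩
noncomputable instance : Add (Kill θ) :=
  ⟨fun x y => ⟨x.u + y.u, x.q + y.q, x.r + y.r, x.s + y.s, x.c + y.c⟩⟩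
noncomputable instance : Neg (Kill θ) := ⟨fun x => ⟨-x.u, -x.q, -x.r, -x.s, -x.c⟩⟩
noncomputable instance : SMul K (Kill θ) :=
  ⟨fun k x => ⟨k • x.u, k • x.q, k • x.r, k • x.s, k * x.c⟩⟩
noncomputable instance : One (Kill θ) := ⟨⟨1, 0, 0, 0, 1⟩⟩
noncomputable instance : Mul (Kill θ) :=
  ⟨fun x y => ⟨x.u * y.u, qleft x.u y.q + qright y.u x.q + gam θ x.u y.u + rs x.r y.s,
    x.u * y.r + y.c • x.r, x.s.comp (LinearMap.mul K A₀ y.u) + x.c • y.s, x.c * y.c⟩⟩

end Kill

end Vale.Agent.P195
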