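import Vale.Agent.P195.Win
import Vale.Agent.P195.Killer

/-!
The cochain on the window algebra is a normalised cocycle, vanishing on the vertex idempotents,
and the window algebra is finite-dimensional.
-/

namespace Vale.Agent.P195

variable {K : Type} [Field K]

/-- weight offset of an index -/
def ow (i : Fin 2 × V) : ℤ := off i.2 - i.1.val

/-- degree offset of an index -/
def ol (i : Fin 2 × V) : ℤ := lev i.2 - 2 * i.1.val

theorem InA.entry {s : Big K} (hs : InA K s) (i j : Fin 2 × V) :
    InW K (ow i - ow j) (ol i - ol j) (s i j) := by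
  obtain ⟨b, v⟩ := i
  obtain ⟨c, w⟩ := j
  fin_cases b <;> fin_cases c
  · simpa [ow, ol] using hs.base v w
  · have h := hs.tran v w
    convert h using 1 <;> simp [ow, ol] <;> ring
  · simp only [Fin.mk_one, Fin.zero_eta]
    rw [hs.lower]
    exact InW.zero _ _
  · simp only [Fin.mk_one]
    rw [hs.diag]
    simpa [ow, ol] using hs.base v w

theorem InA.zero_below {s : Big K} (hs : InA K s) {i j : Fin 2 × V} (h : j.1 < i.1) :
    s i j = 0 := by
  obtain ⟨b, v⟩ := i
  obtain ⟨c, w⟩ := j
  fin_cases b <;> fin_cases c <;> simp at h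
  exact hs.lower v w

theorem ow_two_step {i j : Fin 2 × V} (h : i.1 ≤ j.1) : -1 ≤ ow i - ow j := by
  obtain ⟨b, v, p⟩ := i
  obtain ⟨c, w, q⟩ := j
  have : (b.val : ℤ) ≤ c.val := by exact_mod_cast (Fin.le_iff_val_le_val.1 h)
  fin_cases p <;> fin_cases q <;> simp [ow, off] <;> omega

theorem th_zero_left (b c : Am K) : th 0 b c = 0 := by simp [th, D_zero, piX_zero]

theorem th_zero_mid (a c : Am K) : th a 0 c = 0 := by simp [th, D_zero, piX_zero]

theorem th_zero_right (a b : Am K) : th a b 0 = 0 := by simp [th, D_zero, piX_zero]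

theorem InA.thm3 [CharZero K] {a b c : Big K} (ha : InA K a) (hb : InA K b) (hc : InA K c) :
    InA K (thm3 K a b c) := by
  have van : ∀ i j l m : Fin 2 × V, ¬(i.1 ≤ l.1 ∧ l.1 ≤ m.1 ∧ m.1 ≤ j.1) →
      th (a i l) (b l m) (c m j) = 0 := by
    intro i j l m h
    by_cases h1 : i.1 ≤ l.1
    · by_cases h2 : l.1 ≤ m.1
      · rw [hc.zero_below (not_le.1 fun h3 => h ⟨h1, h2, h3⟩), th_zero_right]
      · rw [hb.zero_below (not_le.1 h2), th_zero_mid]
    · rw [ha.zero_below (not_le.1 h1), th_zero_left]
  have ent : ∀ i j, InW K (ow i - ow j) (ol i - ol j) (Vale.Agent.P195.thm3 K a b c i j) := by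
    intro i j
    rw [thm3_apply]
    refine InW.sum _ _ fun l _ => InW.sum _ _ fun m _ => ?_
    by_cases h : i.1 ≤ l.1 ∧ l.1 ≤ m.1 ∧ m.1 ≤ j.1
    · obtain ⟨h1, h2, h3⟩ := h
      have h' := thm3_scalar (ha.entry i l) (hb.entry l m) (hc.entry m j)
        (by have := ow_two_step (h1.trans h2); omega)
        (by have := ow_two_step (h2.trans h3); omega)
        (by have := ow_two_step (h1.trans (h2.trans h3)); omega)
      convert h' using 1 <;> first | rfl | ring
    · rw [van i j l m h]; exact InW.zero _ _
  refine ⟨fun v w => ?_, fun v w => ?_, fun v w => ?_, fun v w => ?_⟩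
  · have top : ∀ x y z : Am K, th x y z = th x y z := fun _ _ _ => rfl
    rw [thm3_apply, thm3_apply]
    simp [Fintype.sum_prod_type, ha.lower, hb.lower, hc.lower, ha.diag, hb.diag, hc.diag,
      th_zero_left, th_zero_mid, th_zero_right]
  · rw [thm3_apply]
    simp [Fintype.sum_prod_type, ha.lower, hb.lower, hc.lower,
      th_zero_left, th_zero_mid, th_zero_right]
  · simpa [ow, ol] using ent (0, v) (0, w)
  · have h := ent (0, v) (1, w)
    convert h using 1 <;> (simp [ow, ol]; try ring)

namespace MatAux

theorem mat_inA (s : A0 K) : InA K (mat K s) := Subtype.property (p := fun x => x ∈ A0sub K) s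

theorem mat_injective : Function.Injective (mat K) := fun _ _ h =>
  Subtype.ext (p := fun x => x ∈ A0sub K) h

theorem mat_add (s t : A0 K) : mat K (s + t) = mat K s + mat K t := rfl
theorem mat_sub (s t : A0 K) : mat K (s - t) = mat K s - mat K t := rfl
theorem mat_zero : mat K (0 : A0 K) = 0 := rfl
theorem mat_one : mat K (1 : A0 K) = 1 := rfl
theorem mat_mul (s t : A0 K) : mat K (s * t) = mat K s * mat K t := rfl
theorem mat_smul (r : K) (s : A0 K) : mat K (r • s) = r • mat K s := rfl
theorem mat_ofMat (x : Big K) (h : InA K x) : mat K (ofMat K x h) = x := rfl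

theorem mat_sum {σ : Type} (s : Finset σ) (f : σ → A0 K) :
    mat K (∑ x ∈ s, f x) = ∑ x ∈ s, mat K (f x) :=
  map_sum (AddMonoidHom.mk' (mat K) mat_add) f s

end MatAux

open MatAux

variable (K) in
/-- the cocycle as a function -/
noncomputable def thetaFun [CharZero K] (a b c : A0 K) : A0 K :=
  ofMat K (thm3 K (mat K a) (mat K b) (mat K c)) ((mat_inA a).thm3 (mat_inA b) (mat_inA c))

theorem mat_thetaFun [CharZero K] (a b c : A0 K) :
    mat K (thetaFun K a b c) = thm3 K (mat K a) (mat K b) (mat K c) := rfl

theorem thetaFun_add₁ [CharZero K] (a a' b c : A0 K) :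
    thetaFun K (a + a') b c = thetaFun K a b c + thetaFun K a' b c :=
  mat_injective (by rw [mat_add, mat_thetaFun, mat_thetaFun, mat_thetaFun, mat_add, thm3_add_left])

theorem thetaFun_add₂ [CharZero K] (a b b' c : A0 K) :
    thetaFun K a (b + b') c = thetaFun K a b c + thetaFun K a b' c :=
  mat_injective (by rw [mat_add, mat_thetaFun, mat_thetaFun, mat_thetaFun, mat_add, thm3_add_mid])

theorem thetaFun_add₃ [CharZero K] (a b c c' : A0 K) :
    thetaFun K a b (c + c') = thetaFun K a b c + thetaFun K a b c' :=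
  mat_injective (by rw [mat_add, mat_thetaFun, mat_thetaFun, mat_thetaFun, mat_add, thm3_add_right])

theorem thetaFun_smul₁ [CharZero K] (r : K) (a b c : A0 K) :
    thetaFun K (r • a) b c = r • thetaFun K a b c :=
  mat_injective (by rw [mat_smul, mat_thetaFun, mat_thetaFun, mat_smul, thm3_smul_left])

theorem thetaFun_smul₂ [CharZero K] (r : K) (a b c : A0 K) :
    thetaFun K a (r • b) c = r • thetaFun K a b c :=
  mat_injective (by rw [mat_smul, mat_thetaFun, mat_thetaFun, mat_smul, thm3_smul_mid])

theorem thetaFun_smul₃ [CharZero K] (r : K) (a b c : A0 K) :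
    thetaFun K a b (r • c) = r • thetaFun K a b c :=
  mat_injective (by rw [mat_smul, mat_thetaFun, mat_thetaFun, mat_smul, thm3_smul_right])

theorem thetaFun_closed [CharZero K] (a b c d : A0 K) :
    a * thetaFun K b c d - thetaFun K (a * b) c d + thetaFun K a (b * c) d
      - thetaFun K a b (c * d) + thetaFun K a b c * d = 0 :=
  mat_injective (by
    rw [mat_add, mat_sub, mat_add, mat_sub, mat_zero, mat_mul, mat_mul, mat_thetaFun,
      mat_thetaFun, mat_thetaFun, mat_thetaFun, mat_thetaFun, mat_mul, mat_mul, mat_mul]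
    exact thm3_closed _ _ _ _)

theorem thetaFun_one₁ [CharZero K] (b c : A0 K) : thetaFun K 1 b c = 0 :=
  mat_injective (by rw [mat_thetaFun, mat_one, mat_zero, thm3_one_left])

theorem thetaFun_one₂ [CharZero K] (a c : A0 K) : thetaFun K a 1 c = 0 :=
  mat_injective (by rw [mat_thetaFun, mat_one, mat_zero, thm3_one_mid])

theorem thetaFun_one₃ [CharZero K] (a b : A0 K) : thetaFun K a b 1 = 0 :=
  mat_injective (by rw [mat_thetaFun, mat_one, mat_zero, thm3_one_right])

variable (K) in
/-- the linear map in the two last arguments -/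
noncomputable def thetaBil [CharZero K] (a : A0 K) : A0 K →ₗ[K] A0 K →ₗ[K] A0 K :=
  LinearMap.mk₂ K (thetaFun K a) (thetaFun_add₂ a) (fun r b c => thetaFun_smul₂ r a b c)
    (thetaFun_add₃ a) (fun r b c => thetaFun_smul₃ r a b c)

variable (K) in
/-- the normalised three-cocycle on the window algebra -/
noncomputable def theta [CharZero K] : Cocycle K (A0 K) where
  θ :=
    { toFun := thetaBil K
      map_add' := fun a a' => LinearMap.ext₂ fun b c => thetaFun_add₁ a a' b c
      map_smul' := fun r a => LinearMap.ext₂ fun b c => thetaFun_smul₁ r a b c }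
  closed := thetaFun_closed
  one_left := thetaFun_one₁
  one_mid := thetaFun_one₂
  one_right := thetaFun_one₃

theorem mat_theta [CharZero K] (a b c : A0 K) :
    mat K ((theta K).θ a b c) = thm3 K (mat K a) (mat K b) (mat K c) := rfl

/-! Scalar diagonal matrices (vertex idempotents). -/

/-- a diagonal matrix with scalar entries -/
noncomputable def scal (e : Fin 2 × V → K) : Big K :=
  Matrix.diagonal fun i => algebraMap K (Am K) (e i)

theorem hm_scal_left (e : Fin 2 × V → K) (t : Big K) : hm K (scal e) t = 0 := by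
  ext1 i j
  have h : ∀ l, D K 0 (scal e i l) = 0 := fun l => by
    by_cases h : i = l
    · subst h; simp [scal, D_single]
    · simp [scal, h, D_zero]
  simp [hm_apply, h, piX_zero]

theorem hm_scal_right (e : Fin 2 × V → K) (s : Big K) : hm K s (scal e) = 0 := by
  ext1 i j
  have h : ∀ l, D K 1 (scal e l j) = 0 := fun l => by
    by_cases h : l = j
    · subst h; simp [scal, D_single]
    · simp [scal, h, D_zero]
  simp [hm_apply, h, piX_zero]

theorem hm_scal_mul_left (e : Fin 2 × V → K) (s t : Big K) :
    hm K (scal e * s) t = scal e * hm K s t := by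
  ext1 i j
  simp only [hm_apply, scal, Matrix.diagonal_mul, ← Algebra.smul_def, D_smul, smul_mul_assoc,
    ← Finset.smul_sum, piX_smul]

theorem hm_mul_scal_right (e : Fin 2 × V → K) (s t : Big K) :
    hm K s (t * scal e) = hm K s t * scal e := by
  ext1 i j
  simp only [hm_apply, scal, Matrix.mul_diagonal, ← Algebra.commutes, ← Algebra.smul_def,
    D_smul, mul_smul_comm, ← Finset.smul_sum, piX_smul]

theorem hm_scal_mid (e : Fin 2 × V → K) (s t : Big K) :
    hm K (s * scal e) t = hm K s (scal e * t) := by
  ext1 i j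
  simp only [hm_apply, scal, Matrix.mul_diagonal, Matrix.diagonal_mul, ← Algebra.commutes,
    ← Algebra.smul_def, D_smul, mul_smul_comm, smul_mul_assoc]

theorem thm3_scal_left (e : Fin 2 × V → K) (b c : Big K) : thm3 K (scal e) b c = 0 := by
  simp [thm3, hm_scal_left, hm_scal_mul_left]

theorem thm3_scal_mid (e : Fin 2 × V → K) (a c : Big K) : thm3 K a (scal e) c = 0 := by
  simp [thm3, hm_scal_left, hm_scal_right, hm_scal_mid]

theorem thm3_scal_right (e : Fin 2 × V → K) (a b : Big K) : thm3 K a b (scal e) = 0 := by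
  simp [thm3, hm_scal_right, hm_mul_scal_right]

theorem inA_scal (e : Fin 2 × V → K) (he : ∀ v, e (1, v) = e (0, v)) : InA K (scal e) := by
  refine ⟨fun v w => ?_, fun v w => ?_, fun v w => ?_, fun v w => ?_⟩
  · by_cases h : v = w
    · subst h; simp [scal, he]
    · simp [scal, h]
  · simp [scal]
  · by_cases h : v = w
    · subst h
      have := (InW.one (K := K)).smul (e (0, v))
      simpa [scal, Algebra.algebraMap_eq_smul_one] using this
    · simpa [scal, h] using InW.zero (K := K) (off v - off w) (lev v - lev w)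
  · simpa [scal] using InW.zero (K := K) (off v - off w + 1) (lev v - lev w + 2)

theorem theta_norm_left [CharZero K] {ε : A0 K} {e : Fin 2 × V → K} (h : mat K ε = scal e)
    (b c : A0 K) : (theta K).θ ε b c = 0 :=
  mat_injective (by rw [mat_theta, h, thm3_scal_left, mat_zero])

theorem theta_norm_mid [CharZero K] {ε : A0 K} {e : Fin 2 × V → K} (h : mat K ε = scal e)
    (a c : A0 K) : (theta K).θ a ε c = 0 :=
  mat_injective (by rw [mat_theta, h, thm3_scal_mid, mat_zero])

theorem theta_norm_right [CharZero K] {ε : A0 K} {e : Fin 2 × V → K} (h : mat K ε = scal e)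
    (a b : A0 K) : (theta K).θ a b ε = 0 :=
  mat_injective (by rw [mat_theta, h, thm3_scal_right, mat_zero])

/-- the window algebra is finite-dimensional -/
instance A0.finite [CharZero K] : Module.Finite K (A0 K) := by
  classical
  choose S hS hmem using fun i j : Fin 2 × V => InW.finite (K := K) (ow i - ow j) (ol i - ol j)
  let single : (Fin 2 × V) × (Fin 2 × V) → Am K →ₗ[K] Big K := fun q =>
    Matrix.singleLinearMap K q.1 q.2
  let W : Submodule K (Big K) := ⨆ q, (S q.1 q.2).map (single q)
  haveI : IsNoetherian K W := isNoetherian_of_fg_of_noetherian _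
    (Submodule.fg_iSup _ fun q => (Module.Finite.iff_fg.1 (hS q.1 q.2)).map _)
  have hW : ∀ s : A0 K, mat K s ∈ W := fun s => by
    rw [Matrix.matrix_eq_sum_single (mat K s)]
    refine Submodule.sum_mem _ fun i _ => Submodule.sum_mem _ fun j _ => ?_
    exact Submodule.mem_iSup_of_mem (i, j)
      (Submodule.mem_map.2 ⟨_, hmem i j _ ((mat_inA s).entry i j), rfl⟩)
  let φ : A0 K →ₗ[K] W :=
    { toFun := fun s => ⟨mat K s, hW s⟩
      map_add' := fun s t => rfl
      map_smul' := fun r s => rfl }
  refine Module.Finite.of_injective φ fun s t h => mat_injective ?_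
  exact congrArg (Subtype.val (p := fun x => x ∈ W)) h

end Vale.Agent.P195
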