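import Vale.Agent.P195.Gen0
import Vale.Agent.P195.Theta
import Vale.Agent.P195.Res
import Vale.Agent.P195.Data

/-!
The data of the interface for the window algebra at step zero.
-/

namespace Vale.Agent.P195

variable {K : Type} [Field K]

/-- the coefficient of a generator at itself is the idempotent of its vertex -/
theorem coef_gen {n : ℕ} (q : Fin 4) (g : Gen n) :
    mat K (coef q g (gen q g)) = Gen0.vertex (g.r q) := by
  show coefMat q g (gen q g).1 = _
  ext1 ⟨a, v⟩ ⟨b, w⟩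
  have h1 : at' q g (delta q g : Zc K) = 1 := by simp [at', delta]
  have h0 : at' q g (0 : Zc K) = 0 := rfl
  fin_cases a <;> fin_cases b <;> by_cases hw : w = g.r q <;> by_cases hv : v = g.r q <;>
    simp [coefMat, gen, Gen0.vertex, Matrix.diagonal, hw, hv, h0, h1, eq_comm]

namespace Base0

open Gen0 (vert eps d₁A d₂A d₃A)

/-- the only generator at step zero -/
def g0 : Gen 0 := ⟨0, (0, 0), mem_deg2.mpr (by simp [ob])⟩

theorem g0_unique (g : Gen 0) : g = g0 := by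
  obtain ⟨b, m, hm⟩ := g
  obtain ⟨h1, h2, h3⟩ := mem_deg2.mp hm
  fin_cases b
  · obtain rfl : m = (0, 0) := Prod.ext (by simp [ob] at h3 ⊢; omega) (by simp [ob] at h3 ⊢; omega)
    rfl
  · simp [ob] at h3; omega

theorem g0_r (q : Fin 4) : g0.r q = vert q := by fin_cases q <;> rfl

variable (K) in
/-- the unit coordinate at step zero -/
noncomputable def dl (vp : Fin 2) : Zc K := fun vp' b m =>
  if vp' = vp ∧ b = 0 ∧ m = (0, 0) then 1 else 0

theorem delta_g0 (q : Fin 4) : delta q g0 = dl K (lp q) := by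
  funext vp b m
  simp [delta, dl, g0]

variable (K) in
/-- the generator of a term -/
noncomputable def gq (q : Fin 4) : PM K 0 q := gen q g0

theorem gq_apply (q : Fin 4) (i : Fin 2 × V) :
    (gq K q).1 i = if i = (1, vert q) then dl K (lp q) else 0 := by
  show (if i = (1, g0.r q) then delta q g0 else 0) = _
  rw [g0_r, delta_g0]

theorem coef_gq (q : Fin 4) : coef q g0 (gq K q) = eps K q := by
  refine mat_injective ((coef_gen q g0).trans ?_)
  rw [g0_r]
  rfl

theorem coef_smul_gq (q : Fin 4) (u : A0 K) : coef q g0 (u • gq K q) = u * eps K q := by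
  rw [map_smul, coef_gq, smul_eq_mul]

theorem coef_smul_gen_eq (q : Fin 4) (z : PM K 0 q) : coef q g0 z • gq K q = z := by
  conv_rhs => rw [← sum_coef q z]
  refine (Finset.sum_eq_single (M := PM K 0 q)
    (f := fun g => coef q g z • Vale.Agent.P195.gen q g) g0 (fun g _ hg => absurd (g0_unique g) hg)
    (fun h => absurd (Finset.mem_univ _) h)).symm

theorem coef_mul_eps (q : Fin 4) (z : PM K 0 q) : coef q g0 z * eps K q = coef q g0 z := by
  rw [← coef_smul_gq, coef_smul_gen_eq]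

theorem eps_smul_gq (q : Fin 4) : eps K q • gq K q = gq K q := by
  rw [← coef_gq, coef_smul_gen_eq]

theorem smul_gq_inj {q : Fin 4} {u v : A0 K} (hu : u * eps K q = u) (hv : v * eps K q = v)
    (h : u • gq K q = v • gq K q) : u = v := by
  rw [← hu, ← hv, ← coef_smul_gq, ← coef_smul_gq, h]

/-! The four maps on the coordinate at step zero. -/

theorem le_dl (vp : Fin 2) : le K (dl K vp) = 0 := by
  funext vp' b m
  show (if b = 0 then dl K vp vp' 1 _ else (-(m.2 + 1)) • dl K vp vp' 0 (m.1, m.2 + 1)) = 0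
  split_ifs with hb
  · simp [dl]
  · by_cases h : m.2 + 1 = 0
    · simp [h]
    · simp [dl, h]

theorem lf_dl (vp : Fin 2) : lf K (dl K vp) = 0 := by
  funext vp' b m
  show (if b = 0 then dl K vp vp' 1 _ else (m.1 + 1) • dl K vp vp' 0 (m.1 + 1, m.2)) = 0
  split_ifs with hb
  · simp [dl]
  · by_cases h : m.1 + 1 = 0
    · simp [h]
    · simp [dl, h]

theorem rOp_dl (e : Matrix (Fin 2) (Fin 2) (Am K)) (vp vp' : Fin 2) (h : e vp vp = 0)
    (hne : vp' ≠ vp) : rOp K e (dl K vp) = e vp vp' • dl K vp' := by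
  funext x b m
  show dl K vp 0 b m * e 0 x + dl K vp 1 b m * e 1 x = e vp vp' * dl K vp' x b m
  by_cases hm : b = 0 ∧ m = (0, 0)
  · obtain ⟨rfl, rfl⟩ := hm
    fin_cases vp <;> fin_cases vp' <;> fin_cases x <;> simp_all [dl]
  · simp [dl, hm]

theorem re_dl0 : re K (dl K 0) = gx K • dl K 1 :=
  (rOp_dl (eW K) 0 1 rfl (by decide)).trans rfl

theorem re_dl1 : re K (dl K 1) = (-gdy K) • dl K 0 :=
  (rOp_dl (eW K) 1 0 rfl (by decide)).trans rfl

theorem rf_dl0 : rf K (dl K 0) = gy K • dl K 1 :=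
  (rOp_dl (fW K) 0 1 rfl (by decide)).trans rfl

theorem rf_dl1 : rf K (dl K 1) = gdx K • dl K 0 :=
  (rOp_dl (fW K) 1 0 rfl (by decide)).trans rfl

section
variable {R M : Type} [Ring R] [AddCommGroup M] [Module R M]

omit [Field K] in
theorem lin_a (a : R) (z : M) : 0 + 0 - 0 - a • z + z = (1 - a) • z := by
  rw [sub_smul, one_smul]; abel

omit [Field K] in
theorem lin_b (a b : R) (z : M) : (-a * b) • z - 0 = (-(a * b)) • z := by
  rw [neg_mul, sub_zero]

omit [Field K] in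
theorem lin_c (a : R) (z : M) : 0 - a • z = (-a) • z := by
  rw [zero_sub, neg_smul]

omit [Field K] in
theorem lin_d (a b : R) (z : M) : 0 + (-a * b) • z - 0 - 0 + z = (1 - a * b) • z := by
  rw [sub_smul, one_smul, neg_mul, neg_smul]; abel

end

theorem d3_dl : d3 K (dl K 0) = (Gen0.c₃ K 0 • dl K 1, Gen0.c₃ K 1 • dl K 1) := by
  show (rf K (dl K 0) + lf K (dl K 0), -(re K (dl K 0) + le K (dl K 0))) = _
  rw [lf_dl, le_dl, add_zero, add_zero, re_dl0, rf_dl0]
  exact Prod.ext rfl (neg_smul (gx K) (dl K 1)).symm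

theorem d2_dl_left : d2 K (dl K 1, 0) = (Gen0.c₂ K 0 0 • dl K 1, Gen0.c₂ K 0 1 • dl K 1) := by
  rw [d2, LinearMap.coprod_apply, map_zero, add_zero]
  show (le K (lf K (dl K 1)) + re K (lf K (dl K 1)) - le K (rf K (dl K 1)) - re K (rf K (dl K 1))
    + dl K 1, re K (re K (dl K 1)) - le K (le K (dl K 1))) = _
  rw [lf_dl, map_zero, map_zero, rf_dl1, map_smul, map_smul, le_dl, smul_zero, re_dl0, re_dl1,
    map_smul, re_dl0, le_dl, map_zero, smul_smul, smul_smul]
  exact Prod.ext (lin_a (gdx K * gx K) (dl K 1)) (lin_b (gdy K) (gx K) (dl K 1))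

theorem d2_dl_right : d2 K (0, dl K 1) = (Gen0.c₂ K 1 0 • dl K 1, Gen0.c₂ K 1 1 • dl K 1) := by
  rw [d2, LinearMap.coprod_apply, map_zero, zero_add]
  show (lf K (lf K (dl K 1)) - rf K (rf K (dl K 1)),
    lf K (re K (dl K 1)) + rf K (re K (dl K 1)) - lf K (le K (dl K 1)) - le K (rf K (dl K 1))
    + dl K 1) = _
  rw [lf_dl, le_dl, map_zero, rf_dl1, re_dl1, map_smul, map_smul, map_smul, map_smul, lf_dl, le_dl,
    smul_zero, smul_zero, rf_dl0, smul_smul, smul_smul]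
  exact Prod.ext (lin_c (gdx K * gy K) (dl K 1)) (lin_d (gdy K) (gy K) (dl K 1))

theorem d1_dl_left : d1 K (dl K 1, 0) = Gen0.c₁ K 0 • dl K 0 := by
  rw [d1, LinearMap.coprod_apply, map_zero, add_zero]
  show re K (dl K 1) - le K (dl K 1) = _
  rw [le_dl, sub_zero, re_dl1]
  rfl

theorem d1_dl_right : d1 K (0, dl K 1) = Gen0.c₁ K 1 • dl K 0 := by
  rw [d1, LinearMap.coprod_apply, map_zero, zero_add]
  show rf K (dl K 1) - lf K (dl K 1) = _
  rw [lf_dl, sub_zero, rf_dl1]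
  rfl

theorem blk_smul {M : Type} [AddCommGroup M] [Module (Am K) M] {s : A0 K} {v w : V} {c : Am K}
    (h : mat K s = Gen0.blk v w c) {z : MV K M} {x : M}
    (hz : ∀ i, z i = if i = (1, w) then x else 0) (i : Fin 2 × V) :
    (s • z) i = if i = (1, v) then c • x else 0 := by
  rw [smul_mv, Finset.sum_eq_single ((1 : Fin 2), w)]
  · rw [h, hz, if_pos rfl, Gen0.blk_apply]
    by_cases e : i = (1, v)
    · subst e; simp
    · rw [if_neg e, if_neg (fun h => e (Prod.ext h.1 h.2.1)), zero_smul]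
  · intro j _ hj
    rw [hz, if_neg hj, smul_zero]
  · exact fun h => absurd (Finset.mem_univ _) h

theorem dA3_gq (i : Fin 2) (j : Fin 2 × V) :
    (d₃A K i • gq K 2).1 j = if j = (1, vert 3) then Gen0.c₃ K i • dl K 1 else 0 :=
  blk_smul (z := (gq K 2).1) rfl (gq_apply 2) j

theorem dA2_gq (i k : Fin 2) (j : Fin 2 × V) :
    (d₂A K i k • gq K 1).1 j = if j = (1, vert 2) then Gen0.c₂ K i k • dl K 1 else 0 :=
  blk_smul (z := (gq K 1).1) rfl (gq_apply 1) j

theorem dA1_gq (i : Fin 2) (j : Fin 2 × V) :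
    (d₁A K i • gq K 0).1 j = if j = (1, vert 1) then Gen0.c₁ K i • dl K 0 else 0 :=
  blk_smul (z := (gq K 0).1) rfl (gq_apply 0) j

variable (K) in
/-- a pair of multiples of the generator -/
noncomputable def pr2 (q : Fin 4) (u : Fin 2 → A0 K) : PM2 K 0 q :=
  (PM2.equiv 0 q).symm (u 0 • gq K q, u 1 • gq K q)

theorem pr2_split (q : Fin 4) (u : Fin 2 → A0 K) : pr2 K q u =
    u 0 • (PM2.equiv 0 q).symm (gq K q, 0) + u 1 • (PM2.equiv 0 q).symm (0, gq K q) := by
  rw [← map_smul, ← map_smul, ← map_add]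
  simp [pr2]

theorem exists_pr2 (q : Fin 4) (z : PM2 K 0 q) :
    ∃ v : Fin 2 → A0 K, (∀ j, v j * eps K q = v j) ∧ pr2 K q v = z := by
  refine ⟨![coef q g0 (PM2.equiv 0 q z).1, coef q g0 (PM2.equiv 0 q z).2], fun j => ?_, ?_⟩
  · fin_cases j <;> exact coef_mul_eps _ _
  · show (PM2.equiv 0 q).symm (coef q g0 (PM2.equiv 0 q z).1 • gq K q,
      coef q g0 (PM2.equiv 0 q z).2 • gq K q) = z
    rw [coef_smul_gen_eq, coef_smul_gen_eq]
    exact (PM2.equiv 0 q).symm_apply_apply z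

theorem pr2_inj {q : Fin 4} {u v : Fin 2 → A0 K} (hu : ∀ j, u j * eps K q = u j)
    (hv : ∀ j, v j * eps K q = v j) (h : pr2 K q u = pr2 K q v) (j : Fin 2) : u j = v j := by
  obtain ⟨h0, h1⟩ := Prod.ext_iff.mp ((PM2.equiv 0 q).symm.injective h)
  fin_cases j
  · exact smul_gq_inj (hu 0) (hv 0) h0
  · exact smul_gq_inj (hu 1) (hv 1) h1

theorem d₁A_mul_eps (j : Fin 2) : d₁A K j * eps K 0 = d₁A K j := by
  conv_lhs => rw [← Gen0.d₁A_eq j]
  rw [mul_assoc, Gen0.eps_idem, Gen0.d₁A_eq]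

theorem d₂A_mul_eps (i j : Fin 2) : d₂A K i j * eps K 1 = d₂A K i j := by
  conv_lhs => rw [← Gen0.d₂A_eq i j]
  rw [mul_assoc, Gen0.eps_idem, Gen0.d₂A_eq]

theorem d₃A_mul_eps (i : Fin 2) : d₃A K i * eps K 2 = d₃A K i := by
  conv_lhs => rw [← Gen0.d₃A_eq i]
  rw [mul_assoc, Gen0.eps_idem, Gen0.d₃A_eq]

variable [CharZero K]

theorem res_d3_gq : (res K 0).d₃ (gq K 3) = pr2 K 2 ![d₃A K 0, d₃A K 1] := by
  refine Subtype.ext (funext fun i => ?_)
  show d3 K ((gq K 3).1 i) = ((d₃A K 0 • gq K 2).1 i, (d₃A K 1 • gq K 2).1 i)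
  rw [gq_apply, dA3_gq, dA3_gq]
  split_ifs
  · exact d3_dl
  · exact map_zero _

theorem res_d2_left :
    (res K 0).d₂ ((PM2.equiv 0 2).symm (gq K 2, 0)) = pr2 K 1 (d₂A K 0) := by
  refine Subtype.ext (funext fun i => ?_)
  show d2 K ((gq K 2).1 i, 0) = ((d₂A K 0 0 • gq K 1).1 i, (d₂A K 0 1 • gq K 1).1 i)
  rw [gq_apply, dA2_gq, dA2_gq]
  split_ifs
  · exact d2_dl_left
  · exact map_zero _

theorem res_d2_right :
    (res K 0).d₂ ((PM2.equiv 0 2).symm (0, gq K 2)) = pr2 K 1 (d₂A K 1) := by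
  refine Subtype.ext (funext fun i => ?_)
  show d2 K (0, (gq K 2).1 i) = ((d₂A K 1 0 • gq K 1).1 i, (d₂A K 1 1 • gq K 1).1 i)
  rw [gq_apply, dA2_gq, dA2_gq]
  split_ifs
  · exact d2_dl_right
  · exact map_zero _

theorem res_d1_left :
    (res K 0).d₁ ((PM2.equiv 0 1).symm (gq K 1, 0)) = d₁A K 0 • gq K 0 := by
  refine Subtype.ext (funext fun i => ?_)
  show d1 K ((gq K 1).1 i, 0) = (d₁A K 0 • gq K 0).1 i
  rw [gq_apply, dA1_gq]
  split_ifs
  · exact d1_dl_left
  · exact map_zero _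

theorem res_d1_right :
    (res K 0).d₁ ((PM2.equiv 0 1).symm (0, gq K 1)) = d₁A K 1 • gq K 0 := by
  refine Subtype.ext (funext fun i => ?_)
  show d1 K (0, (gq K 1).1 i) = (d₁A K 1 • gq K 0).1 i
  rw [gq_apply, dA1_gq]
  split_ifs
  · exact d1_dl_right
  · exact map_zero _

theorem res_d1_pr2 (u : Fin 2 → A0 K) :
    (res K 0).d₁ (pr2 K 1 u) = (∑ j, u j * d₁A K j) • gq K 0 := by
  rw [pr2_split, map_add, map_smul, map_smul, res_d1_left, res_d1_right, smul_smul, smul_smul,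
    Fin.sum_univ_two, add_smul]

theorem res_d2_pr2 (u : Fin 2 → A0 K) :
    (res K 0).d₂ (pr2 K 2 u) = pr2 K 1 (fun j => ∑ i, u i * d₂A K i j) := by
  rw [pr2_split 2, map_add, map_smul, map_smul, res_d2_left, res_d2_right]
  simp only [pr2]
  rw [← map_smul, ← map_smul, ← map_add]
  simp [Fin.sum_univ_two, add_smul, smul_smul]

theorem res_d3_smul (u : A0 K) :
    (res K 0).d₃ (u • gq K 3) = pr2 K 2 (fun i => u * d₃A K i) := by
  rw [map_smul, res_d3_gq]
  simp only [pr2]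
  rw [← map_smul]
  simp [smul_smul]

variable (K) in
/-- the generator of `H 0` -/
noncomputable def gen : HM K 0 := (res K 0).π (gq K 0)

theorem gen_eq : eps K 0 • gen K = gen K := by
  rw [gen, ← map_smul, eps_smul_gq]

theorem gen_span (h : HM K 0) : ∃ a : A0 K, a • gen K = h := by
  obtain ⟨z, rfl⟩ := (res K 0).surj h
  exact ⟨coef 0 g0 z, by rw [gen, ← map_smul, coef_smul_gen_eq]⟩

theorem d1_gen (j : Fin 2) : d₁A K j • gen K = 0 := by
  fin_cases j
  · show d₁A K 0 • gen K = 0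
    rw [gen, ← map_smul, ← res_d1_left]
    exact (res K 0).ex₀.apply_apply_eq_zero _
  · show d₁A K 1 • gen K = 0
    rw [gen, ← map_smul, ← res_d1_right]
    exact (res K 0).ex₀.apply_apply_eq_zero _

theorem exact3 (u : A0 K) (hu : u * eps K 3 = u) (h : ∀ i, u * d₃A K i = 0) : u = 0 := by
  have e : u • gq K 3 = 0 := (res K 0).inj (by rw [res_d3_smul, map_zero]; simp [pr2, h])
  rw [← hu, ← coef_smul_gq, e, map_zero]

theorem exact2 (u : Fin 2 → A0 K) (hu : ∀ i, u i * eps K 2 = u i)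
    (h : ∀ j, ∑ i, u i * d₂A K i j = 0) :
    ∃ v, v * eps K 3 = v ∧ ∀ i, v * d₃A K i = u i := by
  obtain ⟨z, hz⟩ := ((res K 0).ex₂ (pr2 K 2 u)).1
    (by rw [res_d2_pr2]; simp [pr2, h])
  refine ⟨coef 3 g0 z, coef_mul_eps _ _, pr2_inj (fun i => ?_) hu ?_⟩
  · rw [mul_assoc, d₃A_mul_eps]
  · rw [← res_d3_smul, coef_smul_gen_eq, hz]

theorem exact1 (u : Fin 2 → A0 K) (hu : ∀ j, u j * eps K 1 = u j)
    (h : ∑ j, u j * d₁A K j = 0) :
    ∃ v : Fin 2 → A0 K, (∀ i, v i * eps K 2 = v i) ∧ ∀ j, ∑ i, v i * d₂A K i j = u j := by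
  obtain ⟨z, hz⟩ := ((res K 0).ex₁ (pr2 K 1 u)).1 (by rw [res_d1_pr2, h, zero_smul])
  obtain ⟨v, hv, rfl⟩ := exists_pr2 2 z
  refine ⟨v, hv, pr2_inj (fun j => ?_) hu (by rw [← res_d2_pr2, hz])⟩
  rw [Finset.sum_mul]
  exact Finset.sum_congr rfl fun i _ => by rw [mul_assoc, d₂A_mul_eps]

theorem exact0 (u : A0 K) (hu : u * eps K 0 = u) (h : u • gen K = 0) :
    ∃ v : Fin 2 → A0 K, (∀ j, v j * eps K 1 = v j) ∧ ∑ j, v j * d₁A K j = u := by
  obtain ⟨z, hz⟩ := ((res K 0).ex₀ (u • gq K 0)).1 (by rw [map_smul]; exact h)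
  obtain ⟨v, hv, rfl⟩ := exists_pr2 1 z
  refine ⟨v, hv, smul_gq_inj ?_ hu (by rw [← res_d1_pr2, hz])⟩
  rw [Finset.sum_mul]
  exact Finset.sum_congr rfl fun i _ => by rw [mul_assoc, d₁A_mul_eps]

/-! The module `X 0`. -/

theorem gen_apply (i : Fin 2 × V) :
    (gen K).1 i = if i = (1, vert 0) then mono K (0, 0) else 0 := by
  show augL K ((0 : ℕ) : ℤ) ((gq K 0).1 i) = _
  rw [gq_apply]
  split_ifs
  · exact (aug_delta 0 (1 : Am K) (m := (0, 0)) 0 g0.2.2).trans (actFn_one _)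
  · exact map_zero _

variable (K) in
/-- the generator of `X 0` -/
noncomputable def x₀ : XM K 0 := prX K 0 (gen K)

theorem x₀_apply (r : V) :
    (x₀ K).1 (0, r) = if r = vert 0 then mono K (0, 0) else 0 := by
  show (gen K).1 (1, r) = _
  rw [gen_apply]
  by_cases h : r = vert 0 <;> simp [h]

theorem x₀_ne : x₀ K ≠ 0 := by
  intro h
  have := congrFun (congrArg (fun x : XM K 0 => x.1 (0, vert 0)) h) (0, 0)
  rw [x₀_apply, if_pos rfl] at this
  exact one_ne_zero ((Pi.single_eq_same (M := fun _ => K) (0, 0) 1).symm.trans this)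

theorem x₀_ε0 : eps K 0 • x₀ K = x₀ K := by
  rw [x₀, ← map_smul, gen_eq]

theorem x₀_gen (x : XM K 0) : ∃ a : A0 K, a • x₀ K = x := by
  obtain ⟨h, rfl⟩ := prX_surjective K 0 x
  obtain ⟨a, rfl⟩ := gen_span h
  exact ⟨a, (map_smul _ _ _).symm⟩

omit [CharZero K] in
theorem eps_smul_apply (p : Fin 4) (x : XM K 0) (r : V) :
    (eps K p • x).1 (0, r) = if r = vert p then x.1 (0, r) else 0 := by
  show (eps K p • x.1) (0, r) = _
  rw [smul_mv, Finset.sum_eq_single ((0 : Fin 2), r)]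
  · show Gen0.vertex (vert p) (0, r) (0, r) • _ = _
    by_cases h : r = vert p <;> simp [Gen0.vertex, h]
  · intro j _ hj
    show Gen0.vertex (vert p) (0, r) j • _ = 0
    rw [Gen0.vertex, Matrix.diagonal_apply_ne _ hj.symm, zero_smul]
  · exact fun h => absurd (Finset.mem_univ _) h

omit [CharZero K] in
theorem ext_XM {x y : XM K 0} (h : ∀ r, x.1 (0, r) = y.1 (0, r)) : x = y := by
  refine Subtype.ext (funext fun i => ?_)
  obtain ⟨a, r⟩ := i
  fin_cases a
  · exact h r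
  · exact (x.2 r).1.trans (y.2 r).1.symm

omit [CharZero K] in
theorem hom2_zero {d : ℤ} {f : Fn K} (h : f ∈ Hom2 K d) (hd : d = 0) :
    f = f (0, 0) • mono K (0, 0) := by
  funext m
  by_cases hm : m = (0, 0)
  · subst hm; simp [mono]
  · have hf : f m = 0 := by
      by_contra hc
      obtain ⟨a, b, c⟩ := h m hc
      exact hm (Prod.ext (by simp; omega) (by simp; omega))
    simp [mono, hm, hf]

omit [CharZero K] in
theorem hom2_neg {d : ℤ} {f : Fn K} (h : f ∈ Hom2 K d) (hd : d < 0) : f = 0 := by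
  funext m
  by_contra hc
  obtain ⟨a, b, c⟩ := h m hc
  omega

theorem X_span0 (x : XM K 0) : ∃ c : K, c • x₀ K = eps K 0 • x := by
  refine ⟨x.1 (0, vert 0) (0, 0), ext_XM fun r => ?_⟩
  rw [eps_smul_apply]
  show (x.1 (0, vert 0) (0, 0) : K) • (x₀ K).1 (0, r) = _
  rw [x₀_apply]
  split_ifs with h
  · subst h
    exact (hom2_zero (x.2 _).2 rfl).symm
  · exact smul_zero _

omit [CharZero K] in
theorem X_eps_odd {p : Fin 4} (hp : off (vert p) = -1) (x : XM K 0) : eps K p • x = 0 :=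
  ext_XM fun r => by
    rw [eps_smul_apply]
    split_ifs with h
    · subst h
      exact hom2_neg (x.2 _).2 (by rw [hp]; norm_num)
    · rfl

variable (K) in
/-- the value of the cocycle on the resolution -/
noncomputable def Th : A0 K :=
  ∑ i, ∑ j, (theta K).θ (d₃A K i) (d₂A K i j) (d₁A K j)

theorem mat_Th : mat K (Th K) = Gen0.blk (vert 3) (vert 0) (-1) := by
  rw [Th, MatAux.mat_sum]
  simp only [MatAux.mat_sum, mat_theta]
  refine (Gen0.thm3_sum (K := K)).trans ?_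
  rw [← Gen0.mon_neg, ← Gen0.one_eq_mon]

theorem Th_x₀ (r : V) :
    (Th K • x₀ K).1 (0, r) = if r = vert 3 then -mono K (0, 0) else 0 := by
  show (Th K • (x₀ K).1) (0, r) = _
  rw [smul_mv, Finset.sum_eq_single ((0 : Fin 2), vert 0)]
  · rw [mat_Th, Gen0.blk_apply, x₀_apply, if_pos rfl]
    by_cases h : r = vert 3 <;> simp [h]
  · rintro ⟨a, v⟩ - hj
    fin_cases a
    · have hv : v ≠ vert 0 := fun e => hj (Prod.ext rfl e)
      show _ • (x₀ K).1 (0, v) = 0
      rw [x₀_apply, if_neg hv, smul_zero]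
    · show _ • (x₀ K).1 (1, v) = 0
      rw [((x₀ K).2 v).1, smul_zero]
  · exact fun h => absurd (Finset.mem_univ _) h

theorem theta_ne : Th K • x₀ K ≠ 0 := by
  intro h
  have := congrFun (congrArg (fun x : XM K 0 => x.1 (0, vert 3)) h) (0, 0)
  rw [Th_x₀, if_pos rfl] at this
  exact one_ne_zero ((Pi.single_eq_same (M := fun _ => K) (0, 0) 1).symm.trans
    (neg_eq_zero.mp this))

theorem X_span3 (x : XM K 0) : ∃ c : K, c • (Th K • x₀ K) = eps K 3 • x := by
  refine ⟨-(x.1 (0, vert 3) (0, 0)), ext_XM fun r => ?_⟩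
  rw [eps_smul_apply]
  show (-(x.1 (0, vert 3) (0, 0)) : K) • (Th K • x₀ K).1 (0, r) = _
  rw [Th_x₀]
  split_ifs with h
  · subst h
    rw [neg_smul_neg]
    exact (hom2_zero (x.2 _).2 rfl).symm
  · exact smul_zero _

theorem norm_left (p : Fin 4) (b c : A0 K) : (theta K).θ (eps K p) b c = 0 :=
  mat_injective ((mat_theta _ _ _).trans (Gen0.thm3_vertex_left _ _ _))

theorem norm_mid (p : Fin 4) (a c : A0 K) : (theta K).θ a (eps K p) c = 0 :=
  mat_injective ((mat_theta _ _ _).trans (Gen0.thm3_vertex_mid _ _ _))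

theorem norm_right (p : Fin 4) (a b : A0 K) : (theta K).θ a b (eps K p) = 0 :=
  mat_injective ((mat_theta _ _ _).trans (Gen0.thm3_vertex_right _ _ _))

end Base0

open Base0 in
variable (K) in
/-- the interface at step zero, given the Ext facts -/
noncomputable def base0 [CharZero K]
    (ext_proj : ∀ i, 3 ≤ i → ExtVan (A0 K) (XM K 0) (A0 K) i)
    (ext_proj_one : ExtVan (A0 K) (XM K 0) (A0 K) 1)
    (ext_proj_two : ¬ ExtVan (A0 K) (XM K 0) (A0 K) 2)
    (ext_orbit : ∀ i, ExtVan (A0 K) (XM K 1) (XM K 0) i) :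
    Base K (A0 K) (XM K 0) (XM K 1) (HM K 0) where
  θ := theta K
  ext_proj := ext_proj
  ext_proj_one := ext_proj_one
  ext_proj_two := ext_proj_two
  ext_orbit := ext_orbit
  inc := incX K 0
  pr := prX K 0
  inc_inj := incX_injective K 0
  pr_surj := prX_surjective K 0
  ex := (incX_prX_exact K 0).linearMap_ker_eq
  ε := Gen0.eps K
  idem := Gen0.eps_idem
  norm_left := norm_left
  norm_mid := norm_mid
  norm_right := norm_right
  d1 := Gen0.d₁A K
  d2 := Gen0.d₂A K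
  d3 := Gen0.d₃A K
  d1_eq := Gen0.d₁A_eq
  d2_eq := Gen0.d₂A_eq
  d3_eq := Gen0.d₃A_eq
  d32 := Gen0.d32A
  d21 := Gen0.d21A
  gen := Base0.gen K
  gen_eq := gen_eq
  gen_span := gen_span
  d1_gen := d1_gen
  exact3 := exact3
  exact2 := exact2
  exact1 := exact1
  exact0 := exact0
  x₀ := x₀ K
  x₀_ne := x₀_ne
  x₀_pr := rfl
  x₀_ε0 := x₀_ε0
  x₀_gen := x₀_gen
  X_span0 := X_span0
  X_ε1 := X_eps_odd rfl
  X_ε2 := X_eps_odd rfl
  X_span3 := X_span3
  theta_ne := theta_ne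

end Vale.Agent.P195
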