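import Vale.Agent.P195.KillRing

/-!
The projective modules `P1 θ ε = A(ε,0,0,0,0)` and `P2 θ ε`, and the corner idempotents of `Kill θ`.
-/

namespace Vale.Agent.P195

variable {K : Type} [Field K] {A₀ : Type} [Ring A₀] [Algebra K A₀]

namespace Kill

variable (θ : Cocycle K A₀)

/-- an element of `A₀` in the first corner -/
noncomputable def emb (a : A₀) : Kill θ := ⟨a, 0, 0, 0, 0⟩

/-- the idempotent of the extra vertex -/
noncomputable def e₂ : Kill θ := ⟨0, 0, 0, 0, 1⟩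

@[simp] theorem emb_u (a : A₀) : (emb θ a).u = a := rfl
@[simp] theorem emb_q (a : A₀) : (emb θ a).q = 0 := rfl
@[simp] theorem emb_r (a : A₀) : (emb θ a).r = 0 := rfl
@[simp] theorem emb_s (a : A₀) : (emb θ a).s = 0 := rfl
@[simp] theorem emb_c (a : A₀) : (emb θ a).c = 0 := rfl
@[simp] theorem e₂_u : (e₂ θ).u = 0 := rfl
@[simp] theorem e₂_q : (e₂ θ).q = 0 := rfl
@[simp] theorem e₂_r : (e₂ θ).r = 0 := rfl
@[simp] theorem e₂_s : (e₂ θ).s = 0 := rfl
@[simp] theorem e₂_c : (e₂ θ).c = 1 := rfl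

theorem emb_one_add_e₂ : emb θ 1 + e₂ θ = 1 := by ext1 <;> simp

variable {θ}

theorem gam_eq_zero {ε : A₀} (h : ∀ a c, θ.θ a ε c = 0) (a : A₀) : gam θ a ε = 0 := by
  have : θ.θ a ε = 0 := LinearMap.ext fun c => by simpa using h a c
  simp [gam, this]

theorem gam_eq_zero' {ε : A₀} (h : ∀ b c, θ.θ ε b c = 0) (b : A₀) : gam θ ε b = 0 := by
  have : θ.θ ε b = 0 := LinearMap.ext fun c => by simpa using h b c
  simp [gam, this]

variable (θ)

/-- `A(ε,0,0,0,0)`, as the left ideal of elements fixed by right multiplication -/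
noncomputable def P1 (ε : A₀) : Submodule (Kill θ) (Kill θ) where
  carrier := {x | x * emb θ ε = x}
  zero_mem' := zero_mul _
  add_mem' := fun {x y} (hx : x * _ = x) (hy : y * _ = y) =>
    show (x + y) * _ = x + y by rw [add_mul, hx, hy]
  smul_mem' := fun a {x} (hx : x * _ = x) => show a * x * _ = a * x by rw [mul_assoc, hx]

variable {θ}

theorem mem_P1 {ε : A₀} (hm : ∀ a c, θ.θ a ε c = 0) {x : Kill θ} :
    x ∈ P1 θ ε ↔ x.u * ε = x.u ∧ qright ε x.q = x.q ∧ x.r = 0 ∧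
      x.s ∘ₗ LinearMap.mul K A₀ ε = x.s ∧ x.c = 0 := by
  show x * emb θ ε = x ↔ _
  simp [Kill.ext_iff, gam_eq_zero hm, eq_comm (a := (0 : A₀)), eq_comm (a := (0 : K))]

theorem mul_emb_mem_P1 {ε : A₀} (hi : ε * ε = ε) (hm : ∀ a c, θ.θ a ε c = 0) (x : Kill θ) :
    x * emb θ ε ∈ P1 θ ε := by
  have h : emb θ ε * emb θ ε = emb θ ε := by
    ext1 <;> simp [hi, gam_eq_zero hm]
  show x * emb θ ε * emb θ ε = x * emb θ ε
  rw [mul_assoc, h]

theorem projective_P1 {ε : A₀} (hi : ε * ε = ε) (hm : ∀ a c, θ.θ a ε c = 0) :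
    Module.Projective (Kill θ) (P1 θ ε) :=
  Module.Projective.of_split (P1 θ ε).subtype
    (LinearMap.codRestrict (P1 θ ε) (LinearMap.toSpanSingleton (Kill θ) (Kill θ) (emb θ ε))
      fun x => mul_emb_mem_P1 hi hm x)
    (LinearMap.ext fun x => Subtype.ext x.2)

variable (θ)

/-- pairs `(F, φ)`: the `K`-linear maps from `A₀` to the column `A e₂` -/
@[ext]
structure E2 (θ : Cocycle K A₀) where
  F : Module.End K A₀
  φ : Module.Dual K A₀

namespace E2

variable {θ}

noncomputable instance : Zero (E2 θ) := ⟨⟨0, 0⟩⟩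
noncomputable instance : Add (E2 θ) := ⟨fun x y => ⟨x.F + y.F, x.φ + y.φ⟩⟩
noncomputable instance : Neg (E2 θ) := ⟨fun x => ⟨-x.F, -x.φ⟩⟩
noncomputable instance : Sub (E2 θ) := ⟨fun x y => ⟨x.F - y.F, x.φ - y.φ⟩⟩
noncomputable instance : SMul ℕ (E2 θ) := ⟨fun k x => ⟨k • x.F, k • x.φ⟩⟩
noncomputable instance : SMul ℤ (E2 θ) := ⟨fun k x => ⟨k • x.F, k • x.φ⟩⟩
noncomputable instance : SMul K (E2 θ) := ⟨fun k x => ⟨k • x.F, k • x.φ⟩⟩

/-- the two coordinates -/
def toProd (x : E2 θ) : Module.End K A₀ × Module.Dual K A₀ := (x.F, x.φ)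

theorem toProd_injective : Function.Injective (toProd (θ := θ)) := fun x y h => by
  simp only [toProd, Prod.mk.injEq] at h
  exact E2.ext h.1 h.2

noncomputable instance : AddCommGroup (E2 θ) :=
  toProd_injective.addCommGroup toProd rfl (fun _ _ => rfl) (fun _ => rfl) (fun _ _ => rfl)
    (fun _ _ => rfl) (fun _ _ => rfl)

noncomputable instance : Module K (E2 θ) :=
  toProd_injective.module K
    { toFun := toProd, map_zero' := rfl, map_add' := fun _ _ => rfl } fun _ _ => rfl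

@[simp] theorem zero_F : (0 : E2 θ).F = 0 := rfl
@[simp] theorem zero_φ : (0 : E2 θ).φ = 0 := rfl
@[simp] theorem add_F (x y : E2 θ) : (x + y).F = x.F + y.F := rfl
@[simp] theorem add_φ (x y : E2 θ) : (x + y).φ = x.φ + y.φ := rfl
@[simp] theorem neg_F (x : E2 θ) : (-x).F = -x.F := rfl
@[simp] theorem neg_φ (x : E2 θ) : (-x).φ = -x.φ := rfl
@[simp] theorem sub_F (x y : E2 θ) : (x - y).F = x.F - y.F := rfl
@[simp] theorem sub_φ (x y : E2 θ) : (x - y).φ = x.φ - y.φ := rfl
@[simp] theorem ksmul_F (k : K) (x : E2 θ) : (k • x).F = k • x.F := rfl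
@[simp] theorem ksmul_φ (k : K) (x : E2 θ) : (k • x).φ = k • x.φ := rfl

/-- `(u,q,r,s,c)(F,φ) = (L_u F + φ(·) r, c φ)` -/
noncomputable instance : SMul (Kill θ) (E2 θ) :=
  ⟨fun a x => ⟨LinearMap.mul K A₀ a.u ∘ₗ x.F + x.φ.smulRight a.r, a.c • x.φ⟩⟩

@[simp] theorem smul_F (a : Kill θ) (x : E2 θ) :
    (a • x).F = LinearMap.mul K A₀ a.u ∘ₗ x.F + x.φ.smulRight a.r := rfl
@[simp] theorem smul_φ (a : Kill θ) (x : E2 θ) : (a • x).φ = a.c • x.φ := rfl

noncomputable instance instModuleKill : Module (Kill θ) (E2 θ) where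
  one_smul x := by ext <;> simp
  mul_smul a b x := by
    ext
    · simp [mul_add, mul_assoc, smul_smul, add_assoc, mul_comm]
    · simp [mul_assoc]
  smul_zero a := by ext <;> simp
  smul_add a x y := by
    ext
    · simp [mul_add, add_smul]; abel
    · simp [mul_add]
  add_smul a b x := by
    ext
    · simp [add_mul, smul_add]; abel
    · simp [add_mul]
  zero_smul x := by ext <;> simp

end E2

/-- `P2 θ ε`: the pairs supported on `ε A₀` -/
noncomputable def P2 (ε : A₀) : Submodule (Kill θ) (E2 θ) where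
  carrier := {x | x.F ∘ₗ LinearMap.mul K A₀ ε = x.F ∧ x.φ ∘ₗ LinearMap.mul K A₀ ε = x.φ}
  zero_mem' := by simp
  add_mem' := fun {x y} hx hy => ⟨by simp [LinearMap.add_comp, hx.1, hy.1],
    by simp [LinearMap.add_comp, hx.2, hy.2]⟩
  smul_mem' := fun a {x} hx => by
    obtain ⟨hF, hφ⟩ := hx
    constructor <;> ext z
    · simpa using congrArg₂ (fun p q => a.u * p + q • a.r) (LinearMap.congr_fun hF z)
        (LinearMap.congr_fun hφ z)
    · simpa using Or.inl (LinearMap.congr_fun hφ z)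

variable {θ}

theorem mem_P2 {ε : A₀} {x : E2 θ} :
    x ∈ P2 θ ε ↔
      x.F ∘ₗ LinearMap.mul K A₀ ε = x.F ∧ x.φ ∘ₗ LinearMap.mul K A₀ ε = x.φ := Iff.rfl

/-- right multiplication by `a` on pairs -/
noncomputable def E2.rightMul (a : A₀) : E2 θ →ₗ[Kill θ] E2 θ where
  toFun x := ⟨x.F ∘ₗ LinearMap.mul K A₀ a, x.φ ∘ₗ LinearMap.mul K A₀ a⟩
  map_add' x y := by ext <;> simp
  map_smul' c x := by ext <;> simp

@[simp] theorem E2.rightMul_F (a : A₀) (x : E2 θ) :
    (E2.rightMul a x).F = x.F ∘ₗ LinearMap.mul K A₀ a := rfl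
@[simp] theorem E2.rightMul_φ (a : A₀) (x : E2 θ) :
    (E2.rightMul a x).φ = x.φ ∘ₗ LinearMap.mul K A₀ a := rfl

theorem rightMul_mem_P2 {ε : A₀} (hi : ε * ε = ε) (x : E2 θ) :
    E2.rightMul ε x ∈ P2 θ ε := by
  constructor <;> ext z <;> simp [← mul_assoc, hi]

theorem projective_E2 [Module.Finite K A₀] : Module.Projective (Kill θ) (E2 θ) := by
  let b := Module.Free.chooseBasis K A₀
  let i : E2 θ →ₗ[Kill θ] (Module.Free.ChooseBasisIndex K A₀ → Kill θ) :=
    { toFun := fun x j => ⟨0, 0, x.F (b j), 0, x.φ (b j)⟩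
      map_add' := fun x y => by funext j; ext1 <;> simp
      map_smul' := fun a x => by funext j; ext1 <;> simp [mul_comm] }
  let p : (Module.Free.ChooseBasisIndex K A₀ → Kill θ) →ₗ[Kill θ] E2 θ :=
    ∑ j, (LinearMap.toSpanSingleton (Kill θ) (E2 θ)
      ⟨(b.coord j).smulRight (0 : A₀), b.coord j⟩).comp (LinearMap.proj j)
  have hp : p.comp i = LinearMap.id := by
    apply LinearMap.ext
    intro x
    have hsum : p (i x) = ∑ j, i x j • (⟨(b.coord j).smulRight (0 : A₀), b.coord j⟩ : E2 θ) := by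
      simp [p]
    let Fh : E2 θ →+ Module.End K A₀ := AddMonoidHom.mk' E2.F fun _ _ => rfl
    let φh : E2 θ →+ Module.Dual K A₀ := AddMonoidHom.mk' E2.φ fun _ _ => rfl
    show p (i x) = x
    rw [hsum]
    ext1
    · show Fh _ = _
      rw [map_sum]
      refine b.ext fun k => ?_
      simp [Fh, i, Finsupp.single_apply, ite_smul]
    · show φh _ = _
      rw [map_sum]
      refine b.ext fun k => ?_
      simp [φh, i]
  exact Module.Projective.of_split i p hp

theorem projective_P2 [Module.Finite K A₀] {ε : A₀} (hi : ε * ε = ε) :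
    Module.Projective (Kill θ) (P2 θ ε) := by
  have := projective_E2 (θ := θ)
  exact Module.Projective.of_split (P2 θ ε).subtype
    (LinearMap.codRestrict (P2 θ ε) (E2.rightMul ε) fun x => rightMul_mem_P2 hi x)
    (LinearMap.ext fun x => Subtype.ext (E2.ext x.2.1 x.2.2))

end Kill

end Vale.Agent.P195
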