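import Vale.Agent.P195.CochainLemmas
import Vale.Agent.P195.KillModules

/-!
The maps between the cells `P1` and `P2` used by the twisted resolution.
-/

namespace Vale.Agent.P195

open Kill

variable {K : Type} [Field K] {A₀ : Type} [Ring A₀] [Algebra K A₀] {θ : Cocycle K A₀}

theorem emb_mem {e v : A₀} (hn : Cocycle.IsNormal θ e) (hv : v * e = v) :
    Kill.emb θ v ∈ P1 θ e := by
  rw [mem_P1 hn.mid]
  simp [hv]

/-- `(F, φ) ↦ (0, F, φ)` -/
noncomputable def sigW : E2 θ →ₗ[Kill θ] Kill θ where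
  toFun y := ⟨0, Submodule.Quotient.mk y.F, 0, y.φ, 0⟩
  map_add' x y := by ext1 <;> simp [Submodule.Quotient.mk_add]
  map_smul' a y := by ext1 <;> simp [rs]

@[simp] theorem sigW_u (y : E2 θ) : (sigW y).u = 0 := rfl
@[simp] theorem sigW_q (y : E2 θ) : (sigW y).q = Submodule.Quotient.mk y.F := rfl
@[simp] theorem sigW_r (y : E2 θ) : (sigW y).r = 0 := rfl
@[simp] theorem sigW_s (y : E2 θ) : (sigW y).s = y.φ := rfl
@[simp] theorem sigW_c (y : E2 θ) : (sigW y).c = 0 := rfl

/-- `(u, q, s) ↦ (L_u h, 0)` -/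
noncomputable def etaW (h : Module.End K A₀) : Kill θ →ₗ[Kill θ] E2 θ where
  toFun x := ⟨LinearMap.mul K A₀ x.u ∘ₗ h, 0⟩
  map_add' x y := by ext <;> simp
  map_smul' a x := by ext <;> simp [mul_assoc]

@[simp] theorem etaW_F (h : Module.End K A₀) (x : Kill θ) :
    (etaW h x).F = LinearMap.mul K A₀ x.u ∘ₗ h := rfl
@[simp] theorem etaW_φ (h : Module.End K A₀) (x : Kill θ) : (etaW h x).φ = 0 := rfl

/-- right multiplication between cells of the first kind -/
noncomputable def mulP {e e' : A₀} (hn : Cocycle.IsNormal θ e') {d : A₀} (hd : d * e' = d) :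
    P1 θ e →ₗ[Kill θ] P1 θ e' :=
  LinearMap.codRestrict _ (LinearMap.toSpanSingleton (Kill θ) (Kill θ) (emb θ d) ∘ₗ (P1 θ e).subtype)
    fun x => by
      have h : emb θ d * emb θ e' = emb θ d := by ext1 <;> simp [hd, gam_eq_zero hn.mid]
      show (x : Kill θ) * emb θ d * emb θ e' = (x : Kill θ) * emb θ d
      rw [mul_assoc, h]

/-- right multiplication between cells of the second kind -/
noncomputable def mulQ {e e' : A₀} {d : A₀} (hd : d * e' = d) : P2 θ e →ₗ[Kill θ] P2 θ e' :=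
  LinearMap.codRestrict _ (E2.rightMul d ∘ₗ (P2 θ e).subtype) fun x => by
    constructor <;> ext c <;> simp [← mul_assoc, hd]

/-- from the second kind to the first -/
noncomputable def sigP {e : A₀} (hn : Cocycle.IsNormal θ e) : P2 θ e →ₗ[Kill θ] P1 θ e :=
  LinearMap.codRestrict _ (sigW ∘ₗ (P2 θ e).subtype) fun x => by
    rw [mem_P1 hn.mid]
    simp [x.2.1, x.2.2]

/-- the correction maps -/
noncomputable def etaP {e e' : A₀} {h : Module.End K A₀} (hh : ∀ c, h (e' * c) = h c) :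
    P1 θ e →ₗ[Kill θ] P2 θ e' :=
  LinearMap.codRestrict _ (etaW h ∘ₗ (P1 θ e).subtype) fun x => by
    constructor <;> ext c <;> simp [hh]

/-- from the first kind to the second -/
noncomputable def rhoP {e : A₀} (hn : Cocycle.IsNormal θ e) : P1 θ e →ₗ[Kill θ] P2 θ e :=
  LinearMap.codRestrict _ (etaW LinearMap.id ∘ₗ (P1 θ e).subtype) fun x => by
    constructor <;> ext c <;> simp [← mul_assoc, ((mem_P1 hn.mid).1 x.2).1]

section Coe

variable {e e' : A₀} (hn : Cocycle.IsNormal θ e) (hn' : Cocycle.IsNormal θ e') {d : A₀}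
  (hd : d * e' = d) {h : Module.End K A₀} (hh : ∀ c, h (e' * c) = h c)

@[simp] theorem coe_mulP (x : P1 θ e) : (mulP hn' hd x : Kill θ) = (x : Kill θ) * emb θ d := rfl
@[simp] theorem coe_mulQ (y : P2 θ e) : (mulQ hd y : E2 θ) = E2.rightMul d (y : E2 θ) := rfl
@[simp] theorem coe_sigP (y : P2 θ e) : (sigP hn y : Kill θ) = sigW (y : E2 θ) := rfl
@[simp] theorem coe_rhoP (x : P1 θ e) : (rhoP hn x : E2 θ) = etaW LinearMap.id (x : Kill θ) := rfl
@[simp] theorem coe_etaP (x : P1 θ e) : (etaP hh x : E2 θ) = etaW h (x : Kill θ) := rfl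

include hn

theorem exact_rhoP_sigP : Function.Exact (rhoP hn) (sigP hn) := by
  refine fun y => ⟨fun h0 => ?_, fun ⟨x, hx⟩ => ?_⟩
  · have h1 : sigW (y : E2 θ) = 0 := congrArg Subtype.val h0
    have hq : (Submodule.Quotient.mk (y : E2 θ).F : Quot₀ K A₀) = 0 := congrArg Kill.q h1
    obtain ⟨a, ha⟩ := (Submodule.Quotient.mk_eq_zero _).1 hq
    have hs : (y : E2 θ).φ = 0 := congrArg Kill.s h1
    have hv : a * e = a := by
      have := LinearMap.congr_fun y.2.1 1
      simp [← ha] at this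
      exact this
    refine ⟨⟨emb θ a, emb_mem hn hv⟩, Subtype.ext (E2.ext ?_ ?_)⟩
    · simp [← ha]
    · simp [hs]
  · subst hx
    refine Subtype.ext (Kill.ext rfl ?_ rfl rfl rfl)
    exact (Submodule.Quotient.mk_eq_zero _).2 ⟨_, (LinearMap.comp_id _).symm⟩

theorem exists_sigP (x : P1 θ e) (h0 : (x : Kill θ).u = 0) : ∃ y, sigP hn y = x := by
  obtain ⟨-, hq, hr, hs, hc⟩ := (mem_P1 hn.mid).1 x.2
  obtain ⟨F, hF⟩ := Submodule.Quotient.mk_surjective _ (x : Kill θ).q
  refine ⟨⟨⟨F ∘ₗ LinearMap.mul K A₀ e, (x : Kill θ).s⟩, ?_, hs⟩, Subtype.ext (Kill.ext ?_ ?_ ?_ ?_ ?_)⟩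
  · ext c; simp [← mul_assoc, hn.idem]
  all_goals simp [h0, hr, hc]
  rw [← qright_mk, hF, hq]

theorem exact_sigP_rhoP : Function.Exact (sigP hn) (rhoP hn) := by
  refine fun x => ⟨fun h0 => exists_sigP hn x ?_, fun ⟨y, hy⟩ => ?_⟩
  · have h1 := LinearMap.congr_fun (congrArg E2.F (congrArg Subtype.val h0)) 1
    simpa using h1
  · subst hy
    exact Subtype.ext (E2.ext (by simp) rfl)

end Coe

section Compose

/-- the composite of two right multiplications is one, up to the image of a correction -/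
theorem mul_emb_emb (x : Kill θ) (a b : A₀) :
    x * emb θ a * emb θ b = x * emb θ (a * b) + sigW (etaW (θ.θ a b) x) := by
  have h : emb θ a * emb θ b = emb θ (a * b) + ⟨0, gam θ a b, 0, 0, 0⟩ := by ext1 <;> simp
  rw [mul_assoc, h, mul_add]
  congr 1
  ext1 <;> simp [gam]

theorem rightMul_rightMul (a b : A₀) (y : E2 θ) :
    E2.rightMul b (E2.rightMul a y) = E2.rightMul (a * b) y := by
  ext <;> simp [mul_assoc]

theorem sigW_mul (d : A₀) (y : E2 θ) : sigW y * emb θ d = sigW (E2.rightMul d y) := by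
  ext1 <;> simp

theorem rightMul_etaW (h : Module.End K A₀) (d : A₀) (x : Kill θ) :
    E2.rightMul d (etaW h x) = etaW (h ∘ₗ LinearMap.mul K A₀ d) x := by
  ext <;> simp

theorem etaW_mul (h : Module.End K A₀) (d : A₀) (x : Kill θ) :
    etaW h (x * emb θ d) = etaW (LinearMap.mul K A₀ d ∘ₗ h) x := by
  ext <;> simp [mul_assoc]

theorem rightMul_rho (d : A₀) (x : Kill θ) :
    E2.rightMul d (etaW LinearMap.id x) = etaW LinearMap.id (x * emb θ d) := by
  ext <;> simp [mul_assoc]

theorem etaW_sigW (h : Module.End K A₀) (y : E2 θ) : etaW h (sigW y) = 0 := by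
  ext <;> simp

end Compose

section Hom

variable {X : Type} [AddCommGroup X] [Module A₀ X] {e : A₀}

/-- a map out of a cell of the first kind is given by the image of the idempotent -/
theorem hom_P1 (hn : Cocycle.IsNormal θ e) (f : P1 θ e →ₗ[Kill θ] Infl θ X) :
    ∃ w : X, e • w = w ∧ ∀ x, f x = (x : Kill θ).u • w := by
  let g : P1 θ e := ⟨emb θ e, emb_mem hn hn.idem⟩
  have hx : ∀ x : P1 θ e, f x = (x : Kill θ).u • (f g : X) := by
    intro x
    have : x = (x : Kill θ) • g := Subtype.ext x.2.symm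
    conv_lhs => rw [this, map_smul]
    rfl
  exact ⟨f g, (hx g).symm, hx⟩

/-- nothing maps out of a cell of the second kind into an inflated module -/
theorem hom_P2 [Module.Finite K A₀] (hi : e * e = e) (f : P2 θ e →ₗ[Kill θ] Infl θ X) : f = 0 := by
  let b := Module.Free.chooseBasis K A₀
  have hzero : ∀ (a : Kill θ) (z : P2 θ e), a.u = 0 → f (a • z) = 0 := by
    intro a z ha
    rw [map_smul, infl_smul, ha, zero_smul]
  refine LinearMap.ext fun y => ?_
  let w : Module.Free.ChooseBasisIndex K A₀ → P2 θ e := fun j =>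
    (⟨0, 0, (y : E2 θ).F (b j), 0, (y : E2 θ).φ (b j)⟩ : Kill θ) •
      (⟨E2.rightMul e ⟨0, b.coord j⟩, rightMul_mem_P2 hi _⟩ : P2 θ e)
  have hy : y = ∑ j, w j := by
    apply Subtype.ext
    rw [Submodule.coe_sum]
    let Fh : E2 θ →+ Module.End K A₀ := AddMonoidHom.mk' E2.F fun _ _ => rfl
    let φh : E2 θ →+ Module.Dual K A₀ := AddMonoidHom.mk' E2.φ fun _ _ => rfl
    refine E2.ext ?_ ?_
    · show (y : E2 θ).F = Fh _
      rw [map_sum, ← y.2.1]
      ext c
      simp only [LinearMap.sum_apply]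
      conv_lhs => rw [LinearMap.comp_apply, ← b.sum_repr (LinearMap.mul K A₀ e c), map_sum]
      refine Finset.sum_congr rfl fun j _ => ?_
      simp [Fh, w]
    · show (y : E2 θ).φ = φh _
      rw [map_sum, ← y.2.2]
      ext c
      simp only [LinearMap.sum_apply]
      conv_lhs => rw [LinearMap.comp_apply, ← b.sum_repr (LinearMap.mul K A₀ e c), map_sum]
      refine Finset.sum_congr rfl fun j _ => ?_
      simp [φh, w, mul_comm]
  rw [hy, map_sum, LinearMap.zero_apply]
  exact Finset.sum_eq_zero fun j _ => hzero _ _ rfl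

end Hom

end Vale.Agent.P195
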