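import Vale.Agent.P195.Hom
import Vale.Agent.P195.Res

/-!
The complex of maps from the resolution of `H n` into the window algebra.
-/

namespace Vale.Agent.P195

variable {K : Type} [Field K]

/-- first component -/
noncomputable def PM2.fst (n : ℕ) (q : Fin 4) : PM2 K n q →ₗ[A0 K] PM K n q :=
  (LinearMap.fst (A0 K) _ _).comp (PM2.equiv n q).toLinearMap

/-- second component -/
noncomputable def PM2.snd (n : ℕ) (q : Fin 4) : PM2 K n q →ₗ[A0 K] PM K n q :=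
  (LinearMap.snd (A0 K) _ _).comp (PM2.equiv n q).toLinearMap

/-- the map of a pair of families -/
noncomputable def toHom2 {n : ℕ} {q : Fin 4} (φ₁ φ₂ : Fin 2 × V → Zc K) (h₁ : IsCo n q φ₁)
    (h₂ : IsCo n q φ₂) : PM2 K n q →ₗ[A0 K] A0 K :=
  toHom φ₁ h₁ ∘ₗ PM2.fst n q + toHom φ₂ h₂ ∘ₗ PM2.snd n q

theorem toHom2_symm {n : ℕ} {q : Fin 4} (φ₁ φ₂ : Fin 2 × V → Zc K) (h₁ : IsCo n q φ₁)
    (h₂ : IsCo n q φ₂) (p : PM K n q × PM K n q) :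
    toHom2 φ₁ φ₂ h₁ h₂ ((PM2.equiv n q).symm p) = toHom φ₁ h₁ p.1 + toHom φ₂ h₂ p.2 := rfl

theorem toHom2_congr {n : ℕ} {q : Fin 4} {φ₁ φ₂ ψ₁ ψ₂ : Fin 2 × V → Zc K} (h₁ : IsCo n q φ₁)
    (h₂ : IsCo n q φ₂) (g₁ : IsCo n q ψ₁) (g₂ : IsCo n q ψ₂) (e₁ : φ₁ = ψ₁) (e₂ : φ₂ = ψ₂) :
    toHom2 φ₁ φ₂ h₁ h₂ = toHom2 ψ₁ ψ₂ g₁ g₂ := by subst e₁; subst e₂; rfl

theorem toHom2_inj {n : ℕ} {q : Fin 4} {φ₁ φ₂ ψ₁ ψ₂ : Fin 2 × V → Zc K} (h₁ : IsCo n q φ₁)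
    (h₂ : IsCo n q φ₂) (g₁ : IsCo n q ψ₁) (g₂ : IsCo n q ψ₂)
    (e : toHom2 φ₁ φ₂ h₁ h₂ = toHom2 ψ₁ ψ₂ g₁ g₂) : φ₁ = ψ₁ ∧ φ₂ = ψ₂ := by
  have e' : ∀ p : PM K n q × PM K n q,
      toHom φ₁ h₁ p.1 + toHom φ₂ h₂ p.2 = toHom ψ₁ g₁ p.1 + toHom ψ₂ g₂ p.2 := fun p => by
    have := LinearMap.congr_fun e ((PM2.equiv (K := K) n q).symm p)
    rwa [toHom2_symm, toHom2_symm] at this
  refine ⟨toHom_inj h₁ g₁ (LinearMap.ext fun x => ?_),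
    toHom_inj h₂ g₂ (LinearMap.ext fun x => ?_)⟩
  · have := e' (x, 0)
    rwa [(toHom φ₂ h₂).map_zero, (toHom ψ₂ g₂).map_zero, add_zero, add_zero] at this
  · have := e' (0, x)
    rwa [(toHom φ₁ h₁).map_zero, (toHom ψ₁ g₁).map_zero, zero_add, zero_add] at this

theorem isCo_zero (n : ℕ) (q : Fin 4) : IsCo (K := K) n q 0 := fun _ => coMem_zero _ _ _ _

theorem toHom_zero (n : ℕ) (q : Fin 4) : toHom (K := K) 0 (isCo_zero n q) = 0 := by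
  refine LinearMap.ext fun z => mat_injective ?_
  rw [mat_toHom, LinearMap.zero_apply, mat_zero]
  ext1 i j
  simp [homMat, pair_zero_right]

theorem exists_toHom2 {n : ℕ} {q : Fin 4} (ψ : PM2 K n q →ₗ[A0 K] A0 K) :
    ∃ φ₁ φ₂, ∃ (h₁ : IsCo n q φ₁) (h₂ : IsCo n q φ₂), toHom2 φ₁ φ₂ h₁ h₂ = ψ := by
  let a := (ψ ∘ₗ (PM2.equiv n q).symm.toLinearMap) ∘ₗ LinearMap.inl (A0 K) _ _
  let b := (ψ ∘ₗ (PM2.equiv n q).symm.toLinearMap) ∘ₗ LinearMap.inr (A0 K) _ _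
  refine ⟨ofHom a, ofHom b, ofHom_isCo a, ofHom_isCo b, LinearMap.ext fun z => ?_⟩
  obtain ⟨p, rfl⟩ := (PM2.equiv (K := K) n q).symm.surjective z
  rw [toHom2_symm, toHom_ofHom, toHom_ofHom]
  show ψ ((PM2.equiv n q).symm (p.1, 0)) + ψ ((PM2.equiv n q).symm (0, p.2)) = _
  rw [← map_add, ← map_add]
  simp

theorem homMat_add {n : ℤ} (φ₁ φ₂ : Fin 2 × V → Zc K) (y z : MV K (Zc K)) (i j : Fin 2 × V) :
    homMat n φ₁ y i j + homMat n φ₂ z i j =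
      if i.1 = 0 then
        (if j.1 = 0 then pair2 n (y (1, i.2), z (1, i.2)) (φ₁ (0, j.2), φ₂ (0, j.2))
          else pair2 n (y (1, i.2), z (1, i.2)) (φ₁ (1, j.2), φ₂ (1, j.2))
            + pair2 n (y (0, i.2), z (0, i.2)) (φ₁ (0, j.2), φ₂ (0, j.2)))
      else (if j.1 = 0 then 0
        else pair2 n (y (1, i.2), z (1, i.2)) (φ₁ (0, j.2), φ₂ (0, j.2))) := by
  simp only [homMat, Matrix.of_apply, pair2]
  split_ifs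
  · rfl
  · exact add_add_add_comm _ _ _ _
  · exact add_zero 0
  · rfl

theorem mat_toHom2 {n : ℕ} {q : Fin 4} (φ₁ φ₂ : Fin 2 × V → Zc K) (h₁ : IsCo n q φ₁)
    (h₂ : IsCo n q φ₂) (z : PM2 K n q) (i j : Fin 2 × V) :
    mat K (toHom2 φ₁ φ₂ h₁ h₂ z) i j =
      if i.1 = 0 then
        (if j.1 = 0 then pair2 n (z.1 (1, i.2)) (φ₁ (0, j.2), φ₂ (0, j.2))
          else pair2 n (z.1 (1, i.2)) (φ₁ (1, j.2), φ₂ (1, j.2))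
            + pair2 n (z.1 (0, i.2)) (φ₁ (0, j.2), φ₂ (0, j.2)))
      else (if j.1 = 0 then 0
        else pair2 n (z.1 (1, i.2)) (φ₁ (0, j.2), φ₂ (0, j.2))) :=
  homMat_add φ₁ φ₂ (fun i => (z.1 i).1) (fun i => (z.1 i).2) i j

variable [CharZero K]

theorem IsCo.c1_fst {n : ℕ} {φ : Fin 2 × V → Zc K} (h : IsCo n 0 φ) :
    IsCo n 1 (fun j => (c1 K (φ j)).1) := fun j => (c1_mem (h j)).1

theorem IsCo.c1_snd {n : ℕ} {φ : Fin 2 × V → Zc K} (h : IsCo n 0 φ) :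
    IsCo n 1 (fun j => (c1 K (φ j)).2) := fun j => (c1_mem (h j)).2

theorem IsCo.c2_fst {n : ℕ} {φ₁ φ₂ : Fin 2 × V → Zc K} (h₁ : IsCo n 1 φ₁) (h₂ : IsCo n 1 φ₂) :
    IsCo n 2 (fun j => (c2 K (φ₁ j, φ₂ j)).1) := fun j => (c2_mem ⟨h₁ j, h₂ j⟩).1

theorem IsCo.c2_snd {n : ℕ} {φ₁ φ₂ : Fin 2 × V → Zc K} (h₁ : IsCo n 1 φ₁) (h₂ : IsCo n 1 φ₂) :
    IsCo n 2 (fun j => (c2 K (φ₁ j, φ₂ j)).2) := fun j => (c2_mem ⟨h₁ j, h₂ j⟩).2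

theorem IsCo.c3 {n : ℕ} {φ₁ φ₂ : Fin 2 × V → Zc K} (h₁ : IsCo n 2 φ₁) (h₂ : IsCo n 2 φ₂) :
    IsCo n 3 (fun j => Vale.Agent.P195.c3 K (φ₁ j, φ₂ j)) := fun j => c3_mem ⟨h₁ j, h₂ j⟩

theorem toHom_comp_d1 {n : ℕ} {φ : Fin 2 × V → Zc K} (h : IsCo n 0 φ) :
    toHom φ h ∘ₗ (res K n).d₁ = toHom2 _ _ h.c1_fst h.c1_snd := by
  refine LinearMap.ext fun z => mat_injective ?_
  ext1 ⟨a, r⟩ ⟨a', c⟩
  rw [mat_toHom2]
  show homMat n φ (fun i => d1 K (z.1 i)) (a, r) (a', c) = _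
  fin_cases a <;> fin_cases a' <;>
    simp [homMat, pair_d1 (z.2 r).1.1.suppN (z.2 r).1.2.suppN,
      pair_d1 (z.2 r).2.1.suppN (z.2 r).2.2.suppN]

theorem toHom2_comp_d2 {n : ℕ} {φ₁ φ₂ : Fin 2 × V → Zc K} (h₁ : IsCo n 1 φ₁) (h₂ : IsCo n 1 φ₂) :
    toHom2 φ₁ φ₂ h₁ h₂ ∘ₗ (res K n).d₂ = toHom2 _ _ (h₁.c2_fst h₂) (h₁.c2_snd h₂) := by
  refine LinearMap.ext fun z => mat_injective ?_
  ext1 i j
  rw [LinearMap.comp_apply, mat_toHom2, mat_toHom2]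
  have e : ∀ k, ((res K n).d₂ z).1 k = d2 K (z.1 k) := fun _ => rfl
  simp only [e, Prod.mk.eta, pair_d2 (z.2 i.2).1.1.suppN (z.2 i.2).1.2.suppN,
    pair_d2 (z.2 i.2).2.1.suppN (z.2 i.2).2.2.suppN]

theorem toHom2_comp_d3 {n : ℕ} {φ₁ φ₂ : Fin 2 × V → Zc K} (h₁ : IsCo n 2 φ₁) (h₂ : IsCo n 2 φ₂) :
    toHom2 φ₁ φ₂ h₁ h₂ ∘ₗ (res K n).d₃ = toHom _ (h₁.c3 h₂) := by
  refine LinearMap.ext fun z => mat_injective ?_
  ext1 i j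
  rw [LinearMap.comp_apply, mat_toHom2, mat_toHom]
  have e : ∀ k, ((res K n).d₃ z).1 k = d3 K (z.1 k) := fun _ => rfl
  simp only [e, homMat, Matrix.of_apply, pair_d3 (z.2 i.2).1.suppN, pair_d3 (z.2 i.2).2.suppN]

theorem toHom2_zero (n : ℕ) (q : Fin 4) :
    toHom2 (K := K) 0 0 (isCo_zero n q) (isCo_zero n q) = 0 := by
  rw [toHom2, toHom_zero, LinearMap.zero_comp, LinearMap.zero_comp, add_zero]

theorem homA_q0 {n : ℕ} (ψ : PM K n 0 →ₗ[A0 K] A0 K) (e : ψ ∘ₗ (res K n).d₁ = 0) : ψ = 0 := by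
  rw [← toHom_ofHom ψ] at e ⊢
  rw [toHom_comp_d1, ← toHom2_zero] at e
  obtain ⟨e1, e2⟩ := toHom2_inj _ _ _ _ e
  rw [← toHom_zero]
  exact toHom_congr _ _ (funext fun j =>
    coexact_q0 (cv_cases j) (ofHom_isCo ψ j) (Prod.ext (congrFun e1 j) (congrFun e2 j)))

theorem homA_q1 {n : ℕ} (ψ : PM2 K n 1 →ₗ[A0 K] A0 K) (e : ψ ∘ₗ (res K n).d₂ = 0) :
    ∃ g, g ∘ₗ (res K n).d₁ = ψ := by
  obtain ⟨φ₁, φ₂, h₁, h₂, rfl⟩ := exists_toHom2 ψ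
  rw [toHom2_comp_d2, ← toHom2_zero] at e
  obtain ⟨e1, e2⟩ := toHom2_inj _ _ _ _ e
  choose u hu hu' using fun j => coexact_q1 (cv_cases j) (cD_le j) (z := (φ₁ j, φ₂ j))
    ⟨h₁ j, h₂ j⟩ (Prod.ext (congrFun e1 j) (congrFun e2 j))
  refine ⟨toHom u hu, (toHom_comp_d1 (h := hu)).trans ?_⟩
  exact toHom2_congr _ _ _ _ (funext fun j => by rw [hu']) (funext fun j => by rw [hu'])

theorem homA_q2 {n : ℕ} (hn : 1 ≤ n) (ψ : PM2 K n 2 →ₗ[A0 K] A0 K)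
    (e : ψ ∘ₗ (res K n).d₃ = 0) : ∃ g, g ∘ₗ (res K n).d₂ = ψ := by
  obtain ⟨φ₁, φ₂, h₁, h₂, rfl⟩ := exists_toHom2 ψ
  rw [toHom2_comp_d3, ← toHom_zero] at e
  have e1 := toHom_inj _ _ e
  choose u hu hu' using fun j => coexact_q2 (cv_cases j) (cD_le j) (fun _ => by omega)
    (z := (φ₁ j, φ₂ j)) ⟨h₁ j, h₂ j⟩ (congrFun e1 j)
  refine ⟨toHom2 (fun j => (u j).1) (fun j => (u j).2) (fun j => (hu j).1) (fun j => (hu j).2),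
    (toHom2_comp_d2 (fun j => (hu j).1) (fun j => (hu j).2)).trans ?_⟩
  exact toHom2_congr _ _ _ _ (funext fun j => by simp [hu']) (funext fun j => by simp [hu'])

/-- the class in degree two at the first step -/
theorem homA_q2_exception : ∃ ψ : PM2 K 0 2 →ₗ[A0 K] A0 K,
    ψ ∘ₗ (res K 0).d₃ = 0 ∧ ∀ g, g ∘ₗ (res K 0).d₂ ≠ ψ := by
  obtain ⟨z, hz, hz3, hne⟩ := coexact_q2_exception (K := K)
  let j₀ : Fin 2 × V := (1, (0, 1))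
  have hv : cv j₀ = 2 := by simp [cv, j₀, off]
  have hD : cD j₀ = 2 := by simp [cD, j₀, lev]
  let φ : Fin 2 × V → Zc K × Zc K := fun j => if j = j₀ then z else 0
  have hφ : ∀ j, CoMem2 K (cv j) ((0 : ℕ) : ℤ) (cD j) 2 (φ j) := fun j => by
    by_cases h : j = j₀
    · subst h; simpa [φ, hv, hD] using hz
    · simp only [φ, if_neg h]; exact ⟨coMem_zero _ _ _ _, coMem_zero _ _ _ _⟩
  refine ⟨toHom2 (fun j => (φ j).1) (fun j => (φ j).2) (fun j => (hφ j).1) (fun j => (hφ j).2),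
    ?_, fun g hg => ?_⟩
  · refine (toHom2_comp_d3 (fun j => (hφ j).1) (fun j => (hφ j).2)).trans ?_
    rw [← toHom_zero]
    exact toHom_congr _ _ (funext fun j => by
      by_cases h : j = j₀
      · simp [φ, h, hz3]
      · simp [φ, h, Prod.mk_zero_zero])
  · obtain ⟨u₁, u₂, g₁, g₂, rfl⟩ := exists_toHom2 g
    rw [toHom2_comp_d2] at hg
    obtain ⟨e1, e2⟩ := toHom2_inj _ _ _ _ hg
    refine hne (u₁ j₀, u₂ j₀) ?_ ?_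
    · have := And.intro (g₁ j₀) (g₂ j₀)
      rw [hv, hD] at this
      exact this
    · have a := congrFun e1 j₀
      have b := congrFun e2 j₀
      simp only [φ, if_pos] at a b
      exact Prod.ext a b

end Vale.Agent.P195
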