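import Vale.Agent.P195.Twist

/-!
The cochain complexes: relations, membership, and right multiplication.
-/

namespace Vale.Agent.P195

variable {K : Type} [Field K]

/-! Entries of the transposes. -/

theorem leT_zero' (z : Zc K) (vp : Fin 2) (m : ℤ × ℤ) :
    leT K z vp 0 m = if 0 ≤ m.1 ∧ 0 ≤ m.2 then (-m.2) • z vp 1 (m.1, m.2 - 1) else 0 := rfl

theorem leT_one' (z : Zc K) (vp : Fin 2) (m : ℤ × ℤ) :
    leT K z vp 1 m = if 0 ≤ m.1 ∧ 0 ≤ m.2 then z vp 0 (m.1 + 1, m.2) else 0 := rfl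

theorem lfT_zero' (z : Zc K) (vp : Fin 2) (m : ℤ × ℤ) :
    lfT K z vp 0 m = if 0 ≤ m.1 ∧ 0 ≤ m.2 then m.1 • z vp 1 (m.1 - 1, m.2) else 0 := rfl

theorem lfT_one' (z : Zc K) (vp : Fin 2) (m : ℤ × ℤ) :
    lfT K z vp 1 m = if 0 ≤ m.1 ∧ 0 ≤ m.2 then z vp 0 (m.1, m.2 + 1) else 0 := rfl

/-! Relations. -/

theorem leT_reL (z : Zc K) : leT K (reL K z) = reL K (leT K z) := by
  funext vp b m
  rcases two_cases vp with rfl | rfl <;> rcases two_cases b with rfl | rfl <;>
    simp only [reL_zero, reL_one, leT_zero', leT_one'] <;> split_ifs <;>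
    simp [mul_smul_comm, am_mul_neg, -zsmul_eq_mul]

theorem leT_rfL (z : Zc K) : leT K (rfL K z) = rfL K (leT K z) := by
  funext vp b m
  rcases two_cases vp with rfl | rfl <;> rcases two_cases b with rfl | rfl <;>
    simp only [rfL_zero, rfL_one, leT_zero', leT_one'] <;> split_ifs <;>
    simp [mul_smul_comm, am_mul_neg, -zsmul_eq_mul]

theorem lfT_reL (z : Zc K) : lfT K (reL K z) = reL K (lfT K z) := by
  funext vp b m
  rcases two_cases vp with rfl | rfl <;> rcases two_cases b with rfl | rfl <;>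
    simp only [reL_zero, reL_one, lfT_zero', lfT_one'] <;> split_ifs <;>
    simp [mul_smul_comm, -zsmul_eq_mul]

theorem lfT_rfL (z : Zc K) : lfT K (rfL K z) = rfL K (lfT K z) := by
  funext vp b m
  rcases two_cases vp with rfl | rfl <;> rcases two_cases b with rfl | rfl <;>
    simp only [rfL_zero, rfL_one, lfT_zero', lfT_one'] <;> split_ifs <;>
    simp [mul_smul_comm, -zsmul_eq_mul]

theorem rfL_reL_reL (z : Zc K) :
    rfL K (reL K (reL K z)) = reL K (reL K (rfL K z)) + reL K z := by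
  funext vp b m
  rcases two_cases vp with rfl | rfl
  · simp only [Pi.add_apply, reL_zero, reL_one, rfL_zero, am_mul_neg, ← mul_assoc]
    rw [mul_assoc (gy K) (gdy K), mul_assoc (gx K) (gdy K) (gy K), gdy_gy, gdy_gx, mul_add,
      mul_one, ← mul_assoc, ← mul_assoc, gx_gy, add_mul]
    abel
  · simp only [Pi.add_apply, reL_zero, reL_one, rfL_one, am_mul_neg, ← mul_assoc]
    rw [gdx_gx, add_mul, one_mul, gdy_gx, mul_assoc (gx K) (gdx K), gdx_gdy, ← mul_assoc, add_mul]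
    abel

theorem rfL_rfL_reL (z : Zc K) :
    rfL K (rfL K (reL K z)) = reL K (rfL K (rfL K z)) + rfL K z := by
  funext vp b m
  rcases two_cases vp with rfl | rfl
  · simp only [Pi.add_apply, reL_zero, rfL_zero, rfL_one, ← mul_assoc]
    rw [mul_assoc (gy K) (gdx K), mul_assoc (gx K) (gdx K) (gy K), gdx_gx, gdx_gy, mul_add,
      mul_one, ← mul_assoc, ← mul_assoc, gx_gy, add_mul]
  · simp only [Pi.add_apply, reL_one, rfL_zero, rfL_one, am_mul_neg, ← mul_assoc]
    rw [gdx_gy, gdy_gy, add_mul, one_mul, mul_assoc (gy K) (gdx K), gdx_gdy, ← mul_assoc, add_mul]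
    abel

theorem leT_leT_lfT (z : Zc K) :
    leT K (leT K (lfT K z)) = lfT K (leT K (leT K z)) + leT K z := by
  funext vp b ⟨i, j⟩
  rcases two_cases b with rfl | rfl <;>
    simp only [Pi.add_apply, leT_zero', leT_one', lfT_zero', lfT_one', sub_add_cancel,
      add_sub_cancel_right] <;>
    rcases eq_or_ne i 0 with rfl | hi <;> rcases eq_or_ne j 0 with rfl | hj <;>
    split_ifs <;>
    first
      | omega
      | (simp [zero_zsmul, zsmul_zero, -zsmul_eq_mul]; done)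
      | (simp only [← Int.cast_smul_eq_zsmul K, smul_smul]
         match_scalars; ring)

theorem leT_lfT_lfT (z : Zc K) :
    leT K (lfT K (lfT K z)) = lfT K (lfT K (leT K z)) + lfT K z := by
  funext vp b ⟨i, j⟩
  rcases two_cases b with rfl | rfl <;>
    simp only [Pi.add_apply, leT_zero', leT_one', lfT_zero', lfT_one', sub_add_cancel,
      add_sub_cancel_right] <;>
    rcases eq_or_ne i 0 with rfl | hi <;> rcases eq_or_ne j 0 with rfl | hj <;>
    split_ifs <;>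
    first
      | omega
      | (simp [zero_zsmul, zsmul_zero, -zsmul_eq_mul]; done)
      | (simp only [← Int.cast_smul_eq_zsmul K, smul_smul]
         match_scalars; ring)

theorem c2_c1 (z : Zc K) : c2 K (c1 K z) = 0 := by
  simp only [c1, c2, AddMonoidHom.prod_apply, AddMonoidHom.coprod_apply, AddMonoidHom.add_apply,
    AddMonoidHom.sub_apply, AddMonoidHom.comp_apply, AddMonoidHom.id_apply, map_sub, leT_reL,
    leT_rfL, lfT_reL, lfT_rfL, rfL_reL_reL, rfL_rfL_reL, leT_leT_lfT, leT_lfT_lfT]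
  refine Prod.ext ?_ ?_ <;>
    simp only [Prod.fst_zero, Prod.snd_zero] <;> abel

theorem c3_c2 (u : Zc K × Zc K) : c3 K (c2 K u) = 0 := by
  simp only [c2, c3, AddMonoidHom.prod_apply, AddMonoidHom.coprod_apply, AddMonoidHom.add_apply,
    AddMonoidHom.sub_apply, AddMonoidHom.neg_apply, AddMonoidHom.comp_apply, AddMonoidHom.id_apply,
    map_sub, map_add, leT_reL, leT_rfL, lfT_reL, lfT_rfL, rfL_reL_reL, rfL_rfL_reL, leT_leT_lfT,
    leT_lfT_lfT]
  abel

/-! Membership. -/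

variable {σ : Fin 2} {v w n e e' : ℤ} {z z' : Zc K} {u u' : Zc K × Zc K}

/-- right multiplication -/
noncomputable def rmul (a : Am K) : Zc K →+ Zc K where
  toFun z vp b m := z vp b m * a
  map_zero' := by funext vp b m; simp
  map_add' z z' := by funext vp b m; simp [add_mul]

theorem rmul_apply (a : Am K) (z : Zc K) (vp b : Fin 2) (m : ℤ × ℤ) :
    rmul a z vp b m = z vp b m * a := rfl

theorem rmul_rmul (a a' : Am K) (z : Zc K) : rmul a' (rmul a z) = rmul (a * a') z := by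
  funext vp b m; simp [rmul_apply, mul_assoc]

theorem reL_rmul (a : Am K) (z : Zc K) : reL K (rmul a z) = rmul a (reL K z) := by
  funext vp b m
  rcases two_cases vp with rfl | rfl <;>
    simp [reL_zero, reL_one, rmul_apply, mul_assoc, am_neg_mul]

theorem rfL_rmul (a : Am K) (z : Zc K) : rfL K (rmul a z) = rmul a (rfL K z) := by
  funext vp b m
  rcases two_cases vp with rfl | rfl <;> simp [rfL_zero, rfL_one, rmul_apply, mul_assoc]

theorem leT_rmul (a : Am K) (z : Zc K) : leT K (rmul a z) = rmul a (leT K z) := by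
  funext vp b m
  rcases two_cases b with rfl | rfl <;> simp only [leT_zero', leT_one', rmul_apply] <;>
    split_ifs <;> simp [smul_mul_assoc, am_neg_mul, -zsmul_eq_mul]

theorem lfT_rmul (a : Am K) (z : Zc K) : lfT K (rmul a z) = rmul a (lfT K z) := by
  funext vp b m
  rcases two_cases b with rfl | rfl <;> simp only [lfT_zero', lfT_one', rmul_apply] <;>
    split_ifs <;> simp [smul_mul_assoc, -zsmul_eq_mul]

/-- right multiplication of pairs -/
noncomputable def rmul2 (a : Am K) : Zc K × Zc K →+ Zc K × Zc K :=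
  AddMonoidHom.prodMap (rmul a) (rmul a)

theorem rmul2_apply (a : Am K) (u : Zc K × Zc K) : rmul2 a u = (rmul a u.1, rmul a u.2) := rfl

theorem c2_rmul (a : Am K) (u : Zc K × Zc K) : c2 K (rmul2 a u) = rmul2 a (c2 K u) := by
  simp only [c2, rmul2_apply, AddMonoidHom.prod_apply, AddMonoidHom.coprod_apply,
    AddMonoidHom.add_apply, AddMonoidHom.sub_apply, AddMonoidHom.comp_apply, AddMonoidHom.id_apply,
    reL_rmul, rfL_rmul, leT_rmul, lfT_rmul, map_add, map_sub]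

theorem c3_rmul (a : Am K) (u : Zc K × Zc K) : c3 K (rmul2 a u) = rmul a (c3 K u) := by
  simp only [c3, rmul2_apply, AddMonoidHom.coprod_apply, AddMonoidHom.add_apply,
    AddMonoidHom.neg_apply, reL_rmul, rfL_rmul, leT_rmul, lfT_rmul, map_add, map_neg]

theorem ColP.zero : ColP σ v n e (0 : Zc K) := fun _ _ _ h => absurd rfl h

theorem ColP.inW (h : ColP σ v n e z) (vp b : Fin 2) (m : ℤ × ℤ) :
    InW K (ob vp + v) e (z vp b m) := by
  by_cases h0 : z vp b m = 0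
  · rw [h0]; exact inW_zero _ _
  · exact (h vp b m h0).2.2

theorem ColP.add (h : ColP σ v n e z) (h' : ColP σ v n e z') : ColP σ v n e (z + z') := by
  intro vp b m h0
  by_cases hz : z vp b m = 0
  · have e0 : (z + z') vp b m = z' vp b m := by
      simp only [Pi.add_apply, hz]; exact zero_add _
    rw [e0] at h0 ⊢; exact h' vp b m h0
  · exact ⟨(h vp b m hz).1, (h vp b m hz).2.1, inW_add (h.inW vp b m) (h'.inW vp b m)⟩

theorem ColP.sub (h : ColP σ v n e z) (h' : ColP σ v n e z') : ColP σ v n e (z - z') := by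
  rw [sub_eq_add_neg]; exact h.add h'.neg

theorem ColP.mono (h : ColP σ v n e z) (he : e ≤ e') : ColP σ v n e' z := fun vp b m h0 =>
  ⟨(h vp b m h0).1, (h vp b m h0).2.1, inW_mono (h.inW vp b m) he⟩

theorem ColP.rmul_gx (h : ColP σ v n e z) : ColP σ (v + 1) n (e + 1) (rmul (gx K) z) := by
  intro vp b m h0
  obtain ⟨h1, h2, h3⟩ := h vp b m (left_ne_zero_of_mul h0)
  exact ⟨h1, h2, by rw [← add_assoc]; exact inW_mul_gx h3⟩

theorem ColP.rmul_gy (h : ColP σ v n e z) : ColP σ (v + 1) n (e + 1) (rmul (gy K) z) := by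
  intro vp b m h0
  obtain ⟨h1, h2, h3⟩ := h vp b m (left_ne_zero_of_mul h0)
  exact ⟨h1, h2, by rw [← add_assoc]; exact inW_mul_gy h3⟩

theorem ColP2.zero : ColP2 σ v n e (0 : Zc K × Zc K) := ⟨ColP.zero, ColP.zero⟩
theorem ColP2.add (h : ColP2 σ v n e u) (h' : ColP2 σ v n e u') : ColP2 σ v n e (u + u') :=
  ⟨h.1.add h'.1, h.2.add h'.2⟩
theorem ColP2.sub (h : ColP2 σ v n e u) (h' : ColP2 σ v n e u') : ColP2 σ v n e (u - u') :=
  ⟨h.1.sub h'.1, h.2.sub h'.2⟩
theorem ColP2.mono (h : ColP2 σ v n e u) (he : e ≤ e') : ColP2 σ v n e' u :=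
  ⟨h.1.mono he, h.2.mono he⟩
theorem ColP2.rmul_gx (h : ColP2 σ v n e u) : ColP2 σ (v + 1) n (e + 1) (rmul2 (gx K) u) :=
  ⟨h.1.rmul_gx, h.2.rmul_gx⟩
theorem ColP2.rmul_gy (h : ColP2 σ v n e u) : ColP2 σ (v + 1) n (e + 1) (rmul2 (gy K) u) :=
  ⟨h.1.rmul_gy, h.2.rmul_gy⟩

theorem ColP.reL (h : ColP σ v n e z) : ColP (σ + 1) v n (e + 1) (P195.reL K z) := by
  intro vp b m h0
  rcases two_cases vp with rfl | rfl
  · rw [reL_zero] at h0 ⊢
    obtain ⟨h1, h2, h3⟩ := h 1 b m (right_ne_zero_of_mul h0)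
    refine ⟨by rw [← add_assoc, ← h1]; decide, h2, ?_⟩
    have := inW_gx_mul h3
    simp [ob] at this ⊢
    exact this
  · rw [reL_one] at h0 ⊢
    obtain ⟨h1, h2, h3⟩ := h 0 b m fun hz => h0 (by rw [hz, mul_zero, neg_zero])
    refine ⟨by rw [← add_assoc, ← h1]; decide, h2, inW_neg ?_⟩
    have := inW_gdy_mul h3
    rwa [show ob 1 + v = ob 0 + v - 1 by simp [ob]; ring]

theorem ColP.rfL (h : ColP σ v n e z) : ColP (σ + 1) v n (e + 1) (P195.rfL K z) := by
  intro vp b m h0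
  rcases two_cases vp with rfl | rfl
  · rw [rfL_zero] at h0 ⊢
    obtain ⟨h1, h2, h3⟩ := h 1 b m (right_ne_zero_of_mul h0)
    refine ⟨by rw [← add_assoc, ← h1]; decide, h2, ?_⟩
    have := inW_gy_mul h3
    simp [ob] at this ⊢
    exact this
  · rw [rfL_one] at h0 ⊢
    obtain ⟨h1, h2, h3⟩ := h 0 b m (right_ne_zero_of_mul h0)
    refine ⟨by rw [← add_assoc, ← h1]; decide, h2, ?_⟩
    have := inW_gdx_mul h3
    rwa [show ob 1 + v = ob 0 + v - 1 by simp [ob]; ring]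

theorem ColP.leT (h : ColP σ v n e z) : ColP (σ + 1) v n e (P195.leT K z) := by
  intro vp b m h0
  rcases two_cases b with rfl | rfl
  · rw [leT_zero'] at h0 ⊢
    by_cases hm : 0 ≤ m.1 ∧ 0 ≤ m.2
    · rw [if_pos hm] at h0 ⊢
      obtain ⟨h1, ⟨-, -, h4⟩, h5⟩ := h vp 1 _ (fun hz => h0 (by rw [hz]; exact zsmul_zero _))
      refine ⟨by rw [h1, add_comm σ 1, ← add_assoc]; rfl, ⟨hm.1, hm.2, ?_⟩, inW_zsmul _ h5⟩
      simp [ob] at h4 ⊢; omega
    · exact absurd (if_neg hm) h0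
  · rw [leT_one'] at h0 ⊢
    by_cases hm : 0 ≤ m.1 ∧ 0 ≤ m.2
    · rw [if_pos hm] at h0 ⊢
      obtain ⟨h1, ⟨-, -, h4⟩, h5⟩ := h vp 0 _ h0
      refine ⟨by rw [h1, add_comm σ 1, ← add_assoc]; rfl, ⟨hm.1, hm.2, ?_⟩, h5⟩
      simp [ob] at h4 ⊢; omega
    · exact absurd (if_neg hm) h0

theorem ColP.lfT (h : ColP σ v n e z) : ColP (σ + 1) v n e (P195.lfT K z) := by
  intro vp b m h0
  rcases two_cases b with rfl | rfl
  · rw [lfT_zero'] at h0 ⊢
    by_cases hm : 0 ≤ m.1 ∧ 0 ≤ m.2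
    · rw [if_pos hm] at h0 ⊢
      obtain ⟨h1, ⟨-, -, h4⟩, h5⟩ := h vp 1 _ (fun hz => h0 (by rw [hz]; exact zsmul_zero _))
      refine ⟨by rw [h1, add_comm σ 1, ← add_assoc]; rfl, ⟨hm.1, hm.2, ?_⟩, inW_zsmul _ h5⟩
      simp [ob] at h4 ⊢; omega
    · exact absurd (if_neg hm) h0
  · rw [lfT_one'] at h0 ⊢
    by_cases hm : 0 ≤ m.1 ∧ 0 ≤ m.2
    · rw [if_pos hm] at h0 ⊢
      obtain ⟨h1, ⟨-, -, h4⟩, h5⟩ := h vp 0 _ h0
      refine ⟨by rw [h1, add_comm σ 1, ← add_assoc]; rfl, ⟨hm.1, hm.2, ?_⟩, h5⟩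
      simp [ob] at h4 ⊢; omega
    · exact absurd (if_neg hm) h0

theorem ColP.c1 (h : ColP σ v n e z) : ColP2 (σ + 1) v n (e + 1) (P195.c1 K z) :=
  ⟨h.reL.sub (h.leT.mono (by omega)), h.rfL.sub (h.lfT.mono (by omega))⟩

theorem ColP2.c2 (h : ColP2 σ v n e u) : ColP2 σ v n (e + 2) (P195.c2 K u) := by
  have a1 := h.1.leT.lfT.mono (show e ≤ e + 2 by omega)
  have a2 := h.1.reL.lfT.mono (show e + 1 ≤ e + 2 by omega)
  have a3 := h.1.leT.rfL.mono (show e + 1 ≤ e + 2 by omega)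
  have a4 := h.1.reL.rfL
  have a5 := h.2.reL.reL
  have a6 := h.2.leT.leT.mono (show e ≤ e + 2 by omega)
  have b1 := h.1.lfT.lfT.mono (show e ≤ e + 2 by omega)
  have b2 := h.1.rfL.rfL
  have b3 := h.2.lfT.reL.mono (show e + 1 ≤ e + 2 by omega)
  have b4 := h.2.rfL.reL
  have b5 := h.2.lfT.leT.mono (show e ≤ e + 2 by omega)
  have b6 := h.2.leT.rfL.mono (show e + 1 ≤ e + 2 by omega)
  simp only [fin2_add_two, add_assoc e 1 1, show (1 : ℤ) + 1 = 2 from rfl] at a1 a2 a3 a4 a5 a6 b1 b2 b3 b4 b5 b6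
  simp only [P195.c2, AddMonoidHom.prod_apply, AddMonoidHom.coprod_apply, AddMonoidHom.add_apply,
    AddMonoidHom.sub_apply, AddMonoidHom.comp_apply, AddMonoidHom.id_apply]
  exact ⟨((((a1.add a2).sub a3).sub a4).add (h.1.mono (by omega))).add (a5.sub a6),
    (b1.sub b2).add ((((b3.add b4).sub b5).sub b6).add (h.2.mono (by omega)))⟩

theorem ColP2.c3 (h : ColP2 σ v n e u) : ColP (σ + 1) v n (e + 1) (P195.c3 K u) :=
  (h.1.rfL.add (h.1.lfT.mono (by omega))).add (h.2.reL.add (h.2.leT.mono (by omega))).neg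

end Vale.Agent.P195
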