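import Vale.Agent.P195.Data

/-!
Identities of a normalised cocycle at idempotents, and the two correction cochains of the twisted
resolution.
-/

namespace Vale.Agent.P195

set_option linter.unusedSectionVars false

variable {K : Type} [Field K] {A₀ : Type} [Ring A₀] [Algebra K A₀]

namespace Cocycle

variable (θ : Cocycle K A₀) {e : A₀}

/-- the idempotents at which the cocycle vanishes -/
structure IsNormal (θ : Cocycle K A₀) (e : A₀) : Prop where
  idem : e * e = e
  left : ∀ b c, θ.θ e b c = 0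
  mid : ∀ a c, θ.θ a e c = 0
  right : ∀ a b, θ.θ a b e = 0

theorem mul_left (h : IsNormal θ e) (a b c : A₀) : θ.θ (e * a) b c = e * θ.θ a b c := by
  have := θ.closed e a b c
  simp only [h.left, zero_mul, add_zero, sub_zero] at this
  exact (sub_eq_zero.1 this).symm

theorem mul_right (h : IsNormal θ e) (a b c : A₀) : θ.θ a b (c * e) = θ.θ a b c * e := by
  have := θ.closed a b c e
  simp only [h.right, mul_zero, zero_sub, neg_zero, zero_add] at this
  exact neg_add_eq_zero.1 this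

theorem mid_right (h : IsNormal θ e) (a b c : A₀) : θ.θ a (b * e) c = θ.θ a b (e * c) := by
  have := θ.closed a b e c
  simp only [h.mid, h.right, mul_zero, zero_mul, zero_sub, neg_zero, zero_add, add_zero] at this
  exact sub_eq_zero.1 this

theorem left_mid (h : IsNormal θ e) (a b c : A₀) : θ.θ (a * e) b c = θ.θ a (e * b) c := by
  have := θ.closed a e b c
  simp only [h.left, h.mid, mul_zero, zero_mul, zero_sub, sub_zero, add_zero] at this
  exact neg_add_eq_zero.1 this

/-- a chain `a : e₀ → e`, `b : e → e'` only sees the `e'`-part of its last argument -/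
theorem comp_left (h : IsNormal θ e) {a b : A₀} (hb : b * e = b) (c : A₀) :
    θ.θ a b (e * c) = θ.θ a b c := by
  rw [← mid_right θ h, hb]

end Cocycle

variable {X X₁ H : Type} [AddCommGroup X] [Module A₀ X] [Module K X] [IsScalarTower K A₀ X]
  [AddCommGroup X₁] [Module A₀ X₁] [Module K X₁] [IsScalarTower K A₀ X₁]
  [AddCommGroup H] [Module A₀ H] [Module K H] [IsScalarTower K A₀ H]

namespace Base

variable (B : Base K A₀ X X₁ H)

theorem normal (p : Fin 4) : Cocycle.IsNormal B.θ (B.ε p) :=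
  ⟨B.idem p, B.norm_left p, B.norm_mid p, B.norm_right p⟩

theorem d1_right (j : Fin 2) : B.d1 j * B.ε 0 = B.d1 j := by
  rw [← B.d1_eq j, mul_assoc, B.idem]

theorem d1_left (j : Fin 2) : B.ε 1 * B.d1 j = B.d1 j := by
  rw [← B.d1_eq j, ← mul_assoc, ← mul_assoc, B.idem]

theorem d2_right (i j : Fin 2) : B.d2 i j * B.ε 1 = B.d2 i j := by
  rw [← B.d2_eq i j, mul_assoc, B.idem]

theorem d2_left (i j : Fin 2) : B.ε 2 * B.d2 i j = B.d2 i j := by
  rw [← B.d2_eq i j, ← mul_assoc, ← mul_assoc, B.idem]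

theorem d3_right (i : Fin 2) : B.d3 i * B.ε 2 = B.d3 i := by
  rw [← B.d3_eq i, mul_assoc, B.idem]

theorem d3_left (i : Fin 2) : B.ε 3 * B.d3 i = B.d3 i := by
  rw [← B.d3_eq i, ← mul_assoc, ← mul_assoc, B.idem]

/-- the correction from the third to the first column -/
noncomputable def h32 (j : Fin 2) : Module.End K A₀ := ∑ i, B.θ.θ (B.d3 i) (B.d2 i j)

/-- the correction from the second to the zeroth column -/
noncomputable def h21 (i : Fin 2) : Module.End K A₀ := ∑ j, B.θ.θ (B.d2 i j) (B.d1 j)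

/-- the class in degree three -/
noncomputable def Θ : A₀ := ∑ i, ∑ j, B.θ.θ (B.d3 i) (B.d2 i j) (B.d1 j)

theorem h32_eq (j : Fin 2) (c : A₀) : B.h32 j (B.ε 1 * c) = B.h32 j c := by
  simp [h32, Cocycle.comp_left _ (B.normal 1) (B.d2_right _ j)]

theorem h21_eq (i : Fin 2) (c : A₀) : B.h21 i (B.ε 0 * c) = B.h21 i c := by
  simp [h21, Cocycle.comp_left _ (B.normal 0) (B.d1_right _)]

theorem Θ_left : B.ε 3 * B.Θ = B.Θ := by
  simp only [Θ, Finset.mul_sum, ← Cocycle.mul_left _ (B.normal 3), B.d3_left]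

theorem Θ_right : B.Θ * B.ε 0 = B.Θ := by
  simp only [Θ, Finset.sum_mul, ← Cocycle.mul_right _ (B.normal 0), B.d1_right]

/-- the two composites of horizontal maps and corrections differ by `Θ` -/
theorem homotopy (c : A₀) :
    ∑ j, B.h32 j (B.d1 j * c) - ∑ i, B.d3 i * B.h21 i c = B.Θ * c := by
  have h : ∀ i j : Fin 2, B.θ.θ (B.d3 i) (B.d2 i j) (B.d1 j * c)
      - B.d3 i * B.θ.θ (B.d2 i j) (B.d1 j) c
      = B.θ.θ (B.d3 i) (B.d2 i j) (B.d1 j) * c - B.θ.θ (B.d3 i * B.d2 i j) (B.d1 j) c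
        + B.θ.θ (B.d3 i) (B.d2 i j * B.d1 j) c := by
    intro i j
    rw [eq_comm, ← sub_eq_zero, ← B.θ.closed (B.d3 i) (B.d2 i j) (B.d1 j) c]
    abel
  have h1 : ∑ i, ∑ j, B.θ.θ (B.d3 i * B.d2 i j) (B.d1 j) c = 0 := by
    rw [Finset.sum_comm]
    refine Finset.sum_eq_zero fun j _ => ?_
    simpa [LinearMap.sum_apply] using congrArg (fun a => B.θ.θ a (B.d1 j) c) (B.d32 j)
  have h2 : ∑ i, ∑ j, B.θ.θ (B.d3 i) (B.d2 i j * B.d1 j) c = 0 :=
    Finset.sum_eq_zero fun i _ => by
      simpa [map_sum, LinearMap.sum_apply] using congrArg (fun a => B.θ.θ (B.d3 i) a c) (B.d21 i)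
  have h3 := Finset.sum_congr (Eq.refl (Finset.univ : Finset (Fin 2)))
    fun i _ => Finset.sum_congr (Eq.refl (Finset.univ : Finset (Fin 2))) fun j _ => h i j
  simp only [Finset.sum_sub_distrib, Finset.sum_add_distrib, h1, h2, sub_zero, add_zero,
    ← Finset.sum_mul] at h3
  rw [show B.Θ * c = _ from h3.symm]
  simp only [h32, h21, LinearMap.sum_apply, Finset.mul_sum]
  rw [Finset.sum_comm]

theorem smul_X_comm (a : A₀) (r : K) (x : X) : a • r • x = r • a • x := by
  rw [← IsScalarTower.algebraMap_smul A₀ r x, ← IsScalarTower.algebraMap_smul A₀ r (a • x),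
    smul_smul, smul_smul, Algebra.commutes]

theorem Θ_smul_ne : B.Θ • B.x₀ ≠ 0 := B.theta_ne

theorem X_span3' (x : X) : ∃ c : K, c • (B.Θ • B.x₀) = B.ε 3 • x := B.X_span3 x

end Base

end Vale.Agent.P195
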