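import Vale.Agent.P195.RowExact

/-!
Exactness of the columns.
-/

namespace Vale.Agent.P195

variable {K : Type} [Field K] {σ : Fin 2} {v n e : ℤ}

/-- a weight two element is a combination of right multiples of `x` and `y` -/
theorem ColP.split (hv : v = 2) {z : Zc K} (h : ColP σ v n e z) :
    ∃ A B, ColP σ 1 n (e - 1) A ∧ ColP σ 1 n (e - 1) B ∧
      rmul (gx K) A + rmul (gy K) B = z := by
  subst hv
  have key : ∀ vp b m, ∃ a a', (z vp b m = 0 → a = 0 ∧ a' = 0) ∧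
      InW K (ob vp + 1) (e - 1) a ∧ InW K (ob vp + 1) (e - 1) a' ∧
      a * gx K + a' * gy K = z vp b m := by
    intro vp b m
    by_cases h0 : z vp b m = 0
    · exact ⟨0, 0, fun _ => ⟨rfl, rfl⟩, inW_zero _ _, inW_zero _ _, by simp [h0]⟩
    · obtain ⟨a, a', ha, ha', he⟩ := img_xy_one
        (by rcases two_cases vp with rfl | rfl <;> simp [ob]) (h.inW vp b m)
      refine ⟨a, a', fun hz => absurd hz h0, ?_, ?_, he⟩
      · rwa [show ob vp + 1 = ob vp + 2 - 1 by ring]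
      · rwa [show ob vp + 1 = ob vp + 2 - 1 by ring]
  choose A B h0 hA hB he using key
  refine ⟨A, B, fun vp b m hne => ?_, fun vp b m hne => ?_, ?_⟩
  · have hz : z vp b m ≠ 0 := fun hz => hne (h0 vp b m hz).1
    exact ⟨(h vp b m hz).1, (h vp b m hz).2.1, hA vp b m⟩
  · have hz : z vp b m ≠ 0 := fun hz => hne (h0 vp b m hz).2
    exact ⟨(h vp b m hz).1, (h vp b m hz).2.1, hB vp b m⟩
  · funext vp b m; exact he vp b m

theorem ColP2.split (hv : v = 2) {u : Zc K × Zc K} (h : ColP2 σ v n e u) :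
    ∃ A B, ColP2 σ 1 n (e - 1) A ∧ ColP2 σ 1 n (e - 1) B ∧
      rmul2 (gx K) A + rmul2 (gy K) B = u := by
  obtain ⟨A, B, hA, hB, e1⟩ := h.1.split hv
  obtain ⟨A', B', hA', hB', e2⟩ := h.2.split hv
  exact ⟨(A, A'), (B, B'), ⟨hA, hA'⟩, ⟨hB, hB'⟩, Prod.ext e1 e2⟩

/-- the kernel of right multiplication by `(x, y)` -/
theorem ColP.ker {A B : Zc K} (hA : ColP σ v n e A) (hB : ColP σ v n e B)
    (h : rmul (gx K) A + rmul (gy K) B = 0) :
    ∃ U, ColP σ (v - 1) n (e - 1) U ∧ A = rmul (gy K) U ∧ B = -(rmul (gx K) U) := by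
  have key : ∀ vp b m, ∃ s, InW K (ob vp + v - 1) (e - 1) s ∧
      A vp b m = s * gy K ∧ B vp b m = -(s * gx K) := fun vp b m =>
    ker_xy (hA.inW vp b m) (hB.inW vp b m) (congrFun (congrFun (congrFun h vp) b) m)
  choose U hU e1 e2 using key
  refine ⟨U, fun vp b m hne => ?_, ?_, ?_⟩
  · have hz : A vp b m ≠ 0 := fun hz => hne (mul_gy_cancel (by rw [← e1 vp b m, hz]))
    exact ⟨(hA vp b m hz).1, (hA vp b m hz).2.1,
      by rw [show ob vp + (v - 1) = ob vp + v - 1 by ring]; exact hU vp b m⟩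
  · funext vp b m; exact e1 vp b m
  · funext vp b m; exact e2 vp b m

theorem coAug_rmul_gx (z : Zc K) (p : ℤ × ℤ) :
    coAug K n (rmul (gx K) z) (mono K p) = coAug K n z (mono K (p.1 + 1, p.2)) := by
  rw [coAug_rmul, gx_smul_mono]

theorem coAug_rmul_gy (z : Zc K) (p : ℤ × ℤ) :
    coAug K n (rmul (gy K) z) (mono K p) = coAug K n z (mono K (p.1, p.2 + 1)) := by
  rw [coAug_rmul, gy_smul_mono]

theorem rmul_comm (z : Zc K) : rmul (gx K) (rmul (gy K) z) = rmul (gy K) (rmul (gx K) z) := by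
  rw [rmul_rmul, rmul_rmul, gx_gy]

variable [CharZero K]

theorem col_q0 (hv : 0 ≤ v) {z : Zc K} (h : ColP 0 v n e z) (hd : c1 K z = 0) : z = 0 := by
  have h' := row_q3 (show -1 ≤ v - 1 by omega) h.tw (by rw [← tw2_c1, hd, map_zero])
  rw [← tw'_tw h, h', map_zero]

theorem col_q1 (hv : 0 ≤ v) (hv' : v ≤ 2) {z : Zc K × Zc K} (h : ColP2 1 v n e z)
    (hd : c2 K z = 0) : ∃ u, ColP 0 v n (e - 1) u ∧ c1 K u = z := by
  obtain ⟨u, hu, eu⟩ := row_q2 (ε := 1) (show -1 ≤ v - 1 by omega) (by omega)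
    (z := tw2 K z) h.tw2 (by rw [← tw2_c2, hd, map_zero])
  have hu' : ColP 0 v n (e - 1) (tw' K u) := by
    have := hu.tw'
    rwa [sub_add_cancel] at this
  refine ⟨tw' K u, hu', ColP2.eq_of_tw2 hu'.c1 h ?_⟩
  rw [tw2_c1, tw_tw' hu, eu]

/-- the second cohomology of a column -/
theorem col_q2 (hv : 0 ≤ v) (hv' : v ≤ 1) {z : Zc K × Zc K} (h : ColP2 1 v n e z)
    (hd : c3 K z = 0) : ∃ u, ColP2 1 v n (e - 2) u ∧ c2 K u = z := by
  obtain ⟨u, hu, eu⟩ := row_q1 (ε := 1) (show -1 ≤ v - 1 by omega) (by omega)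
    (z := tw2 K z) h.tw2 (by rw [← tw_c3, hd, map_zero])
  have hu' : ColP2 1 v n (e - 2) (tw2' K u) := by
    have := hu.tw2'
    rwa [sub_add_cancel] at this
  refine ⟨tw2' K u, hu', ColP2.eq_of_tw2 hu'.c2 h ?_⟩
  rw [tw2_c2, tw2_tw2' hu, eu]

/-- the third cohomology of a column -/
theorem col_q3 (hv : 0 ≤ v) (hv' : v ≤ 1) {z : Zc K} (h : ColP 0 v n e z)
    (ha : ∀ p ∈ deg2 (n - v), coAug K n z (mono K p) = 0) :
    ∃ u, ColP2 1 v n (e - 1) u ∧ c3 K u = z := by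
  obtain ⟨u, C, hu, hC, hCe, eX⟩ := row_q0 (ε := 1) (show -1 ≤ v - 1 by omega) (by omega) h.tw
  have hu' : ColP2 1 v n (e - 1) (tw2' K u) := by
    have := hu.tw2'
    rwa [sub_add_cancel] at this
  have hc3 : ColP 0 v n (e - 1 + 1) (c3 K (tw2' K u)) := hu'.c3
  rw [sub_add_cancel] at hc3
  refine ⟨tw2' K u, hu', ?_⟩
  have hC' : Cst 0 (-v) n (tw' K C) := by
    intro vp b m h0
    rw [tw'_apply] at h0 ⊢
    have hne : C (vp + 1) b m ≠ 0 := fun hz => h0 (by rw [hz, map_zero, smul_zero])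
    obtain ⟨a1, a2, a3, c, hc⟩ := hC (vp + 1) b m hne
    refine ⟨?_, a2, ?_, twc' K m * c, ?_⟩
    · rw [add_zero]; exact add_right_cancel a1
    · rw [ob_flip] at a3; omega
    · rw [hc, tau_algebraMap, Algebra.smul_def, ← map_mul]
  have hdiff : z - c3 K (tw2' K u) = tw' K C := by
    have e1 : tw K (z - c3 K (tw2' K u)) = C := by
      rw [map_sub, tw_c3, tw2_tw2' hu, eX, add_sub_cancel_left]
    rw [← e1, tw'_tw (h.sub hc3)]
  have hC0 : tw' K C = 0 := hC'.eq_zero_of_coAug fun p hp => by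
    rw [← hdiff, coAug_sub, ha p hp, coAug_c3_col hu' (mono_mem hp), sub_zero]
  rw [hC0, sub_eq_zero] at hdiff
  exact hdiff.symm

/-- the second cohomology of a column of weight two -/
theorem col2_q2 (hn : 1 ≤ n) {z : Zc K × Zc K} (h : ColP2 1 2 n e z) (hd : c3 K z = 0) :
    ∃ u, ColP2 1 2 n (e - 2) u ∧ c2 K u = z := by
  obtain ⟨A, B, hA, hB, rfl⟩ := h.split rfl
  have hdA : ColP 0 1 n (e - 1 + 1) (c3 K A) := hA.c3
  have hdB : ColP 0 1 n (e - 1 + 1) (c3 K B) := hB.c3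
  rw [map_add, c3_rmul, c3_rmul] at hd
  obtain ⟨U, hU, e1, e2⟩ := hdA.ker hdB hd
  rw [show (1 : ℤ) - 1 = 0 by ring, show e - 1 + 1 - 1 = e - 1 by ring] at hU
  have hUa : ∀ p ∈ deg2 (n - 0), coAug K n U (mono K p) = 0 := by
    intro p hp
    obtain ⟨a, b, c⟩ := mem_deg2.mp hp
    by_cases h2 : 1 ≤ p.2
    · have hq : (p.1, p.2 - 1) ∈ deg2 (n - 1) := mem_deg2.mpr ⟨a, by dsimp; omega, by dsimp; omega⟩
      have := coAug_c3_col hA (mono_mem (K := K) hq)
      rwa [e1, coAug_rmul_gy, sub_add_cancel] at this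
    · have hq : (p.1 - 1, p.2) ∈ deg2 (n - 1) :=
        mem_deg2.mpr ⟨by dsimp; omega, b, by dsimp; omega⟩
      have := coAug_c3_col hB (mono_mem (K := K) hq)
      rw [e2, ← zero_sub, coAug_sub, coAug_rmul_gx, sub_add_cancel,
        show coAug K n (0 : Zc K) (mono K (p.1 - 1, p.2)) = 0 by simp [coAug_eq], zero_sub,
        neg_eq_zero] at this
      exact this
  obtain ⟨V, hV, eV⟩ := col_q3 le_rfl zero_le_one hU hUa
  have hA' : ColP2 1 1 n (e - 1) (A - rmul2 (gy K) V) := by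
    refine hA.sub ?_
    have := hV.rmul_gy
    rwa [zero_add, sub_add_cancel] at this
  have hB' : ColP2 1 1 n (e - 1) (B + rmul2 (gx K) V) := by
    refine hB.add ?_
    have := hV.rmul_gx
    rwa [zero_add, sub_add_cancel] at this
  obtain ⟨u1, hu1, eu1⟩ := col_q2 zero_le_one le_rfl hA'
    (by rw [map_sub, c3_rmul, eV, e1, sub_self])
  obtain ⟨u2, hu2, eu2⟩ := col_q2 zero_le_one le_rfl hB'
    (by rw [map_add, c3_rmul, eV, e2, neg_add_cancel])
  refine ⟨rmul2 (gx K) u1 + rmul2 (gy K) u2, ?_, ?_⟩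
  · have a := hu1.rmul_gx.add hu2.rmul_gy
    rwa [show e - 1 - 2 + 1 = e - 2 by ring, show (1 : ℤ) + 1 = 2 by ring] at a
  · rw [map_add, c2_rmul, c2_rmul, eu1, eu2]
    simp only [map_add, map_sub, rmul2_apply, rmul_comm, Prod.mk_add_mk, Prod.mk_sub_mk]
    refine Prod.ext ?_ ?_ <;> dsimp only <;> abel

/-- the third cohomology of a column of weight two -/
theorem col2_q3 (he : 2 ≤ e) {z : Zc K} (h : ColP 0 2 n e z)
    (ha : ∀ p ∈ deg2 (n - 2), coAug K n z (mono K p) = 0) :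
    ∃ u, ColP2 1 2 n (e - 1) u ∧ c3 K u = z := by
  obtain ⟨A, B, hA, hB, rfl⟩ := h.split rfl
  let g : ℤ × ℤ → K := fun m =>
    if 1 ≤ m.2 then coAug K n A (mono K (m.1, m.2 - 1))
    else -coAug K n B (mono K (m.1 - 1, m.2))
  let U := constC K n 0 g
  have hgy : ∀ p ∈ deg2 (n - 1), coAug K n (rmul (gy K) U) (mono K p)
      = coAug K n A (mono K p) := by
    intro p hp
    obtain ⟨a, b, c⟩ := mem_deg2.mp hp
    have hq : (p.1, p.2 + 1) ∈ deg2 (n + ob 0) :=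
      mem_deg2.mpr ⟨a, by dsimp; omega, by simp [ob]; omega⟩
    rw [coAug_rmul_gy, coAug_constC_mono g hq]
    simp [g, show (1 : ℤ) ≤ p.2 + 1 by omega]
  have hgx : ∀ p ∈ deg2 (n - 1), coAug K n (rmul (gx K) U) (mono K p)
      = -coAug K n B (mono K p) := by
    intro p hp
    obtain ⟨a, b, c⟩ := mem_deg2.mp hp
    have hq : (p.1 + 1, p.2) ∈ deg2 (n + ob 0) :=
      mem_deg2.mpr ⟨by dsimp; omega, b, by simp [ob]; omega⟩
    rw [coAug_rmul_gx, coAug_constC_mono g hq]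
    by_cases h2 : 1 ≤ p.2
    · have := ha (p.1, p.2 - 1) (mem_deg2.mpr ⟨a, by dsimp; omega, by dsimp; omega⟩)
      rw [coAug_add, coAug_rmul_gx, coAug_rmul_gy, sub_add_cancel] at this
      simp [g, h2]
      exact eq_neg_of_add_eq_zero_left this
    · simp [g, h2]
  have hU : ColP 0 0 n (e - 2) U := by
    have := constC_cm (K := K) (n := n) (b0 := 0) (g := g) (show 0 ≤ e - 2 by omega)
    simpa [ob] using this
  have hUA : ColP 0 1 n (e - 1) (rmul (gy K) U) := by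
    have := hU.rmul_gy
    rwa [zero_add, show e - 2 + 1 = e - 1 by ring] at this
  have hUB : ColP 0 1 n (e - 1) (rmul (gx K) U) := by
    have := hU.rmul_gx
    rwa [zero_add, show e - 2 + 1 = e - 1 by ring] at this
  obtain ⟨u1, hu1, eu1⟩ := col_q3 zero_le_one le_rfl (hA.sub hUA) fun p hp => by
    rw [coAug_sub, hgy p hp, sub_self]
  obtain ⟨u2, hu2, eu2⟩ := col_q3 zero_le_one le_rfl (hB.add hUB) fun p hp => by
    rw [coAug_add, hgx p hp, add_neg_cancel]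
  refine ⟨rmul2 (gx K) u1 + rmul2 (gy K) u2, ?_, ?_⟩
  · have a := hu1.rmul_gx.add hu2.rmul_gy
    rwa [show e - 1 - 1 + 1 = e - 1 by ring, show (1 : ℤ) + 1 = 2 by ring] at a
  · rw [map_add, c3_rmul, c3_rmul, eu1, eu2, map_sub, map_add, rmul_comm]
    abel

end Vale.Agent.P195
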