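import Mathlib

/-!
Long exact sequences of Ext groups of modules, in the language of vanishing and surjectivity.
-/

namespace Vale.Agent.P195.ExtTools

open CategoryTheory Abelian

variable {R : Type} [Ring R]

/-- the Ext group between two module types -/
abbrev E (R : Type) [Ring R] (M N : Type) [AddCommGroup M] [Module R M] [AddCommGroup N]
    [Module R N] (i : ℕ) : Type := Ext (ModuleCat.of R M) (ModuleCat.of R N) i

/-- vanishing -/
abbrev Van (R : Type) [Ring R] (M N : Type) [AddCommGroup M] [Module R M] [AddCommGroup N]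
    [Module R N] (i : ℕ) : Prop := Subsingleton (E R M N i)

variable {M M' N N' : Type} [AddCommGroup M] [Module R M] [AddCommGroup M'] [Module R M']
  [AddCommGroup N] [Module R N] [AddCommGroup N'] [Module R N']

/-- pullback along a linear map -/
noncomputable def pull (f : M →ₗ[R] M') {i : ℕ} (x : E R M' N i) : E R M N i :=
  (Ext.mk₀ (ModuleCat.ofHom f)).comp x (zero_add i)

/-- pushforward along a linear map -/
noncomputable def push (f : N →ₗ[R] N') {i : ℕ} (x : E R M N i) : E R M N' i :=
  x.comp (Ext.mk₀ (ModuleCat.ofHom f)) (add_zero i)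

/-- a map as a class in degree zero -/
noncomputable def cls (f : M →ₗ[R] N) : E R M N 0 := Ext.mk₀ (ModuleCat.ofHom f)

theorem cls_surjective (x : E R M N 0) : ∃ f, cls f = x := by
  obtain ⟨h, rfl⟩ := (Ext.mk₀_bijective _ _).2 x
  exact ⟨h.hom, rfl⟩

theorem cls_injective {f g : M →ₗ[R] N} (h : cls f = cls g) : f = g :=
  congrArg ModuleCat.Hom.hom ((Ext.mk₀_bijective _ _).1 h)

theorem pull_cls (f : M →ₗ[R] M') (g : M' →ₗ[R] N) : pull f (cls g) = cls (g.comp f) :=
  Ext.mk₀_comp_mk₀ _ _

theorem push_cls (f : N →ₗ[R] N') (g : M →ₗ[R] N) : push f (cls g) = cls (f.comp g) :=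
  Ext.mk₀_comp_mk₀ _ _

theorem pull_pull {L : Type} [AddCommGroup L] [Module R L] (f : L →ₗ[R] M) (g : M →ₗ[R] M') {i : ℕ}
    (x : E R M' N i) : pull f (pull g x) = pull (g.comp f) x := by
  simp only [pull, Ext.mk₀_comp_mk₀_assoc]; rfl

theorem push_push {L : Type} [AddCommGroup L] [Module R L] (f : N →ₗ[R] N') (g : N' →ₗ[R] L) {i : ℕ}
    (x : E R M N i) : push g (push f x) = push (g.comp f) x := by
  simp only [push]
  rw [Ext.comp_assoc_of_third_deg_zero, Ext.mk₀_comp_mk₀]; rfl

theorem pull_id {i : ℕ} (x : E R M N i) : pull LinearMap.id x = x := Ext.mk₀_id_comp x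

theorem push_id {i : ℕ} (x : E R M N i) : push LinearMap.id x = x := Ext.comp_mk₀_id x

theorem pull_add (f : M →ₗ[R] M') {i : ℕ} (x y : E R M' N i) :
    pull f (x + y) = pull f x + pull f y := Ext.comp_add _ _ _ _

theorem pull_sub (f : M →ₗ[R] M') {i : ℕ} (x y : E R M' N i) :
    pull f (x - y) = pull f x - pull f y :=
  map_sub (AddMonoidHom.mk' (pull f) (pull_add f)) x y

theorem pull_zero (f : M →ₗ[R] M') {i : ℕ} : pull f (0 : E R M' N i) = 0 :=
  map_zero (AddMonoidHom.mk' (pull f) (pull_add f))

theorem push_add (f : N →ₗ[R] N') {i : ℕ} (x y : E R M N i) :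
    push f (x + y) = push f x + push f y := Ext.add_comp _ _ _ _

theorem push_sub (f : N →ₗ[R] N') {i : ℕ} (x y : E R M N i) :
    push f (x - y) = push f x - push f y :=
  map_sub (AddMonoidHom.mk' (push f) (push_add f)) x y

theorem push_zero (f : N →ₗ[R] N') {i : ℕ} : push f (0 : E R M N i) = 0 :=
  Ext.zero_comp _ _ _ _ _

theorem cls_zero : cls (0 : M →ₗ[R] N) = 0 := Ext.mk₀_zero _ _

theorem van_of_projective [Module.Projective R M] (i : ℕ) : Van R M N (i + 1) := by
  have : Projective (ModuleCat.of R M) := (IsProjective.iff_projective M).1 inferInstance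
  exact subsingleton_of_forall_eq 0 Ext.eq_zero_of_projective

theorem van_zero_iff : Van R M N 0 ↔ ∀ f : M →ₗ[R] N, f = 0 := by
  constructor
  · intro h f; exact cls_injective (Subsingleton.elim _ _)
  · intro h
    exact subsingleton_of_forall_eq 0 fun x => by
      obtain ⟨f, rfl⟩ := cls_surjective x
      rw [h f, cls_zero]

/-- retracts in the first variable -/
theorem van_retract_left {i : ℕ} (ι : M →ₗ[R] M') (p : M' →ₗ[R] M) (h : p.comp ι = LinearMap.id)
    (hv : Van R M' N i) : Van R M N i :=
  subsingleton_of_forall_eq 0 fun x => by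
    rw [← pull_id x, ← h, ← pull_pull, Subsingleton.elim (pull p x) 0, pull_zero]

/-- retracts in the second variable -/
theorem van_retract_right {i : ℕ} (ι : N →ₗ[R] N') (p : N' →ₗ[R] N) (h : p.comp ι = LinearMap.id)
    (hv : Van R M N' i) : Van R M N i :=
  subsingleton_of_forall_eq 0 fun x => by
    rw [← push_id x, ← h, ← push_push, Subsingleton.elim (push ι x) 0, push_zero]

variable {A B C T : Type} [AddCommGroup A] [Module R A] [AddCommGroup B] [Module R B]
  [AddCommGroup C] [Module R C] [AddCommGroup T] [Module R T]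
  {f : A →ₗ[R] B} {g : B →ₗ[R] C}

theorem shortExact (hf : Function.Injective f) (hg : Function.Surjective g)
    (he : Function.Exact f g) :
    (ShortComplex.moduleCatMk f g he.linearMap_comp_eq_zero).ShortExact :=
  ModuleCat.shortComplex_shortExact _ he hf hg

section Contra

variable (hf : Function.Injective f) (hg : Function.Surjective g) (he : Function.Exact f g)
include hf hg he

/-- `Ext(C) → Ext(B) → Ext(A)` -/
theorem exists_pull_of_pull_eq_zero {n : ℕ} (x : E R B T n) (hx : pull f x = 0) :
    ∃ y, pull g y = x :=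
  Ext.contravariant_sequence_exact₂ (shortExact hf hg he) _ x hx

theorem pull_comp_eq_zero {n : ℕ} (y : E R C T n) : pull f (pull g y) = 0 := by
  rw [pull_pull, he.linearMap_comp_eq_zero]
  simp [pull]

theorem van_mid {n : ℕ} (hA : Van R A T n) (hC : Van R C T n) : Van R B T n :=
  subsingleton_of_forall_eq 0 fun x => by
    obtain ⟨y, rfl⟩ := exists_pull_of_pull_eq_zero hf hg he x (Subsingleton.elim _ _)
    rw [Subsingleton.elim y 0, pull_zero]

theorem van_right {n : ℕ} (hA : Van R A T n) (hB : Van R B T (n + 1)) : Van R C T (n + 1) :=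
  subsingleton_of_forall_eq 0 fun x => by
    obtain ⟨y, rfl⟩ := Ext.contravariant_sequence_exact₃ (shortExact hf hg he) _ x
      (Subsingleton.elim (pull g x) 0) (n₀ := n) (by omega)
    exact (congrArg (fun z => Ext.comp _ z _) (Subsingleton.elim (α := E R A T n) y 0)).trans
      (Ext.comp_zero _ _ _ _ _)

/-- the next degree vanishes once restriction is onto -/
theorem van_right_of_surj {n : ℕ} (hB : Van R B T (n + 1))
    (hs : ∀ y : E R A T n, ∃ x : E R B T n, pull f x = y) : Van R C T (n + 1) :=
  subsingleton_of_forall_eq 0 fun x => by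
    obtain ⟨y, rfl⟩ := Ext.contravariant_sequence_exact₃ (shortExact hf hg he) _ x
      (Subsingleton.elim (pull g x) 0) (n₀ := n) (by omega)
    obtain ⟨z, rfl⟩ := hs y
    exact (shortExact hf hg he).extClass_comp_assoc z

theorem surj_of_van_right {n : ℕ} (hC : Van R C T (n + 1)) (y : E R A T n) :
    ∃ x : E R B T n, pull f x = y :=
  Ext.contravariant_sequence_exact₁ (shortExact hf hg he) _ y (n₁ := n + 1) (by omega)
    (Subsingleton.elim (α := E R C T (n + 1)) _ _)

theorem van_left {n : ℕ} (hB : Van R B T n) (hC : Van R C T (n + 1)) : Van R A T n :=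
  subsingleton_of_forall_eq 0 fun y => by
    obtain ⟨x, rfl⟩ := surj_of_van_right hf hg he hC y
    rw [Subsingleton.elim x 0, pull_zero]

theorem van_one_of_extend (hB : Van R B T 1)
    (hext : ∀ h : A →ₗ[R] T, ∃ k : B →ₗ[R] T, k.comp f = h) : Van R C T 1 :=
  van_right_of_surj hf hg he hB fun y => by
    obtain ⟨h, rfl⟩ := cls_surjective y
    obtain ⟨k, rfl⟩ := hext h
    exact ⟨cls k, pull_cls f k⟩

theorem extend_of_van_one (hC : Van R C T 1) (h : A →ₗ[R] T) :
    ∃ k : B →ₗ[R] T, k.comp f = h := by
  obtain ⟨x, hx⟩ := surj_of_van_right hf hg he hC (cls h)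
  obtain ⟨k, rfl⟩ := cls_surjective x
  exact ⟨k, cls_injective (by rw [← pull_cls, hx])⟩

end Contra

section Cov

variable (hf : Function.Injective f) (hg : Function.Surjective g) (he : Function.Exact f g)
include hf hg he

/-- `Ext(A) → Ext(B) → Ext(C)` -/
theorem exists_push_of_push_eq_zero {n : ℕ} (x : E R T B n) (hx : push g x = 0) :
    ∃ y, push f y = x :=
  Ext.covariant_sequence_exact₂ _ (shortExact hf hg he) x hx

theorem covan_mid {n : ℕ} (hA : Van R T A n) (hC : Van R T C n) : Van R T B n :=
  subsingleton_of_forall_eq 0 fun x => by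
    obtain ⟨y, rfl⟩ := exists_push_of_push_eq_zero hf hg he x (Subsingleton.elim _ _)
    rw [Subsingleton.elim y 0, push_zero]

theorem push_surjective_of_van {n : ℕ} (hA : Van R T A (n + 1)) (y : E R T C n) :
    ∃ x : E R T B n, push g x = y :=
  Ext.covariant_sequence_exact₃ _ (shortExact hf hg he) y (n₁ := n + 1) rfl
    (Subsingleton.elim (α := E R T A (n + 1)) _ _)

theorem push_surjective_of_van' {n : ℕ} (hC : Van R T C n) (x : E R T B n) :
    ∃ y : E R T A n, push f y = x :=
  exists_push_of_push_eq_zero hf hg he x (Subsingleton.elim _ _)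

theorem covan_right {n : ℕ} (hB : Van R T B n) (hA : Van R T A (n + 1)) : Van R T C n :=
  subsingleton_of_forall_eq 0 fun y => by
    obtain ⟨x, rfl⟩ := push_surjective_of_van hf hg he hA y
    rw [Subsingleton.elim x 0, push_zero]

theorem covan_left_of_surj {n : ℕ} (hB : Van R T B (n + 1))
    (hs : ∀ y : E R T C n, ∃ x : E R T B n, push g x = y) : Van R T A (n + 1) :=
  subsingleton_of_forall_eq 0 fun x => by
    obtain ⟨y, rfl⟩ := Ext.covariant_sequence_exact₁ _ (shortExact hf hg he) x
      (Subsingleton.elim (push f x) 0) (n₀ := n) rfl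
    obtain ⟨z, rfl⟩ := hs y
    refine (Ext.comp_assoc_of_second_deg_zero z _ _ _).trans ?_
    exact (congrArg (fun w => Ext.comp z w _) (shortExact hf hg he).comp_extClass).trans
      (Ext.comp_zero _ _ _ _ _)

theorem covan_left {n : ℕ} (hC : Van R T C n) (hB : Van R T B (n + 1)) : Van R T A (n + 1) :=
  covan_left_of_surj hf hg he hB fun y => ⟨0, (push_zero g).trans (Subsingleton.elim _ _)⟩

theorem push_injective_of_van {n : ℕ} (hC : Van R T C n) (x : E R T A (n + 1))
    (hx : push f x = 0) : x = 0 := by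
  obtain ⟨y, rfl⟩ := Ext.covariant_sequence_exact₁ _ (shortExact hf hg he) x hx (n₀ := n) rfl
  exact (congrArg (fun z => Ext.comp z _ _) (Subsingleton.elim (α := E R T C n) y 0)).trans
    (Ext.zero_comp _ _ _ _ _)

end Cov

section Pi

variable (R M N)

theorem van_subsingleton_right [Subsingleton N] (i : ℕ) : Van R M N i :=
  subsingleton_of_forall_eq 0 fun x => by
    rw [← push_id x, Subsingleton.elim (LinearMap.id : N →ₗ[R] N) 0]
    simp [push]

theorem van_subsingleton_left [Subsingleton M] (i : ℕ) : Van R M N i :=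
  subsingleton_of_forall_eq 0 fun x => by
    rw [← pull_id x, Subsingleton.elim (LinearMap.id : M →ₗ[R] M) 0]
    simp [pull]

variable {R M N}

/-- inclusion of the tail -/
def consZero (R P : Type) [Ring R] [AddCommGroup P] [Module R P] (m : ℕ) :
    (Fin m → P) →ₗ[R] (Fin (m + 1) → P) where
  toFun w := Fin.cons 0 w
  map_add' v w := by funext i; refine Fin.cases ?_ ?_ i <;> simp
  map_smul' c w := by funext i; refine Fin.cases ?_ ?_ i <;> simp

theorem consZero_exact (P : Type) [AddCommGroup P] [Module R P] (m : ℕ) :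
    Function.Injective (consZero R P m) ∧
      Function.Surjective (LinearMap.proj (R := R) (φ := fun _ : Fin (m + 1) => P) 0) ∧
      Function.Exact (consZero R P m)
        (LinearMap.proj (R := R) (φ := fun _ : Fin (m + 1) => P) 0) := by
  refine ⟨fun v w h => ?_, fun p => ⟨fun _ => p, rfl⟩, fun v => ⟨fun h => ⟨Fin.tail v, ?_⟩, ?_⟩⟩
  · funext i; exact congrFun h i.succ
  · funext i
    refine Fin.cases ?_ ?_ i
    · exact h.symm
    · intro j; rfl
  · rintro ⟨w, rfl⟩; rfl

theorem van_pi_right {i : ℕ} (h : Van R M N i) : ∀ m, Van R M (Fin m → N) i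
  | 0 => van_subsingleton_right R M _ i
  | m + 1 => covan_mid (consZero_exact N m).1 (consZero_exact N m).2.1 (consZero_exact N m).2.2
      (van_pi_right h m) h

theorem van_pi_left {i : ℕ} (h : Van R M N i) : ∀ m, Van R (Fin m → M) N i
  | 0 => van_subsingleton_left R _ N i
  | m + 1 => van_mid (consZero_exact M m).1 (consZero_exact M m).2.1 (consZero_exact M m).2.2
      (van_pi_left h m) h

end Pi

/-- the kernel sequence of a surjection -/
theorem exact_ker (p : B →ₗ[R] C) : Function.Exact (LinearMap.ker p).subtype p :=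
  LinearMap.exact_subtype_ker_map p

end Vale.Agent.P195.ExtTools
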