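import Vale.Agent.P195.Weyl

/-!
The Koszul lemmas for right and left multiplication by `(x, y)` and by `(∂x, ∂y)` on Weyl elements.
-/

namespace Vale.Agent.P195

open MvPolynomial

variable {K : Type} [Field K]

@[simp] theorem co_mul (k l : Sh) (i : Fin 2) : (k * l).co i = k.co i + l.co i := by
  fin_cases i <;> rfl

@[simp] theorem co_inv (k : Sh) (i : Fin 2) : (k⁻¹).co i = -k.co i := by fin_cases i <;> rfl

@[simp] theorem co_one (i : Fin 2) : (1 : Sh).co i = 0 := by fin_cases i <;> rfl

@[simp] theorem co_sh_zero (a b : ℤ) : (sh a b).co 0 = a := rfl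

@[simp] theorem co_sh_one (a b : ℤ) : (sh a b).co 1 = b := rfl

theorem Sh.ext' {k l : Sh} (h : ∀ i, k.co i = l.co i) : k = l :=
  by
  have e : Multiplicative.toAdd k = Multiplicative.toAdd l := Prod.ext (h 0) (h 1)
  exact e

/-- substitution of a number for the variable `i` -/
noncomputable def ev (i : Fin 2) (t : K) : Pol K →ₐ[K] Pol K :=
  aeval fun j => if j = i then C t else X j

theorem ev_X_self (i : Fin 2) (t : K) : ev i t (X i) = C t := by simp [ev]

theorem ev_X_of_ne {i j : Fin 2} (t : K) (h : j ≠ i) : ev i t (X j) = X j := by simp [ev, h]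

theorem ev_C (i : Fin 2) (t c : K) : ev i t (C c) = C c := by simp [ev]

theorem totalDegree_ev_le (i : Fin 2) (t : K) (p : Pol K) :
    (ev i t p).totalDegree ≤ p.totalDegree := by
  rw [ev, aeval_def, eval₂_eq]
  refine totalDegree_finsetSum_le fun d hd => ?_
  refine (totalDegree_mul _ _).trans ?_
  rw [show algebraMap K (Pol K) (coeff d p) = C (coeff d p) from rfl, totalDegree_C, zero_add]
  refine (totalDegree_finsetProd _ _).trans (le_trans ?_ (le_totalDegree hd))
  rw [Finsupp.sum]
  refine Finset.sum_le_sum fun j _ => (totalDegree_pow _ _).trans ?_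
  have : (if j = i then C t else X j : Pol K).totalDegree ≤ 1 := by split_ifs <;> simp
  simpa using Nat.mul_le_mul_left (d j) this

/-- division by `X i - t` -/
theorem exists_div (i : Fin 2) (t : K) (p : Pol K) :
    ∃ q, p - ev i t p = (X i - C t) * q ∧ (q = 0 ∨ q.totalDegree + 1 ≤ p.totalDegree) := by
  have key : ∃ q, p - ev i t p = (X i - C t) * q := by
    induction p using MvPolynomial.induction_on with
    | C a => exact ⟨0, by simp [ev_C]⟩
    | add p q hp hq =>
      obtain ⟨u, hu⟩ := hp; obtain ⟨v, hv⟩ := hq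
      exact ⟨u + v, by rw [map_add, mul_add, ← hu, ← hv]; ring⟩
    | mul_X p j hp =>
      obtain ⟨u, hu⟩ := hp
      by_cases h : j = i
      · subst h
        exact ⟨u * X j + ev j t p, by rw [map_mul, ev_X_self]; linear_combination (X j) * hu⟩
      · exact ⟨u * X j, by rw [map_mul, ev_X_of_ne t h]; linear_combination (X j) * hu⟩
  obtain ⟨q, hq⟩ := key
  refine ⟨q, hq, ?_⟩
  by_cases hq0 : q = 0
  · exact Or.inl hq0
  refine Or.inr ?_
  have hlin : (X i - C t : Pol K).totalDegree = 1 := by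
    rw [sub_eq_add_neg, totalDegree_add_eq_left_of_totalDegree_lt] <;> simp
  have hne : (X i - C t : Pol K) ≠ 0 := fun h => by simp [h] at hlin
  have := congrArg totalDegree hq
  rw [totalDegree_mul_of_isDomain hne hq0, hlin] at this
  have h2 : (p - ev i t p).totalDegree ≤ p.totalDegree :=
    (totalDegree_sub _ _).trans (max_le le_rfl (totalDegree_ev_le i t p))
  omega

theorem ev_lin_ne_zero {i j : Fin 2} {s t : K} (h : i = j → s ≠ t) :
    ev j s (X i - C t) ≠ (0 : Pol K) := by
  intro e
  by_cases hij : i = j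
  · subst hij
    rw [map_sub, ev_X_self, ev_C, ← map_sub, C_eq_zero, sub_eq_zero] at e
    exact h rfl e
  · rw [map_sub, ev_X_of_ne s hij, ev_C] at e
    have := congrArg totalDegree (sub_eq_zero.mp e)
    simp at this

/-- a vanishing condition passes to the quotient -/
theorem ev_quot {i j : Fin 2} {s t : K} {p q : Pol K} (hp : p = (X i - C t) * q)
    (h : ev j s p = 0) (hne : i = j → s ≠ t) : ev j s q = 0 := by
  rw [hp, map_mul] at h
  exact (mul_eq_zero.mp h).resolve_left (ev_lin_ne_zero hne)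

/-- the conditions on one coefficient -/
def Okc (K : Type) [Field K] (k : Sh) (w d : ℤ) (p : Pol K) : Prop :=
  p ≠ 0 → k.co 0 + k.co 1 = w ∧ w + 2 * (p.totalDegree : ℤ) ≤ d ∧
    ∀ (i : Fin 2) (t : ℤ), k.co i ≤ t → t < 0 → ev i (t : K) p = 0

theorem inW_iff {w d : ℤ} {a : Am K} : InW K w d a ↔ ∀ k, Okc K k w d (a.coeff k) := Iff.rfl

theorem okc_zero (k : Sh) (w d : ℤ) : Okc K k w d (0 : Pol K) := fun h => absurd rfl h

theorem okc_add {k : Sh} {w d : ℤ} {p q : Pol K} (hp : Okc K k w d p) (hq : Okc K k w d q) :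
    Okc K k w d (p + q) := by
  intro h
  by_cases hp0 : p = 0
  · simpa [hp0] using hq (by simpa [hp0] using h)
  by_cases hq0 : q = 0
  · simpa [hq0] using hp hp0
  obtain ⟨e1, e2, e3⟩ := hp hp0
  obtain ⟨_, f2, f3⟩ := hq hq0
  refine ⟨e1, ?_, fun i t h1 h2 => by rw [map_add, e3 i t h1 h2, f3 i t h1 h2, add_zero]⟩
  have := totalDegree_add p q
  omega

theorem okc_sum {ι : Type} (S : Finset ι) {k : Sh} {w d : ℤ} {f : ι → Pol K}
    (h : ∀ i ∈ S, Okc K k w d (f i)) : Okc K k w d (∑ i ∈ S, f i) :=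
  Finset.sum_induction f (Okc K k w d) (fun _ _ => okc_add) (okc_zero k w d) h

theorem inW_single {k : Sh} {w d : ℤ} {p : Pol K} (h : Okc K k w d p) :
    InW K w d (SkewMonoidAlgebra.single k p) := by
  classical
  intro l
  rw [SkewMonoidAlgebra.coeff_single_apply]
  by_cases e : k = l
  · subst e; rw [if_pos rfl]; exact h
  · rw [if_neg e]; exact okc_zero l w d

theorem inW_zero (w d : ℤ) : InW K w d (0 : Am K) := fun k h => absurd (by simp) h

theorem inW_add {w d : ℤ} {a b : Am K} (ha : InW K w d a) (hb : InW K w d b) :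
    InW K w d (a + b) := fun k => by
  rw [SkewMonoidAlgebra.coeff_add, Finsupp.add_apply]; exact okc_add (ha k) (hb k)

theorem inW_neg {w d : ℤ} {a : Am K} (ha : InW K w d a) : InW K w d (-a) := fun k h => by
  have := ha k (by simpa using h)
  refine ⟨this.1, by simpa using this.2.1, fun i t h1 h2 => ?_⟩
  simpa using this.2.2 i t h1 h2

theorem inW_sum {ι : Type} (S : Finset ι) {w d : ℤ} {f : ι → Am K}
    (h : ∀ i ∈ S, InW K w d (f i)) : InW K w d (∑ i ∈ S, f i) :=
  Finset.sum_induction f (InW K w d) (fun _ _ => inW_add) (inW_zero w d) h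

/-! The effect of the generators on coefficients. -/

theorem smul_one_pol (k : Sh) : k • (1 : Pol K) = 1 := smul_one k

theorem trans_apply_X (k : Sh) (i : Fin 2) : k • (X i : Pol K) = X i - C ((k.co i : ℤ) : K) := by
  simp [smul_eq_trans, trans]

theorem trans_apply_C (k : Sh) (c : K) : k • (C c : Pol K) = C c := by
  simp [smul_eq_trans, trans]

theorem coeff_mul_gx (a : Am K) (k : Sh) : (a * gx K).coeff k = a.coeff (k * (sh 1 0)⁻¹) := by
  rw [gx, mon, SkewMonoidAlgebra.coeff_mul_single, smul_one_pol, mul_one]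

theorem coeff_mul_gy (a : Am K) (k : Sh) : (a * gy K).coeff k = a.coeff (k * (sh 0 1)⁻¹) := by
  rw [gy, mon, SkewMonoidAlgebra.coeff_mul_single, smul_one_pol, mul_one]

theorem coeff_mul_gdx (a : Am K) (k : Sh) :
    (a * gdx K).coeff k = a.coeff (k * sh 1 0) * (X 0 - C ((k.co 0 : ℤ) : K)) := by
  rw [gdx, mon, SkewMonoidAlgebra.coeff_mul_single]
  have e : k * (sh (-1) 0)⁻¹ = k * sh 1 0 := Sh.ext' fun i => by fin_cases i <;> simp
  rw [e, smul_add, smul_one_pol, trans_apply_X]
  congr 1
  simp [map_add]; ring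

theorem coeff_mul_gdy (a : Am K) (k : Sh) :
    (a * gdy K).coeff k = a.coeff (k * sh 0 1) * (X 1 - C ((k.co 1 : ℤ) : K)) := by
  rw [gdy, mon, SkewMonoidAlgebra.coeff_mul_single]
  have e : k * (sh 0 (-1))⁻¹ = k * sh 0 1 := Sh.ext' fun i => by fin_cases i <;> simp
  rw [e, smul_add, smul_one_pol, trans_apply_X]
  congr 1
  simp [map_add]; ring

/-! Right multiplication by `(x, y)`. -/

theorem ker_xy {w d : ℤ} {a b : Am K} (ha : InW K w d a) (hb : InW K w d b)
    (h : a * gx K + b * gy K = 0) :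
    ∃ s, InW K (w - 1) (d - 1) s ∧ a = s * gy K ∧ b = -(s * gx K) := by
  have hy : mon K 0 (-1) 1 * gy K = 1 := by
    rw [gy, mon, mon, SkewMonoidAlgebra.single_mul_single, smul_one_pol, mul_one]; rfl
  have hxy : mon K 0 (-1) 1 * gx K = gx K * mon K 0 (-1) 1 := by
    rw [gx, mon, mon, SkewMonoidAlgebra.single_mul_single, SkewMonoidAlgebra.single_mul_single,
      smul_one_pol, smul_one_pol, mul_comm (sh 0 (-1))]
  have hy' : gy K * mon K 0 (-1) 1 = 1 := by
    rw [gy, mon, mon, SkewMonoidAlgebra.single_mul_single, smul_one_pol, mul_one]; rfl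
  have hb' : b = -(a * gx K * mon K 0 (-1) 1) := by
    have e : b * gy K = -(a * gx K) := eq_neg_of_add_eq_zero_right h
    calc b = b * gy K * mon K 0 (-1) 1 := by rw [mul_assoc, hy', mul_one]
      _ = -(a * gx K * mon K 0 (-1) 1) := by rw [e]; exact neg_mul (a * gx K) (mon K 0 (-1) 1)
  refine ⟨a * mon K 0 (-1) 1, ?_, by rw [mul_assoc, hy, mul_one], by
    rw [hb', mul_assoc, mul_assoc, hxy]⟩
  intro k hk
  have hs : ((a * mon K 0 (-1) 1).coeff k) = a.coeff (k * sh 0 1) := by
    rw [mon, SkewMonoidAlgebra.coeff_mul_single, smul_one_pol, mul_one]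
    exact congrArg _ (Sh.ext' fun i => by fin_cases i <;> simp)
  rw [hs] at hk ⊢
  obtain ⟨e1, e2, e3⟩ := ha _ hk
  have hbk : b.coeff (k * sh 1 0) = -a.coeff (k * sh 0 1) := by
    have e := congrArg (fun z : Am K => z.coeff (k * sh 1 0 * sh 0 1)) h
    simp only [SkewMonoidAlgebra.coeff_add, Finsupp.add_apply, coeff_mul_gx, coeff_mul_gy] at e
    rw [show k * sh 1 0 * sh 0 1 * (sh 1 0)⁻¹ = k * sh 0 1 by
      exact Sh.ext' fun i => by fin_cases i <;> simp, show k * sh 1 0 * sh 0 1 * (sh 0 1)⁻¹ = k * sh 1 0 by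
      exact Sh.ext' fun i => by fin_cases i <;> simp] at e
    simp only [SkewMonoidAlgebra.coeff_zero, Finsupp.zero_apply] at e
    exact eq_neg_of_add_eq_zero_right e
  obtain ⟨-, -, f3⟩ := hb (k * sh 1 0) (by rw [hbk]; simpa using hk)
  simp at e1 e2
  refine ⟨by omega, by omega, fun i t h1 h2 => ?_⟩
  fin_cases i
  · exact e3 0 t (by simpa using h1) h2
  · have := f3 1 t (by simpa using h1) h2
    rwa [hbk, map_neg, neg_eq_zero] at this

theorem img_xy_one {w d : ℤ} {z : Am K} (hw : 1 ≤ w) (hz : InW K w d z) :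
    ∃ a b, InW K (w - 1) (d - 1) a ∧ InW K (w - 1) (d - 1) b ∧ a * gx K + b * gy K = z := by
  classical
  let u : Sh → Am K := fun k => SkewMonoidAlgebra.single (k * (sh 1 0)⁻¹) (z.coeff k)
  let v : Sh → Am K := fun k => SkewMonoidAlgebra.single (k * (sh 0 1)⁻¹) (z.coeff k)
  let S := z.coeff.support
  refine ⟨∑ k ∈ S with 1 ≤ k.co 0, u k, ∑ k ∈ S with ¬(1 ≤ k.co 0), v k, ?_, ?_, ?_⟩
  · refine inW_sum _ fun k hk => inW_single fun h => ?_
    obtain ⟨e1, e2, e3⟩ := hz k h
    have h0 : 1 ≤ k.co 0 := (Finset.mem_filter.mp hk).2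
    refine ⟨by simp; omega, by omega, fun i t h1 h2 => ?_⟩
    fin_cases i
    · simp at h1; omega
    · exact e3 1 t (by simpa using h1) h2
  · refine inW_sum _ fun k hk => inW_single fun h => ?_
    obtain ⟨e1, e2, e3⟩ := hz k h
    have h0 : ¬(1 ≤ k.co 0) := (Finset.mem_filter.mp hk).2
    refine ⟨by simp; omega, by omega, fun i t h1 h2 => ?_⟩
    fin_cases i
    · exact e3 0 t (by simpa using h1) h2
    · simp at h1; omega
  · have hu : ∀ k, u k * gx K = SkewMonoidAlgebra.single k (z.coeff k) := fun k => by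
      simp only [u, gx, mon, SkewMonoidAlgebra.single_mul_single, smul_one_pol, mul_one,
        inv_mul_cancel_right]
    have hv : ∀ k, v k * gy K = SkewMonoidAlgebra.single k (z.coeff k) := fun k => by
      simp only [v, gy, mon, SkewMonoidAlgebra.single_mul_single, smul_one_pol, mul_one,
        inv_mul_cancel_right]
    rw [Finset.sum_mul, Finset.sum_mul, Finset.sum_congr rfl fun k _ => hu k,
      Finset.sum_congr rfl fun k _ => hv k, Finset.sum_filter_add_sum_filter_not]
    exact z.sum_single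

/-- the decomposition of a polynomial at a point -/
theorem exists_split (t0 t1 : K) (p : Pol K) :
    ∃ q0 q1 : Pol K, ∃ c : K, p = (X 0 - C t0) * q0 + (X 1 - C t1) * q1 + C c ∧
      (q0 = 0 ∨ q0.totalDegree + 1 ≤ p.totalDegree) ∧
      (q1 = 0 ∨ q1.totalDegree + 1 ≤ p.totalDegree) := by
  obtain ⟨q0, e0, d0⟩ := exists_div 0 t0 p
  obtain ⟨q1, e1, d1⟩ := exists_div 1 t1 (ev 0 t0 p)
  have hc : ev 1 t1 (ev 0 t0 p) = C (eval ![t0, t1] p) := by
    have : (ev 1 t1).comp (ev 0 t0) = (Algebra.ofId K (Pol K)).comp (aeval ![t0, t1]) := by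
      apply MvPolynomial.algHom_ext; intro i
      fin_cases i <;> simp [ev]
    have := DFunLike.congr_fun this p
    simpa [aeval_eq_eval] using this
  refine ⟨q0, q1, eval ![t0, t1] p, ?_, d0, d1.imp_right fun h =>
    h.trans (totalDegree_ev_le 0 t0 p)⟩
  rw [← hc]
  linear_combination e0 + e1

theorem am_neg_mul (a b : Am K) : -a * b = -(a * b) := neg_mul a b

theorem am_mul_neg (a b : Am K) : a * -b = -(a * b) := mul_neg a b

theorem algebraMap_am (c : K) : algebraMap K (Am K) c = SkewMonoidAlgebra.single 1 (C c) := rfl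

theorem single_mul_gx (l : Sh) (q : Pol K) :
    SkewMonoidAlgebra.single l q * gx K = SkewMonoidAlgebra.single (l * sh 1 0) q := by
  simp only [gx, mon, SkewMonoidAlgebra.single_mul_single, smul_one_pol, mul_one]

theorem single_mul_gy (l : Sh) (q : Pol K) :
    SkewMonoidAlgebra.single l q * gy K = SkewMonoidAlgebra.single (l * sh 0 1) q := by
  simp only [gy, mon, SkewMonoidAlgebra.single_mul_single, smul_one_pol, mul_one]

theorem single_mul_gdx (l : Sh) (q : Pol K) :
    SkewMonoidAlgebra.single (l * sh 1 0) q * gdx K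
      = SkewMonoidAlgebra.single l ((X 0 - C ((l.co 0 : ℤ) : K)) * q) := by
  simp only [gdx, mon, SkewMonoidAlgebra.single_mul_single]
  have e : l * sh 1 0 * sh (-1) 0 = l := Sh.ext' fun i => by fin_cases i <;> simp
  rw [e, smul_add, smul_one_pol, trans_apply_X]
  congr 1
  simp; ring

theorem single_mul_gdy (l : Sh) (q : Pol K) :
    SkewMonoidAlgebra.single (l * sh 0 1) q * gdy K
      = SkewMonoidAlgebra.single l ((X 1 - C ((l.co 1 : ℤ) : K)) * q) := by
  simp only [gdy, mon, SkewMonoidAlgebra.single_mul_single]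
  have e : l * sh 0 1 * sh 0 (-1) = l := Sh.ext' fun i => by fin_cases i <;> simp
  rw [e, smul_add, smul_one_pol, trans_apply_X]
  congr 1
  simp; ring

theorem mul_gx_cancel {a : Am K} (h : a * gx K = 0) : a = 0 := by
  refine SkewMonoidAlgebra.ext fun k => ?_
  have := congrArg (fun z : Am K => z.coeff (k * sh 1 0)) h
  simpa [coeff_mul_gx] using this

theorem mul_gdy_cancel {a : Am K} (h : a * gdy K = 0) : a = 0 := by
  refine SkewMonoidAlgebra.ext fun k => ?_
  have := congrArg (fun z : Am K => z.coeff (k * (sh 0 1)⁻¹)) h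
  simp only [coeff_mul_gdy, inv_mul_cancel_right, SkewMonoidAlgebra.coeff_zero,
    Finsupp.zero_apply, mul_eq_zero] at this
  rcases this with h1 | h1
  · simpa using h1
  · have := congrArg totalDegree (sub_eq_zero.mp h1)
    rw [totalDegree_X, totalDegree_C] at this
    exact absurd this one_ne_zero

theorem sum_pieces (z : Am K) :
    ∑ k ∈ z.coeff.support, SkewMonoidAlgebra.single k (z.coeff k) = z := z.sum_single

/-- writing a weight `w ≥ 0` element by `x`, `y` and a constant -/
theorem img_xy [CharZero K] {w d : ℤ} {z : Am K} (hw : 0 ≤ w) (hz : InW K w d z) :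
    ∃ a b, ∃ c : K, InW K (w - 1) (d - 1) a ∧ InW K (w - 1) (d - 1) b ∧
      a * gx K + b * gy K + algebraMap K (Am K) c = z ∧ (c ≠ 0 → w = 0 ∧ 0 ≤ d) := by
  classical
  by_cases hw1 : 1 ≤ w
  · obtain ⟨a, b, ha, hb, e⟩ := img_xy_one hw1 hz
    exact ⟨a, b, 0, ha, hb, by simpa using e, fun h => absurd rfl h⟩
  have hw0 : w = 0 := by omega
  obtain ⟨q0, q1, c, hp, hd0, hd1⟩ := exists_split (-1 : K) (-1 : K) (z.coeff 1)
  set u : Pol K := (X 0 - C (-1 : K)) * q0 with hu
  set v : Pol K := (X 1 - C (-1 : K)) * q1 with hv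
  have hdeg : ∀ (i : Fin 2) (q : Pol K), (q = 0 ∨ q.totalDegree + 1 ≤ (z.coeff 1).totalDegree) →
      (X i - C (-1 : K)) * q ≠ 0 →
      w + 2 * ((z.coeff 1).totalDegree : ℤ) ≤ d ∧
      ((X i - C (-1 : K)) * q).totalDegree ≤ (z.coeff 1).totalDegree := by
    intro i q hq hne
    have hq0 : q ≠ 0 := fun h => hne (by rw [h, mul_zero])
    have h1 : q.totalDegree + 1 ≤ (z.coeff 1).totalDegree := hq.resolve_left hq0
    refine ⟨(hz 1 fun h => by rw [h] at h1; simp at h1).2.1,
      (totalDegree_mul _ _).trans ?_⟩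
    have : (X i - C (-1 : K) : Pol K).totalDegree ≤ 1 := (totalDegree_sub _ _).trans (by simp)
    omega
  let z' : Am K := z - SkewMonoidAlgebra.single 1 (z.coeff 1)
  have hz' : InW K w d z' := fun k => by
    by_cases e : k = 1
    · subst e; simp [z']
    · have : z'.coeff k = z.coeff k := by
        simp [z', Ne.symm e]
      rw [this]; exact hz k
  let S := z'.coeff.support
  refine ⟨(∑ k ∈ S with 1 ≤ k.co 0, SkewMonoidAlgebra.single (k * (sh 1 0)⁻¹) (z'.coeff k))
      + SkewMonoidAlgebra.single (sh 1 0)⁻¹ u,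
    (∑ k ∈ S with ¬(1 ≤ k.co 0), SkewMonoidAlgebra.single (k * (sh 0 1)⁻¹) (z'.coeff k))
      + SkewMonoidAlgebra.single (sh 0 1)⁻¹ v, c, ?_, ?_, ?_, fun hc => ⟨hw0, ?_⟩⟩
  · refine inW_add (inW_sum _ fun k hk => inW_single fun h => ?_) (inW_single fun h => ?_)
    · obtain ⟨e1, e2, e3⟩ := hz' k h
      have h0 : 1 ≤ k.co 0 := (Finset.mem_filter.mp hk).2
      refine ⟨by simp; omega, by omega, fun i t h1 h2 => ?_⟩
      fin_cases i
      · simp at h1; omega
      · exact e3 1 t (by simpa using h1) h2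
    · obtain ⟨f1, f2⟩ := hdeg 0 q0 hd0 h
      rw [← hu] at f2
      refine ⟨by simp; omega, by omega, fun i t h1 h2 => ?_⟩
      fin_cases i
      · simp at h1
        obtain rfl : t = -1 := by omega
        rw [hu, map_mul]
        simp [ev]
      · simp at h1; omega
  · refine inW_add (inW_sum _ fun k hk => inW_single fun h => ?_) (inW_single fun h => ?_)
    · obtain ⟨e1, e2, e3⟩ := hz' k h
      have h0 : ¬(1 ≤ k.co 0) := (Finset.mem_filter.mp hk).2
      have h1 : k ≠ 1 := fun e => by subst e; simp [z'] at h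
      have h2' : 1 ≤ k.co 1 := by
        by_contra hc
        exact h1 (Sh.ext' fun i => by fin_cases i <;> simp <;> omega)
      refine ⟨by simp; omega, by omega, fun i t h1 h2 => ?_⟩
      fin_cases i
      · exact e3 0 t (by simpa using h1) h2
      · simp at h1; omega
    · obtain ⟨f1, f2⟩ := hdeg 1 q1 hd1 h
      rw [← hv] at f2
      refine ⟨by simp; omega, by omega, fun i t h1 h2 => ?_⟩
      fin_cases i
      · simp at h1; omega
      · simp at h1
        obtain rfl : t = -1 := by omega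
        rw [hv, map_mul]
        simp [ev]
  · rw [add_mul, add_mul, Finset.sum_mul, Finset.sum_mul, single_mul_gx, single_mul_gy,
      inv_mul_cancel, inv_mul_cancel, algebraMap_am,
      Finset.sum_congr rfl fun k _ => single_mul_gx (k * (sh 1 0)⁻¹) (z'.coeff k),
      Finset.sum_congr rfl fun k _ => single_mul_gy (k * (sh 0 1)⁻¹) (z'.coeff k)]
    simp only [inv_mul_cancel_right]
    have e1 := Finset.sum_filter_add_sum_filter_not S (fun k => 1 ≤ k.co 0)
      (fun k => (SkewMonoidAlgebra.single k (z'.coeff k) : Am K))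
    rw [sum_pieces z'] at e1
    have e2 : (SkewMonoidAlgebra.single 1 u : Am K) + SkewMonoidAlgebra.single 1 v
        + SkewMonoidAlgebra.single 1 (C c) = SkewMonoidAlgebra.single 1 (z.coeff 1) := by
      rw [← SkewMonoidAlgebra.single_add, ← SkewMonoidAlgebra.single_add, hp]
    show _ = z
    calc _ = (∑ k ∈ S with 1 ≤ k.co 0, SkewMonoidAlgebra.single k (z'.coeff k)
          + ∑ k ∈ S with ¬(1 ≤ k.co 0), SkewMonoidAlgebra.single k (z'.coeff k))
          + (SkewMonoidAlgebra.single 1 u + SkewMonoidAlgebra.single 1 v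
            + SkewMonoidAlgebra.single 1 (C c)) := by abel
      _ = z' + SkewMonoidAlgebra.single 1 (z.coeff 1) := by rw [e1, e2]
      _ = z := sub_add_cancel _ _
  · by_contra hd
    have : z.coeff 1 = 0 := by
      by_contra h
      have := (hz 1 h).2.1
      omega
    rw [this] at hp hd0 hd1
    simp at hd0 hd1
    rw [hu, hv, hd0, hd1] at hp
    simp at hp
    exact hc (by simpa using hp.symm)

/-- the kernel for `∂x`, `∂y` -/
theorem ker_d [CharZero K] {w d : ℤ} {a b : Am K} (ha : InW K w d a)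
    (h : a * gdx K + b * gdy K = 0) :
    ∃ s, InW K (w + 1) (d - 1) s ∧ a = s * gdy K ∧ b = -(s * gdx K) := by
  classical
  have hdiv : ∀ l : Sh, ∃ q, a.coeff l = (X 1 - C ((l.co 1 : ℤ) : K)) * q ∧
      (q = 0 ∨ q.totalDegree + 1 ≤ (a.coeff l).totalDegree) := by
    intro l
    have h0 : ev 1 ((l.co 1 : ℤ) : K) (a.coeff l) = 0 := by
      have e := congrArg (fun z : Am K => z.coeff (l * (sh 1 0)⁻¹)) h
      simp only [SkewMonoidAlgebra.coeff_add, Finsupp.add_apply, coeff_mul_gdx, coeff_mul_gdy,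
        inv_mul_cancel_right, SkewMonoidAlgebra.coeff_zero, Finsupp.zero_apply] at e
      have e' := congrArg (ev 1 ((l.co 1 : ℤ) : K)) e
      simp only [map_add, map_mul, map_zero] at e'
      have hz : ev 1 ((l.co 1 : ℤ) : K)
          (X 1 - C (((l * (sh 1 0)⁻¹).co 1 : ℤ) : K)) = (0 : Pol K) := by
        simp [ev]
      rw [hz, mul_zero, add_zero] at e'
      exact (mul_eq_zero.mp e').resolve_right (ev_lin_ne_zero fun h => absurd h (by decide))
    obtain ⟨q, e, hq⟩ := exists_div 1 ((l.co 1 : ℤ) : K) (a.coeff l)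
    exact ⟨q, by rwa [h0, sub_zero] at e, hq⟩
  choose q hq hqd using hdiv
  let s : Am K := ∑ l ∈ a.coeff.support, SkewMonoidAlgebra.single (l * sh 0 1) (q l)
  have hs : a = s * gdy K := by
    rw [Finset.sum_mul]
    conv_lhs => rw [← sum_pieces a]
    exact Finset.sum_congr rfl fun l _ => by rw [single_mul_gdy, ← hq]
  refine ⟨s, ?_, hs, ?_⟩
  · refine inW_sum _ fun l hl => inW_single fun h0 => ?_
    have hl' : a.coeff l ≠ 0 := by simpa using hl
    obtain ⟨e1, e2, e3⟩ := ha l hl'
    have := (hqd l).resolve_left h0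
    refine ⟨by simp; omega, by omega, fun i t h1 h2 => ?_⟩
    fin_cases i
    · exact ev_quot (hq l) (e3 0 t (by simpa using h1) h2) fun h => absurd h (by decide)
    · simp at h1
      exact ev_quot (hq l) (e3 1 t (by omega) h2) fun _ he => by
        have := Int.cast_injective (α := K) he
        omega
  · refine eq_neg_of_add_eq_zero_left (mul_gdy_cancel ?_)
    have hc : gdx K * gdy K = gdy K * gdx K := by
      simp only [gdx, gdy, mon, SkewMonoidAlgebra.single_mul_single, smul_add, smul_one_pol,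
        trans_apply_X, co_sh_zero, co_sh_one]
      rw [mul_comm (sh (-1) 0)]
      congr 1
      simp; ring
    rw [add_mul, mul_assoc, hc, ← mul_assoc, ← hs, add_comm]
    exact h

/-- writing a weight `w ≤ 0` element by `∂x`, `∂y` and a constant -/
theorem img_d [CharZero K] {w d : ℤ} {z : Am K} (hw : w ≤ 0) (hz : InW K w d z) :
    ∃ a b, ∃ c : K, InW K (w + 1) (d - 1) a ∧ InW K (w + 1) (d - 1) b ∧
      a * gdx K + b * gdy K + algebraMap K (Am K) c = z ∧ (c ≠ 0 → w = 0 ∧ 0 ≤ d) := by
  classical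
  have key : ∀ k ∈ z.coeff.support, ∃ a b, ∃ c : K, InW K (w + 1) (d - 1) a ∧
      InW K (w + 1) (d - 1) b ∧ a * gdx K + b * gdy K + algebraMap K (Am K) c
        = SkewMonoidAlgebra.single k (z.coeff k) ∧ (c ≠ 0 → w = 0 ∧ 0 ≤ d) := by
    intro k hk
    have hk' : z.coeff k ≠ 0 := by simpa using hk
    obtain ⟨e1, e2, e3⟩ := hz k hk'
    by_cases h0 : k.co 0 < 0
    · obtain ⟨q, hq, hqd⟩ := exists_div 0 ((k.co 0 : ℤ) : K) (z.coeff k)
      have hz0 : ev 0 ((k.co 0 : ℤ) : K) (z.coeff k) = 0 := e3 0 _ le_rfl h0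
      rw [hz0, sub_zero] at hq
      refine ⟨SkewMonoidAlgebra.single (k * sh 1 0) q, 0, 0, inW_single fun hq0 => ?_,
        inW_zero _ _, by simp only [zero_mul, add_zero, map_zero]; rw [single_mul_gdx, ← hq], fun h => absurd rfl h⟩
      have := hqd.resolve_left hq0
      refine ⟨by simp; omega, by omega, fun i t h1 h2 => ?_⟩
      fin_cases i
      · simp at h1
        exact ev_quot hq (e3 0 t (by omega) h2) fun _ he => by
          have := Int.cast_injective (α := K) he
          omega
      · exact ev_quot hq (e3 1 t (by simpa using h1) h2) fun h => absurd h (by decide)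
    by_cases h1 : k.co 1 < 0
    · obtain ⟨q, hq, hqd⟩ := exists_div 1 ((k.co 1 : ℤ) : K) (z.coeff k)
      have hz0 : ev 1 ((k.co 1 : ℤ) : K) (z.coeff k) = 0 := e3 1 _ le_rfl h1
      rw [hz0, sub_zero] at hq
      refine ⟨0, SkewMonoidAlgebra.single (k * sh 0 1) q, 0, inW_zero _ _,
        inW_single fun hq0 => ?_, by simp only [zero_mul, zero_add, add_zero, map_zero]; rw [single_mul_gdy, ← hq], fun h => absurd rfl h⟩
      have := hqd.resolve_left hq0
      refine ⟨by simp; omega, by omega, fun i t h1' h2 => ?_⟩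
      fin_cases i
      · exact ev_quot hq (e3 0 t (by simpa using h1') h2) fun h => absurd h (by decide)
      · simp at h1'
        exact ev_quot hq (e3 1 t (by omega) h2) fun _ he => by
          have := Int.cast_injective (α := K) he
          omega
    obtain rfl : k = 1 := Sh.ext' fun i => by fin_cases i <;> simp <;> omega
    have hw0 : w = 0 := by simp at e1; omega
    obtain ⟨q0, q1, c, hp, hd0, hd1⟩ := exists_split (0 : K) (0 : K) (z.coeff 1)
    refine ⟨SkewMonoidAlgebra.single (sh 1 0) q0, SkewMonoidAlgebra.single (sh 0 1) q1, c,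
      inW_single fun hq0 => ?_, inW_single fun hq0 => ?_, ?_, fun _ => ⟨hw0, by omega⟩⟩
    · have := hd0.resolve_left hq0
      exact ⟨by simp; omega, by omega, fun i t h1' h2 => by fin_cases i <;> simp at h1' <;> omega⟩
    · have := hd1.resolve_left hq0
      exact ⟨by simp; omega, by omega, fun i t h1' h2 => by fin_cases i <;> simp at h1' <;> omega⟩
    · have ex := single_mul_gdx (1 : Sh) q0
      have ey := single_mul_gdy (1 : Sh) q1
      rw [one_mul] at ex ey
      rw [ex, ey, algebraMap_am, ← SkewMonoidAlgebra.single_add, ← SkewMonoidAlgebra.single_add,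
        co_one, co_one]
      conv_rhs => rw [hp]
      simp
  choose! a b c ha hb he hc using key
  refine ⟨∑ k ∈ z.coeff.support, a k, ∑ k ∈ z.coeff.support, b k, ∑ k ∈ z.coeff.support, c k,
    inW_sum _ ha, inW_sum _ hb, ?_, fun hne => ?_⟩
  · rw [Finset.sum_mul, Finset.sum_mul, map_sum, ← Finset.sum_add_distrib,
      ← Finset.sum_add_distrib, Finset.sum_congr rfl he, sum_pieces]
  · obtain ⟨k, hk, hk0⟩ := Finset.exists_ne_zero_of_sum_ne_zero hne
    exact hc k hk hk0

theorem mul_gy_cancel {a : Am K} (h : a * gy K = 0) : a = 0 := by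
  refine SkewMonoidAlgebra.ext fun k => ?_
  have := congrArg (fun z : Am K => z.coeff (k * sh 0 1)) h
  simpa [coeff_mul_gy] using this

theorem mul_gdx_cancel {a : Am K} (h : a * gdx K = 0) : a = 0 := by
  refine SkewMonoidAlgebra.ext fun k => ?_
  have := congrArg (fun z : Am K => z.coeff (k * (sh 1 0)⁻¹)) h
  simp only [coeff_mul_gdx, inv_mul_cancel_right, SkewMonoidAlgebra.coeff_zero,
    Finsupp.zero_apply, mul_eq_zero] at this
  rcases this with h1 | h1
  · simpa using h1
  · have := congrArg totalDegree (sub_eq_zero.mp h1)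
    rw [totalDegree_X, totalDegree_C] at this
    exact absurd this one_ne_zero

/-- constants are not combinations of `x` and `y` -/
theorem const_xy [CharZero K] {w d : ℤ} {a b : Am K} {c : K} (ha : InW K w d a) (hb : InW K w d b)
    (h : a * gx K + b * gy K = algebraMap K (Am K) c) : c = 0 := by
  have e := congrArg (fun z : Am K => eval ![(-1 : K), -1] (z.coeff 1)) h
  simp only [SkewMonoidAlgebra.coeff_add, Finsupp.add_apply, coeff_mul_gx, coeff_mul_gy, map_add,
    one_mul, algebraMap_am, SkewMonoidAlgebra.coeff_single, Finsupp.single_eq_same, eval_C] at e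
  have key : ∀ (i : Fin 2) (k : Sh) (p : Pol K), Okc K k w d p → k.co i ≤ -1 →
      eval ![(-1 : K), -1] p = 0 := by
    intro i k p hp hk
    by_cases hp0 : p = 0
    · simp [hp0]
    have h1 := (hp hp0).2.2 i (-1) hk (by norm_num)
    have h2 : (aeval ![(-1 : K), -1]).comp (ev i ((-1 : ℤ) : K)) = aeval ![(-1 : K), -1] := by
      apply MvPolynomial.algHom_ext; intro j
      by_cases hj : j = i
      · subst hj; rw [AlgHom.comp_apply, ev_X_self, aeval_C, aeval_X]; fin_cases j <;> simp
      · rw [AlgHom.comp_apply, ev_X_of_ne _ hj]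
    have h3 := DFunLike.congr_fun h2 p
    rw [AlgHom.comp_apply, h1, map_zero] at h3
    simpa [aeval_eq_eval] using h3.symm
  rw [key 0 _ _ (ha _) (by simp), key 1 _ _ (hb _) (by simp), add_zero] at e
  exact e.symm

/-- constants are not combinations of `∂x` and `∂y` -/
theorem const_d {a b : Am K} {c : K}
    (h : a * gdx K + b * gdy K = algebraMap K (Am K) c) : c = 0 := by
  have e := congrArg (fun z : Am K => eval ![(0 : K), 0] (z.coeff 1)) h
  simp only [SkewMonoidAlgebra.coeff_add, Finsupp.add_apply, coeff_mul_gdx, coeff_mul_gdy, map_add,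
    map_mul, map_sub, eval_X, eval_C, co_one, algebraMap_am, SkewMonoidAlgebra.coeff_single,
    Finsupp.single_eq_same] at e
  simpa using e.symm

end Vale.Agent.P195
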