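import Vale.Agent.P195.Win
import Vale.Agent.P195.Koszul

/-!
The resolution data at step zero, and the value of the three-cochain on it.
-/

namespace Vale.Agent.P195

open MvPolynomial

variable {K : Type} [Field K]

namespace Gen0

theorem single_mul_single' (a b c d : ℤ) (p q : Pol K) :
    mon K a b p * mon K c d q = mon K (a + c) (b + d) (p * trans K (sh a b) q) := by
  rw [SkewMonoidAlgebra.single_mul_single, smul_eq_trans]
  rfl

theorem one_eq_mon : (1 : Am K) = mon K 0 0 1 := rfl

theorem trans_X (a b : ℤ) (i : Fin 2) :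
    trans K (sh a b) (X i) = X i - C (((sh a b).co i : ℤ) : K) := by
  simp [trans]

theorem mon_add (a b : ℤ) (p q : Pol K) : mon K a b p + mon K a b q = mon K a b (p + q) :=
  (SkewMonoidAlgebra.single_add _ _ _).symm

theorem mon_neg (a b : ℤ) (p : Pol K) : -mon K a b p = mon K a b (-p) :=
  (SkewMonoidAlgebra.single_neg _ _).symm

theorem mon_sub (a b : ℤ) (p q : Pol K) : mon K a b p - mon K a b q = mon K a b (p - q) := by
  rw [sub_eq_add_neg, mon_neg, mon_add, sub_eq_add_neg]

theorem mon_zero (a b : ℤ) : mon K a b 0 = 0 := SkewMonoidAlgebra.single_zero _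

theorem D_mon (i : Fin 2) (a b : ℤ) (p : Pol K) : D K i (mon K a b p) = mon K a b (pderiv i p) := by
  refine SkewMonoidAlgebra.ext fun k => ?_
  by_cases h : k = sh a b
  · subst h; simp [D, mon, SkewMonoidAlgebra.coeff_single]
  · simp [D, mon, SkewMonoidAlgebra.coeff_single, Finsupp.single_eq_of_ne h]

theorem D_zero' (i : Fin 2) : D K i (0 : Am K) = 0 := by
  refine SkewMonoidAlgebra.ext fun k => ?_
  simp [D]

theorem D_one' (i : Fin 2) : D K i (1 : Am K) = 0 := by
  rw [one_eq_mon, D_mon, pderiv_one, mon, SkewMonoidAlgebra.single_zero]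

theorem piX_zero' : piX K (0 : Am K) = 0 := by simp [piX]

theorem piX_mon (a b : ℤ) (p : Pol K) : piX K (mon K a b p) = mon K a b (proj K (sh a b) p) := by
  have h0 : proj K (sh a b) (0 : Pol K) = 0 := by simp [proj]
  simp [piX, mon, SkewMonoidAlgebra.coeff_single, h0]

theorem proj_of_nonneg {a b : ℤ} (h : 0 ≤ b) (p : Pol K) : proj K (sh a b) p = p := by
  simp [proj, fall, Int.toNat_of_nonpos (neg_nonpos.2 h)]

theorem proj_zero' (k : Sh) : proj K k (0 : Pol K) = 0 := by simp [proj]

theorem proj_neg_one_one (a : ℤ) : proj K (sh a (-1)) (1 : Pol K) = 0 := by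
  have hm : (Polynomial.X + Polynomial.C (C ((1 : ℕ) : K)) :
      Polynomial (MvPolynomial (Fin 1) K)).Monic := Polynomial.monic_X_add_C _
  have h : ((1 : Polynomial (MvPolynomial (Fin 1) K)) /ₘ
      (Polynomial.X + Polynomial.C (C ((1 : ℕ) : K)))) = 0 := by
    rw [Polynomial.divByMonic_eq_zero_iff hm, Polynomial.degree_X_add_C, Polynomial.degree_one]
    norm_num
  simp [proj, fall] at h ⊢
  simp [h]

theorem inW_mon {w d a b : ℤ} (p : Pol K) (hw : a + b = w) (hd : w + 2 * (p.totalDegree : ℤ) ≤ d)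
    (hv : ∀ (i : Fin 2) (t : ℤ), (sh a b).co i ≤ t → t < 0 → ev i ((t : ℤ) : K) p = 0) :
    InW K w d (mon K a b p) := by
  intro k hk
  by_cases h : k = sh a b
  · subst h
    simp only [mon, SkewMonoidAlgebra.coeff_single, Finsupp.single_eq_same] at hk ⊢
    exact ⟨by simpa using hw, hd, fun i t h1 h2 => hv i t h1 h2⟩
  · exact absurd (by simp [mon, SkewMonoidAlgebra.coeff_single, Finsupp.single_eq_of_ne h]) hk

theorem inW_zero (w d : ℤ) : InW K w d (0 : Am K) := fun k hk => absurd (by simp) hk

/-- an element at the pair of vertices `(v, w)`, in both blocks -/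
noncomputable def blk (v w : V) (a : Am K) : Big K :=
  Matrix.of fun s t => if s.1 = t.1 ∧ s.2 = v ∧ t.2 = w then a else 0

theorem blk_apply (v w : V) (a : Am K) (s t : Fin 2 × V) :
    blk v w a s t = if s.1 = t.1 ∧ s.2 = v ∧ t.2 = w then a else 0 := rfl

theorem blk_mul (v w u : V) (a b : Am K) : blk v w a * blk w u b = blk v u (a * b) := by
  ext1 s t
  rw [Matrix.mul_apply, Finset.sum_eq_single (s.1, w)]
  · by_cases h1 : s.2 = v <;> by_cases h2 : t.2 = u <;> by_cases h3 : s.1 = t.1 <;>
      simp [blk_apply, h1, h2, h3]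
  · rintro ⟨r, z⟩ - hne
    have : ¬(s.1 = r ∧ s.2 = v ∧ z = w) := fun h => hne (by simp [h.1, h.2.2])
    simp [blk_apply, this]
  · simp

theorem blk_add (v w : V) (a b : Am K) : blk v w (a + b) = blk v w a + blk v w b := by
  ext1 s t
  by_cases h : s.1 = t.1 ∧ s.2 = v ∧ t.2 = w <;> simp [blk_apply, h]

theorem blk_zero (v w : V) : blk v w (0 : Am K) = 0 := by
  ext1 s t; simp [blk_apply]

theorem blk_InA {v w : V} {a : Am K} (h : InW K (off v - off w) (lev v - lev w) a) :
    InA K (blk v w a) := by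
  refine ⟨fun v' w' => by simp [blk_apply], fun v' w' => by simp [blk_apply], fun v' w' => ?_,
    fun v' w' => by simpa [blk_apply] using inW_zero _ _⟩
  by_cases h' : v' = v ∧ w' = w
  · obtain ⟨rfl, rfl⟩ := h'
    simpa [blk_apply] using h
  · simpa [blk_apply, h'] using inW_zero _ _

theorem hm_apply (s t : Big K) (i j : Fin 2 × V) :
    hm K s t i j = piX K (∑ l, D K 0 (s i l) * D K 1 (t l j)) := rfl

theorem hm_blk (v w u : V) (a b : Am K) :
    hm K (blk v w a) (blk w u b) = blk v u (piX K (D K 0 a * D K 1 b)) := by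
  ext1 s t
  rw [hm_apply, Finset.sum_eq_single (s.1, w)]
  · by_cases h1 : s.2 = v <;> by_cases h2 : t.2 = u <;> by_cases h3 : s.1 = t.1 <;>
      simp [blk_apply, h1, h2, h3, D_zero', piX_zero']
  · rintro ⟨r, z⟩ - hne
    have : ¬(s.1 = r ∧ s.2 = v ∧ z = w) := fun h => hne (by simp [h.1, h.2.2])
    simp [blk_apply, this, D_zero']
  · simp

/-- the scalar three-cochain -/
noncomputable def th (a b c : Am K) : Am K :=
  a * piX K (D K 0 b * D K 1 c) - piX K (D K 0 (a * b) * D K 1 c)
    + piX K (D K 0 a * D K 1 (b * c)) - piX K (D K 0 a * D K 1 b) * c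

theorem thm3_blk (v w u z : V) (a b c : Am K) :
    thm3 K (blk v w a) (blk w u b) (blk u z c) = blk v z (th a b c) := by
  rw [thm3, th, blk_mul, blk_mul, hm_blk, hm_blk, hm_blk, hm_blk, blk_mul, blk_mul]
  ext1 s t
  by_cases h : s.1 = t.1 ∧ s.2 = v ∧ t.2 = z <;> simp [blk_apply, h]

/-- the idempotent of a vertex -/
noncomputable def vertex (v : V) : Big K :=
  Matrix.diagonal fun s => if s.2 = v then 1 else 0

theorem vertex_eq_blk (v : V) : vertex v = blk v v (1 : Am K) := by
  ext1 s t
  by_cases h : s = t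
  · subst h
    by_cases h' : s.2 = v <;> simp [vertex, blk_apply, h']
  · rw [vertex, Matrix.diagonal_apply_ne _ h, blk_apply, if_neg]
    rintro ⟨h1, h2, h3⟩
    exact h (Prod.ext h1 (h2.trans h3.symm))

theorem vertex_mul_apply (v : V) (b : Big K) (s t : Fin 2 × V) :
    (vertex v * b : Big K) s t = if s.2 = v then b s t else 0 := by
  simp [vertex, Matrix.diagonal_mul]

theorem mul_vertex_apply (v : V) (b : Big K) (s t : Fin 2 × V) :
    (b * vertex v : Big K) s t = if t.2 = v then b s t else 0 := by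
  simp [vertex, Matrix.mul_diagonal]

theorem hm_vertex_left (v : V) (b : Big K) : hm K (vertex v) b = 0 := by
  ext1 s t
  have : ∀ l, D K 0 ((vertex v : Big K) s l) = 0 := fun l => by
    rw [vertex, Matrix.diagonal_apply]
    split_ifs <;> simp [D_one', D_zero']
  simp [hm_apply, this, piX_zero']

theorem hm_vertex_right (v : V) (a : Big K) : hm K a (vertex v) = 0 := by
  ext1 s t
  have : ∀ l, D K 1 ((vertex v : Big K) l t) = 0 := fun l => by
    rw [vertex, Matrix.diagonal_apply]
    split_ifs <;> simp [D_one', D_zero']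
  simp [hm_apply, this, piX_zero']

theorem hm_vertex_mul (v : V) (b c : Big K) : hm K (vertex v * b) c = vertex v * hm K b c := by
  ext1 s t
  by_cases h : s.2 = v <;>
    simp [vertex_mul_apply, hm_apply, h, D_zero', piX_zero']

theorem hm_mul_vertex (v : V) (a b : Big K) : hm K a (b * vertex v) = hm K a b * vertex v := by
  ext1 s t
  by_cases h : t.2 = v <;>
    simp [mul_vertex_apply, hm_apply, h, D_zero', piX_zero']

theorem hm_vertex_mid (v : V) (a c : Big K) : hm K (a * vertex v) c = hm K a (vertex v * c) := by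
  ext1 s t
  rw [hm_apply, hm_apply]
  refine congrArg (piX K) (Finset.sum_congr rfl fun l _ => ?_)
  rw [mul_vertex_apply, vertex_mul_apply]
  split_ifs
  · rfl
  · rw [D_zero', D_zero', zero_mul, mul_zero]

theorem thm3_vertex_left (v : V) (b c : Big K) : thm3 K (vertex v) b c = 0 := by
  simp [thm3, hm_vertex_mul, hm_vertex_left]

theorem thm3_vertex_mid (v : V) (a c : Big K) : thm3 K a (vertex v) c = 0 := by
  simp [thm3, hm_vertex_left, hm_vertex_right, hm_vertex_mid]

theorem thm3_vertex_right (v : V) (a b : Big K) : thm3 K a b (vertex v) = 0 := by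
  simp [thm3, hm_vertex_right, hm_mul_vertex]

/-- the vertices of the four terms -/
def vert (p : Fin 4) : V := ![(0, 0), (1, 1), (2, 1), (3, 0)] p

variable (K) in
/-- scalar entries of the first differential -/
noncomputable def c₁ (j : Fin 2) : Am K := ![-gdy K, gdx K] j

variable (K) in
/-- scalar entries of the second differential -/
noncomputable def c₂ (i j : Fin 2) : Am K :=
  ![![1 - gdx K * gx K, -(gdy K * gx K)], ![-(gdx K * gy K), 1 - gdy K * gy K]] i j

variable (K) in
/-- scalar entries of the third differential -/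
noncomputable def c₃ (i : Fin 2) : Am K := ![gy K, -gx K] i

theorem c2_00 : c₂ K 0 0 = mon K 0 0 (-X 0) := by
  show (1 : Am K) - gdx K * gx K = _
  rw [gdx, gx, single_mul_single', map_one, mul_one, one_eq_mon]
  simp only [neg_add_cancel, add_zero]
  rw [mon_sub]
  congr 1
  ring

theorem c2_11 : c₂ K 1 1 = mon K 0 0 (-X 1) := by
  show (1 : Am K) - gdy K * gy K = _
  rw [gdy, gy, single_mul_single', map_one, mul_one, one_eq_mon]
  simp only [neg_add_cancel, add_zero]
  rw [mon_sub]
  congr 1
  ring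

theorem c2_01 : c₂ K 0 1 = mon K 1 (-1) (-(X 1 + 1)) := by
  show -(gdy K * gx K) = _
  rw [gdy, gx, single_mul_single', map_one, mul_one]
  simp only [zero_add, add_zero]
  exact mon_neg _ _ _

theorem c2_10 : c₂ K 1 0 = mon K (-1) 1 (-(X 0 + 1)) := by
  show -(gdx K * gy K) = _
  rw [gdx, gy, single_mul_single', map_one, mul_one]
  simp only [zero_add, add_zero]
  exact mon_neg _ _ _

theorem c1_0 : c₁ K 0 = mon K 0 (-1) (-(X 1 + 1)) := by
  show -gdy K = _
  exact mon_neg _ _ _

theorem c1_1 : c₁ K 1 = mon K (-1) 0 (X 0 + 1) := rfl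

theorem c3_0 : c₃ K 0 = mon K 0 1 1 := rfl

theorem c3_1 : c₃ K 1 = mon K 1 0 (-1) := by
  show -gx K = _
  exact mon_neg _ _ _

variable (K) in
/-- the first differential -/
noncomputable def d1M (j : Fin 2) : Big K := blk (vert 1) (vert 0) (c₁ K j)

variable (K) in
/-- the second differential -/
noncomputable def d2M (i j : Fin 2) : Big K := blk (vert 2) (vert 1) (c₂ K i j)

variable (K) in
/-- the third differential -/
noncomputable def d3M (i : Fin 2) : Big K := blk (vert 3) (vert 2) (c₃ K i)

theorem vertex_InA (v : V) : InA K (vertex v) := by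
  rw [vertex_eq_blk, one_eq_mon]
  refine blk_InA (inW_mon _ (by simp) (by simp) fun i t h1 h2 => ?_)
  exfalso
  fin_cases i <;> simp at h1 <;> omega

theorem vertex_idem (v : V) : vertex v * vertex v = (vertex v : Big K) := by
  rw [vertex_eq_blk, blk_mul, mul_one]

theorem totalDegree_lin (i : Fin 2) : (X i + 1 : Pol K).totalDegree ≤ 1 :=
  (totalDegree_add _ _).trans (by simp)

theorem d1M_InA (j : Fin 2) : InA K (d1M K j) := by
  refine blk_InA ?_
  fin_cases j
  · show InW K _ _ (c₁ K 0)
    rw [c1_0]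
    refine inW_mon _ rfl ?_ fun i t h1 h2 => ?_
    · have := totalDegree_lin (K := K) 1
      rw [totalDegree_neg]
      simp [vert, off, lev]
      omega
    · fin_cases i
      · simp at h1; omega
      · obtain rfl : t = -1 := by simp at h1; omega
        simp [ev]
  · show InW K _ _ (c₁ K 1)
    rw [c1_1]
    refine inW_mon _ rfl ?_ fun i t h1 h2 => ?_
    · have := totalDegree_lin (K := K) 0
      simp [vert, off, lev]
      omega
    · fin_cases i
      · obtain rfl : t = -1 := by simp at h1; omega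
        simp [ev]
      · simp at h1; omega

theorem d2M_InA (i j : Fin 2) : InA K (d2M K i j) := by
  refine blk_InA ?_
  have h0 := totalDegree_lin (K := K) 0
  have h1' := totalDegree_lin (K := K) 1
  fin_cases i <;> fin_cases j
  · show InW K _ _ (c₂ K 0 0)
    rw [c2_00]
    refine inW_mon _ rfl ?_ fun i t h1 h2 => ?_
    · simp [vert, off, lev]
    · fin_cases i <;> simp at h1 <;> omega
  · show InW K _ _ (c₂ K 0 1)
    rw [c2_01]
    refine inW_mon _ rfl ?_ fun i t h1 h2 => ?_
    · rw [totalDegree_neg]; simp [vert, off, lev]; omega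
    · fin_cases i
      · simp at h1; omega
      · obtain rfl : t = -1 := by simp at h1; omega
        simp [ev]
  · show InW K _ _ (c₂ K 1 0)
    rw [c2_10]
    refine inW_mon _ rfl ?_ fun i t h1 h2 => ?_
    · rw [totalDegree_neg]; simp [vert, off, lev]; omega
    · fin_cases i
      · obtain rfl : t = -1 := by simp at h1; omega
        simp [ev]
      · simp at h1; omega
  · show InW K _ _ (c₂ K 1 1)
    rw [c2_11]
    refine inW_mon _ rfl ?_ fun i t h1 h2 => ?_
    · simp [vert, off, lev]
    · fin_cases i <;> simp at h1 <;> omega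

theorem d3M_InA (i : Fin 2) : InA K (d3M K i) := by
  refine blk_InA ?_
  fin_cases i
  · show InW K _ _ (c₃ K 0)
    rw [c3_0]
    refine inW_mon _ rfl ?_ fun i t h1 h2 => ?_
    · simp [vert, off, lev]
    · fin_cases i <;> simp at h1 <;> omega
  · show InW K _ _ (c₃ K 1)
    rw [c3_1]
    refine inW_mon _ rfl ?_ fun i t h1 h2 => ?_
    · simp [vert, off, lev]
    · fin_cases i <;> simp at h1 <;> omega

theorem d1M_eq (j : Fin 2) : vertex (vert 1) * d1M K j * vertex (vert 0) = d1M K j := by
  rw [d1M, vertex_eq_blk, vertex_eq_blk, blk_mul, blk_mul, one_mul, mul_one]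

theorem d2M_eq (i j : Fin 2) : vertex (vert 2) * d2M K i j * vertex (vert 1) = d2M K i j := by
  rw [d2M, vertex_eq_blk, vertex_eq_blk, blk_mul, blk_mul, one_mul, mul_one]

theorem d3M_eq (i : Fin 2) : vertex (vert 3) * d3M K i * vertex (vert 2) = d3M K i := by
  rw [d3M, vertex_eq_blk, vertex_eq_blk, blk_mul, blk_mul, one_mul, mul_one]

theorem d32M (j : Fin 2) : ∑ i, d3M K i * d2M K i j = 0 := by
  rw [Fin.sum_univ_two, d3M, d3M, d2M, d2M, blk_mul, blk_mul, ← blk_add]
  have h : c₃ K 0 * c₂ K 0 j + c₃ K 1 * c₂ K 1 j = 0 := by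
    fin_cases j
    · show c₃ K 0 * c₂ K 0 0 + c₃ K 1 * c₂ K 1 0 = 0
      rw [c3_0, c3_1, c2_00, c2_10, single_mul_single', single_mul_single']
      norm_num only
      rw [mon_add, show (1 * trans K (sh 0 1) (-X 0) + -1 * trans K (sh 1 0) (-(X 0 + 1)) : Pol K) = 0
        by simp [trans_X], mon_zero]
    · show c₃ K 0 * c₂ K 0 1 + c₃ K 1 * c₂ K 1 1 = 0
      rw [c3_0, c3_1, c2_01, c2_11, single_mul_single', single_mul_single']
      norm_num only
      rw [mon_add, show (1 * trans K (sh 0 1) (-(X 1 + 1)) + -1 * trans K (sh 1 0) (-X 1) : Pol K) = 0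
        by simp [trans_X]; ring, mon_zero]
  rw [h, blk_zero]

theorem d21M (i : Fin 2) : ∑ j, d2M K i j * d1M K j = 0 := by
  rw [Fin.sum_univ_two, d2M, d2M, d1M, d1M, blk_mul, blk_mul, ← blk_add]
  have h : c₂ K i 0 * c₁ K 0 + c₂ K i 1 * c₁ K 1 = 0 := by
    fin_cases i
    · show c₂ K 0 0 * c₁ K 0 + c₂ K 0 1 * c₁ K 1 = 0
      rw [c2_00, c2_01, c1_0, c1_1, single_mul_single', single_mul_single']
      norm_num only
      rw [mon_add, show ((-X 0) * trans K (sh 0 0) (-(X 1 + 1))
        + -(X 1 + 1) * trans K (sh 1 (-1)) (X 0 + 1) : Pol K) = 0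
        by simp [trans_X]; ring, mon_zero]
    · show c₂ K 1 0 * c₁ K 0 + c₂ K 1 1 * c₁ K 1 = 0
      rw [c2_10, c2_11, c1_0, c1_1, single_mul_single', single_mul_single']
      norm_num only
      rw [mon_add, show (-(X 0 + 1) * trans K (sh (-1) 1) (-(X 1 + 1))
        + (-X 1) * trans K (sh 0 0) (X 0 + 1) : Pol K) = 0
        by simp [trans_X]; ring, mon_zero]
  rw [h, blk_zero]

theorem th_mon {a b c d e f : ℤ} (p q r : Pol K) (hp : pderiv 0 p = 0) :
    th (mon K a b p) (mon K c d q) (mon K e f r)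
      = mon K (a + (c + e)) (b + (d + f))
          (p * trans K (sh a b) (proj K (sh (c + e) (d + f))
              (pderiv 0 q * trans K (sh c d) (pderiv 1 r)))
            - proj K (sh (a + (c + e)) (b + (d + f)))
              (pderiv 0 (p * trans K (sh a b) q) * trans K (sh (a + c) (b + d)) (pderiv 1 r))) := by
  have h0 : D K 0 (mon K a b p) = 0 := by rw [D_mon, hp, mon_zero]
  simp only [th, h0, zero_mul, piX_zero', add_zero, sub_zero]
  rw [D_mon, D_mon, single_mul_single', single_mul_single', piX_mon, single_mul_single', D_mon,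
    single_mul_single', piX_mon, add_assoc a c e, add_assoc b d f, mon_sub]

theorem th_sum : ∑ i, ∑ j, th (c₃ K i) (c₂ K i j) (c₁ K j) = mon K 0 0 (-1) := by
  simp only [Fin.sum_univ_two]
  rw [c3_0, c3_1, c2_00, c2_01, c2_10, c2_11, c1_0, c1_1,
    th_mon _ _ _ pderiv_one, th_mon _ _ _ pderiv_one, th_mon _ _ _ (by simp), th_mon _ _ _ (by simp)]
  norm_num only
  rw [mon_add, mon_add, mon_add]
  congr 1
  simp [trans_X, pderiv_X, proj_of_nonneg, proj_neg_one_one, proj_zero']

theorem thm3_sum : ∑ i, ∑ j, thm3 K (d3M K i) (d2M K i j) (d1M K j)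
    = blk (vert 3) (vert 0) (mon K 0 0 (-1)) := by
  rw [← th_sum]
  simp only [d1M, d2M, d3M, thm3_blk, Fin.sum_univ_two, blk_add]

/-- the obstruction class is nonzero at step zero -/
theorem thm3_sum_act : actFn K ((∑ i, ∑ j, thm3 K (d3M K i) (d2M K i j) (d1M K j))
    ((0, vert 3)) ((0, vert 0))) (Pi.single (0, 0) 1) (0, 0) = -1 := by
  rw [thm3_sum]
  rw [blk_apply, if_pos ⟨rfl, rfl, rfl⟩]
  show (SkewMonoidAlgebra.coeff (mon K 0 0 (-1 : Pol K))).sum _ = (-1 : K)
  rw [SkewMonoidAlgebra.coeff_single, Finsupp.sum_single_index (by simp)]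
  simp

/-! ### The data inside the window algebra -/

theorem mat_injective : Function.Injective (mat K) := Subtype.val_injective

variable (K) in
/-- the idempotents of the four terms -/
noncomputable def eps (p : Fin 4) : A0 K := ofMat K (vertex (vert p)) (vertex_InA _)

variable (K) in
/-- the first differential -/
noncomputable def d₁A (j : Fin 2) : A0 K := ofMat K (d1M K j) (d1M_InA j)

variable (K) in
/-- the second differential -/
noncomputable def d₂A (i j : Fin 2) : A0 K := ofMat K (d2M K i j) (d2M_InA i j)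

variable (K) in
/-- the third differential -/
noncomputable def d₃A (i : Fin 2) : A0 K := ofMat K (d3M K i) (d3M_InA i)

theorem eps_idem (p : Fin 4) : eps K p * eps K p = eps K p := mat_injective (vertex_idem _)

theorem d₁A_eq (j : Fin 2) : eps K 1 * d₁A K j * eps K 0 = d₁A K j := mat_injective (d1M_eq j)

theorem d₂A_eq (i j : Fin 2) : eps K 2 * d₂A K i j * eps K 1 = d₂A K i j :=
  mat_injective (d2M_eq i j)

theorem d₃A_eq (i : Fin 2) : eps K 3 * d₃A K i * eps K 2 = d₃A K i := mat_injective (d3M_eq i)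

theorem d32A (j : Fin 2) : ∑ i, d₃A K i * d₂A K i j = 0 := by
  rw [Fin.sum_univ_two]
  refine mat_injective ?_
  have h := d32M (K := K) j
  rw [Fin.sum_univ_two] at h
  exact h

theorem d21A (i : Fin 2) : ∑ j, d₂A K i j * d₁A K j = 0 := by
  rw [Fin.sum_univ_two]
  refine mat_injective ?_
  have h := d21M (K := K) i
  rw [Fin.sum_univ_two] at h
  exact h

end Gen0

end Vale.Agent.P195
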