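import Vale.Agent.P195.Rows

/-!
The modules `H n` and the orbit `X n`, and the sequences `0 → X (n + 1) → H n → X n → 0`.
-/

namespace Vale.Agent.P195

variable (K : Type) [Field K]

/-- polynomials of degree `n + w` in the piece of weight `w` -/
def qH (n : ℤ) : QProp K (Fn K) where
  mem w _ f := f ∈ Hom2 K (n + w)
  zero _ _ := Submodule.zero_mem _
  add hx hy := Submodule.add_mem _ hx hy
  smul {w w' d d' a x} ha hx := by
    have := actFn_hom2 ha hx
    rwa [show n + w' + (w - w') = n + w by ring] at this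

/-- the extension of `X n` by `X (n + 1)` -/
noncomputable abbrev HM (n : ℕ) : Submodule (A0 K) (MV K (Fn K)) := rowSub (qH K n)

/-- the orbit module -/
noncomputable def XM (n : ℕ) : Submodule (A0 K) (MV K (Fn K)) where
  carrier := {z | ∀ r, z (1, r) = 0 ∧ z (0, r) ∈ Hom2 K ((n : ℤ) + off r)}
  zero_mem' _ := ⟨rfl, Submodule.zero_mem _⟩
  add_mem' {y z} hy hz r := ⟨by show y (1, r) + z (1, r) = 0; rw [(hy r).1, (hz r).1, add_zero],
    Submodule.add_mem _ (hy r).2 (hz r).2⟩
  smul_mem' s z hz r := by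
    refine ⟨?_, ?_⟩
    · rw [smul_mv_one]
      exact Finset.sum_eq_zero fun v _ => by rw [(hz v).1, smul_zero]
    · rw [smul_mv_zero, Finset.sum_eq_zero (s := Finset.univ)
        (f := fun v => mat K s (0, r) (1, v) • z (1, v))
        fun v _ => by rw [(hz v).1, smul_zero], add_zero]
      refine Submodule.sum_mem _ fun v _ => ?_
      have := actFn_hom2 ((mat_mem s).base r v) (hz v).2
      rwa [show (n : ℤ) + off v + (off r - off v) = n + off r by ring] at this

variable {K}

theorem mem_HM {n : ℕ} {z : MV K (Fn K)} : z ∈ HM K n ↔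
    ∀ r, z (1, r) ∈ Hom2 K ((n : ℤ) + off r) ∧ z (0, r) ∈ Hom2 K ((n : ℤ) + (off r + 1)) := Iff.rfl

theorem mem_XM {n : ℕ} {z : MV K (Fn K)} : z ∈ XM K n ↔
    ∀ r, z (1, r) = 0 ∧ z (0, r) ∈ Hom2 K ((n : ℤ) + off r) := Iff.rfl

variable (K)

/-- inclusion in the upper block -/
noncomputable def incX (n : ℕ) : XM K (n + 1) →ₗ[A0 K] HM K n :=
  Submodule.inclusion fun z hz r => ⟨by rw [(hz r).1]; exact Submodule.zero_mem _, by
    have := (hz r).2
    rwa [show ((n + 1 : ℕ) : ℤ) + off r = (n : ℤ) + (off r + 1) by push_cast; ring] at this⟩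

/-- the lower block, moved up -/
noncomputable def shiftUp : MV K (Fn K) →ₗ[A0 K] MV K (Fn K) where
  toFun z i := if i.1 = 0 then z (1, i.2) else 0
  map_add' y z := funext fun i => by
    by_cases h : i.1 = 0
    · show (if i.1 = 0 then y (1, i.2) + z (1, i.2) else 0)
        = (if i.1 = 0 then y (1, i.2) else 0) + (if i.1 = 0 then z (1, i.2) else 0)
      simp [h]
    · show (if i.1 = 0 then y (1, i.2) + z (1, i.2) else 0)
        = (if i.1 = 0 then y (1, i.2) else 0) + (if i.1 = 0 then z (1, i.2) else 0)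
      simp [h]
  map_smul' s z := funext fun i => by
    obtain ⟨a, r⟩ := i
    fin_cases a
    · exact (smul_mv_one s z r).trans (by
        rw [RingHom.id_apply]
        erw [smul_mv_zero]
        simp)
    · rw [RingHom.id_apply]
      exact ((smul_mv_one s _ r).trans (Finset.sum_eq_zero fun v _ => smul_zero _)).symm

theorem shiftUp_zero (z : MV K (Fn K)) (r : V) : shiftUp K z (0, r) = z (1, r) := rfl

theorem shiftUp_one (z : MV K (Fn K)) (r : V) : shiftUp K z (1, r) = 0 := rfl

/-- the projection to `X n` -/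
noncomputable def prX (n : ℕ) : HM K n →ₗ[A0 K] XM K n :=
  ((shiftUp K).comp (HM K n).subtype).codRestrict _ fun z r => ⟨rfl, (z.2 r).1⟩

theorem incX_injective (n : ℕ) : Function.Injective (incX K n) :=
  Submodule.inclusion_injective _

theorem prX_surjective (n : ℕ) : Function.Surjective (prX K n) := by
  intro x
  let z : MV K (Fn K) := fun i => if i.1 = 0 then 0 else x.1 (0, i.2)
  refine ⟨⟨z, fun r => ⟨(x.2 r).2, Submodule.zero_mem _⟩⟩, Subtype.ext (funext fun i => ?_)⟩
  obtain ⟨a, r⟩ := i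
  fin_cases a
  · rfl
  · exact (x.2 r).1.symm

theorem incX_prX_exact (n : ℕ) : Function.Exact (incX K n) (prX K n) := by
  intro z
  constructor
  · intro e
    have h1 : ∀ r, z.1 (1, r) = 0 := fun r => congrFun (congrArg Subtype.val e) (0, r)
    refine ⟨⟨z.1, fun r => ⟨h1 r, ?_⟩⟩, rfl⟩
    have := (z.2 r).2
    show z.1 (0, r) ∈ Hom2 K (((n + 1 : ℕ) : ℤ) + off r)
    rwa [show ((n + 1 : ℕ) : ℤ) + off r = (n : ℤ) + (off r + 1) by push_cast; ring]
  · rintro ⟨x, rfl⟩
    refine Subtype.ext (funext fun i => ?_)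
    obtain ⟨a, r⟩ := i
    fin_cases a
    · exact (x.2 r).1
    · rfl

end Vale.Agent.P195
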