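import Vale.Agent.P195.PMods
import Vale.Agent.P195.Pairing
import Vale.Agent.P195.Exact

/-!
Maps from the projective terms into the window algebra, as families of cochains: one cochain for
each block and column.
-/

namespace Vale.Agent.P195

variable {K : Type} [Field K]

theorem pair_inW {w v n D D' : ℤ} {q : Fin 4} {z φ : Zc K} (hz : Mem K w n D q z)
    (hφ : CoMem K v n D' q φ) : InW K (w + v) (D + D') (pair n z φ) := by
  refine inW_sum _ fun vp _ => inW_sum _ fun b _ => inW_sum _ fun m _ => ?_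
  by_cases h1 : z vp b m = 0
  · rw [h1, zero_mul]; exact inW_zero _ _
  by_cases h2 : φ vp b m = 0
  · rw [h2, mul_zero]; exact inW_zero _ _
  have := (hz vp b m h1).2.2.mul (hφ vp b m h2).2.2
  rwa [show w - ob vp + (ob vp + v) = w + v by ring,
    show D - lv q + (D' + lv q) = D + D' by ring] at this

theorem coMem_zero (v n D : ℤ) (q : Fin 4) : CoMem K v n D q (0 : Zc K) :=
  fun _ _ _ h => absurd rfl h

theorem coMem_add {v n D : ℤ} {q : Fin 4} {x y : Zc K} (hx : CoMem K v n D q x)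
    (hy : CoMem K v n D q y) : CoMem K v n D q (x + y) := fun vp b m h => by
  by_cases h1 : x vp b m = 0
  · have h2 : y vp b m ≠ 0 := fun e => h (by show x vp b m + y vp b m = 0; rw [h1, e, add_zero])
    obtain ⟨a1, a2, a3⟩ := hy vp b m h2
    refine ⟨a1, a2, ?_⟩
    show InW K _ _ (x vp b m + y vp b m)
    rwa [h1, zero_add]
  · obtain ⟨a1, a2, a3⟩ := hx vp b m h1
    refine ⟨a1, a2, inW_add a3 ?_⟩
    by_cases h2 : y vp b m = 0
    · rw [h2]; exact inW_zero _ _
    · exact (hy vp b m h2).2.2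

theorem coMem_neg {v n D : ℤ} {q : Fin 4} {x : Zc K} (hx : CoMem K v n D q x) :
    CoMem K v n D q (-x) := fun vp b m h => by
  obtain ⟨a1, a2, a3⟩ := hx vp b m fun e => h (by show -x vp b m = 0; rw [e]; exact neg_zero)
  exact ⟨a1, a2, inW_neg a3⟩

theorem coMem_sub {v n D : ℤ} {q : Fin 4} {x y : Zc K} (hx : CoMem K v n D q x)
    (hy : CoMem K v n D q y) : CoMem K v n D q (x - y) := by
  rw [sub_eq_add_neg]; exact coMem_add hx (coMem_neg hy)

/-- weight shift of a column block -/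
def cv (j : Fin 2 × V) : ℤ := (j.1.val : ℤ) - off j.2

/-- degree shift of a column block -/
def cD (j : Fin 2 × V) : ℤ := 2 * (j.1.val : ℤ) - lev j.2

theorem cv_cases (j : Fin 2 × V) : cv j = 0 ∨ cv j = 1 ∨ cv j = 2 := by
  obtain ⟨a, l, p⟩ := j
  fin_cases a <;> fin_cases p <;> simp [cv, off]

theorem cD_le (j : Fin 2 × V) : cv j = 2 → -2 ≤ cD j := by
  obtain ⟨a, l, p⟩ := j
  fin_cases a <;> fin_cases p <;> fin_cases l <;> simp [cv, cD, off, lev]

/-- a family of cochains, one for each column and block -/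
def IsCo (n : ℕ) (q : Fin 4) (φ : Fin 2 × V → Zc K) : Prop :=
  ∀ j, CoMem K (cv j) n (cD j) q (φ j)

theorem IsCo.base {n : ℕ} {q : Fin 4} {φ : Fin 2 × V → Zc K} (h : IsCo n q φ) (c : V) :
    CoMem K (-off c) n (-lev c) q (φ (0, c)) := by
  simpa [cv, cD] using h (0, c)

theorem IsCo.top {n : ℕ} {q : Fin 4} {φ : Fin 2 × V → Zc K} (h : IsCo n q φ) (c : V) :
    CoMem K (1 - off c) n (2 - lev c) q (φ (1, c)) := by
  simpa [cv, cD] using h (1, c)

/-- the matrix of the map given by a family -/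
noncomputable def homMat (n : ℤ) (φ : Fin 2 × V → Zc K) (z : MV K (Zc K)) : Big K :=
  Matrix.of fun i j =>
    if i.1 = 0 then
      (if j.1 = 0 then pair n (z (1, i.2)) (φ (0, j.2))
        else pair n (z (1, i.2)) (φ (1, j.2)) + pair n (z (0, i.2)) (φ (0, j.2)))
    else (if j.1 = 0 then 0 else pair n (z (1, i.2)) (φ (0, j.2)))

theorem homMat_inA {n : ℕ} {q : Fin 4} {φ : Fin 2 × V → Zc K} (h : IsCo n q φ)
    (z : PM K n q) : InA K (homMat n φ z.1) where
  diag v w := by simp [homMat]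
  lower v w := by simp [homMat]
  base v w := by
    have := pair_inW (z.2 v).1 (h.base w)
    simpa [homMat, sub_eq_add_neg] using this
  tran v w := by
    have h1 := pair_inW (z.2 v).1 (h.top w)
    have h2 := pair_inW (z.2 v).2 (h.base w)
    rw [show off v + (1 - off w) = off v - off w + 1 by ring,
      show lev v + (2 - lev w) = lev v - lev w + 2 by ring] at h1
    rw [show off v + 1 + -off w = off v - off w + 1 by ring,
      show lev v + 2 + -lev w = lev v - lev w + 2 by ring] at h2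
    simpa [homMat] using inW_add h1 h2

theorem pair_sum_smul {n : ℤ} {ι : Type} (S : Finset ι) (a : ι → Am K) (x : ι → Zc K) (φ : Zc K) :
    pair n (∑ i ∈ S, a i • x i) φ = ∑ i ∈ S, a i * pair n (x i) φ := by
  rw [pair_sum_left]
  exact Finset.sum_congr rfl fun i _ => pair_smul_left _ _ _

/-- the map given by a family -/
noncomputable def toHom {n : ℕ} {q : Fin 4} (φ : Fin 2 × V → Zc K) (h : IsCo n q φ) :
    PM K n q →ₗ[A0 K] A0 K where
  toFun z := ofMat K _ (homMat_inA h z)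
  map_add' y z := mat_injective <| by
    rw [mat_add, mat_ofMat, mat_ofMat, mat_ofMat]
    ext1 i j
    show homMat n φ (y.1 + z.1) i j = homMat n φ y.1 i j + homMat n φ z.1 i j
    have e : ∀ k, (y.1 + z.1) k = y.1 k + z.1 k := fun _ => rfl
    simp only [homMat, Matrix.of_apply, e, pair_add_left]
    split_ifs
    · rfl
    · exact add_add_add_comm _ _ _ _
    · exact (add_zero 0).symm
    · rfl
  map_smul' s z := mat_injective <| by
    show homMat n φ (s • z.1) = mat K s * homMat n φ z.1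
    ext1 ⟨a, r⟩ ⟨a', c⟩
    rw [Matrix.mul_apply, Fintype.sum_prod_type, Fin.sum_univ_two]
    fin_cases a <;> fin_cases a'
    · simp [homMat, smul_mv_one, pair_sum_smul]
    · simp [homMat, smul_mv_one, smul_mv_zero, pair_sum_smul, pair_add_left, mul_add,
        Finset.sum_add_distrib, add_assoc]
    · simp [homMat, (mat_mem s).lower]
    · simp [homMat, smul_mv_one, pair_sum_smul, (mat_mem s).lower, (mat_mem s).diag]

theorem mat_toHom {n : ℕ} {q : Fin 4} (φ : Fin 2 × V → Zc K) (h : IsCo n q φ) (z : PM K n q) :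
    mat K (toHom φ h z) = homMat n φ z.1 := rfl

theorem pair_eq_gen {w D : ℤ} {n : ℕ} {q : Fin 4} {z : Zc K} (h : Mem K w n D q z) (φ : Zc K) :
    pair (n : ℤ) z φ = ∑ g : Gen n, at' q g z * φ (g.1 + lp q) g.1 g.2.1 := by
  rw [Fintype.sum_sigma, pair, Finset.sum_comm]
  refine Finset.sum_congr rfl fun b _ => ?_
  rw [Finset.sum_eq_single (b + lp q)]
  · exact (Finset.sum_coe_sort _ fun m => z (b + lp q) b m * φ (b + lp q) b m).symm
  · intro vp _ hne
    refine Finset.sum_eq_zero fun m _ => ?_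
    rw [show z vp b m = 0 from not_not.mp fun e => hne (h vp b m e).1, zero_mul]
  · simp

theorem at_delta {n : ℕ} (q : Fin 4) (g g' : Gen n) :
    at' (K := K) q g' (delta q g) = if g' = g then 1 else 0 := by
  obtain ⟨b, m, hm⟩ := g
  obtain ⟨b', m', hm'⟩ := g'
  simp only [at', delta]
  refine if_congr ?_ rfl rfl
  constructor
  · rintro ⟨-, rfl, rfl⟩; rfl
  · intro e; cases e; exact ⟨rfl, rfl, rfl⟩

theorem homMat_gen {n : ℕ} {q : Fin 4} (φ : Fin 2 × V → Zc K) (g : Gen n) (j : Fin 2 × V) :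
    homMat n φ (gen (K := K) q g).1 (0, g.r q) j = φ j (g.1 + lp q) g.1 g.2.1 := by
  have h1 : (gen (K := K) q g).1 (1, g.r q) = delta q g := by simp [gen]
  have h0 : (gen (K := K) q g).1 (0, g.r q) = 0 := by simp [gen]
  have key : ∀ ψ : Zc K, pair (n : ℤ) (delta q g) ψ = ψ (g.1 + lp q) g.1 g.2.1 := fun ψ => by
    rw [pair_eq_gen (h1 ▸ ((gen q g).2 (g.r q)).1)]
    simp [at_delta]
  obtain ⟨a, c⟩ := j
  fin_cases a <;> simp [homMat, h1, h0, key, pair_zero_left]

/-- the family of a map -/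
noncomputable def ofHom {n : ℕ} {q : Fin 4} (ψ : PM K n q →ₗ[A0 K] A0 K) :
    Fin 2 × V → Zc K := fun j vp b m =>
  if h : vp = b + lp q ∧ m ∈ deg2 ((n : ℤ) + ob b) then
    mat K (ψ (gen q ⟨b, m, h.2⟩)) (0, (q, vp)) j
  else 0

theorem ofHom_isCo {n : ℕ} {q : Fin 4} (ψ : PM K n q →ₗ[A0 K] A0 K) : IsCo n q (ofHom ψ) := by
  intro j vp b m hne
  simp only [ofHom] at hne ⊢
  by_cases h : vp = b + lp q ∧ m ∈ deg2 ((n : ℤ) + ob b)
  · rw [dif_pos h] at hne ⊢
    refine ⟨h.1, mem_deg2.mp h.2, ?_⟩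
    have hm := mat_mem (ψ (gen q ⟨b, m, h.2⟩))
    have e1 : off ((q, vp) : V) = ob vp := rfl
    have e2 : lev ((q, vp) : V) = lv q := rfl
    obtain ⟨a, c⟩ := j
    fin_cases a
    · have := hm.base (q, vp) c
      rw [e1, e2] at this
      simpa [cv, cD, sub_eq_add_neg, add_comm] using this
    · have := hm.tran (q, vp) c
      rw [e1, e2, show ob vp - off c + 1 = ob vp + (1 - off c) by ring,
        show lv q - lev c + 2 = 2 - lev c + lv q by ring] at this
      simpa [cv, cD] using this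
  · exact absurd (dif_neg h) hne

theorem ofHom_gen {n : ℕ} {q : Fin 4} (ψ : PM K n q →ₗ[A0 K] A0 K) (g : Gen n) (j : Fin 2 × V) :
    ofHom ψ j (g.1 + lp q) g.1 g.2.1 = mat K (ψ (gen q g)) (0, g.r q) j := by
  simp only [ofHom, g.2.2, and_self, dite_true]
  rfl

theorem toHom_ofHom {n : ℕ} {q : Fin 4} (ψ : PM K n q →ₗ[A0 K] A0 K) :
    toHom (ofHom ψ) (ofHom_isCo ψ) = ψ := by
  refine LinearMap.ext fun z => mat_injective ?_
  let matL : A0 K →+ Big K :=
    { toFun := mat K, map_zero' := mat_zero, map_add' := mat_add }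
  have e : mat K (ψ z) = ∑ g, mat K (coef q g z) * mat K (ψ (gen q g)) := by
    conv_lhs => rw [← sum_coef q z, map_sum]
    show matL _ = _
    rw [map_sum]
    refine Finset.sum_congr rfl fun g _ => ?_
    rw [map_smul]
    exact mat_mul _ _
  rw [mat_toHom, e]
  ext1 ⟨a, r⟩ ⟨a', c⟩
  simp only [Matrix.sum_apply, Matrix.mul_apply, homMat, Matrix.of_apply,
    pair_eq_gen (z.2 r).1, pair_eq_gen (z.2 r).2, ofHom_gen]
  have key : ∀ (g : Gen n) (i : Fin 2 × V) (x : Fin 2 × V → Am K),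
      ∑ l, mat K (coef q g z) i l * x l
        = (if i.1 = 0 then at' q g (z.1 (1, i.2)) else 0) * x (0, g.r q)
          + at' q g (z.1 i) * x (1, g.r q) := by
    intro g i x
    rw [show mat K (coef q g z) = coefMat q g z.1 from rfl, Fintype.sum_prod_type,
      Fin.sum_univ_two, Finset.sum_eq_single (g.r q), Finset.sum_eq_single (g.r q)]
    · simp [coefMat]
    all_goals intros
    all_goals simp_all [coefMat]
  simp only [key]
  fin_cases a <;> fin_cases a' <;>
    simp [(mat_mem (ψ _)).lower, (mat_mem (ψ _)).diag, Finset.sum_add_distrib]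

theorem toHom_inj {n : ℕ} {q : Fin 4} {φ φ' : Fin 2 × V → Zc K} (h : IsCo n q φ)
    (h' : IsCo n q φ') (e : toHom φ h = toHom φ' h') : φ = φ' := by
  funext j vp b m
  by_cases hg : vp = b + lp q ∧ m ∈ deg2 ((n : ℤ) + ob b)
  · obtain ⟨rfl, hm⟩ := hg
    have := congrArg (fun f => mat K (f (gen q ⟨b, m, hm⟩)) (0, Gen.r q ⟨b, m, hm⟩) j) e
    simpa only [mat_toHom, homMat_gen] using this
  · have hz : ∀ χ, IsCo n q χ → χ j vp b m = (0 : Am K) := fun χ hχ =>
      not_not.mp fun hne => hg ⟨(hχ j vp b m hne).1, mem_deg2.mpr (hχ j vp b m hne).2.1⟩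
    rw [hz φ h, hz φ' h']

theorem toHom_congr {n : ℕ} {q : Fin 4} {φ φ' : Fin 2 × V → Zc K} (h : IsCo n q φ)
    (h' : IsCo n q φ') (e : φ = φ') : toHom φ h = toHom φ' h' := by subst e; rfl

/-- precomposition with a componentwise map -/
theorem toHom_comp_rowMap {n : ℕ} {q q' : Fin 4} {φ ψ : Fin 2 × V → Zc K} (h : IsCo n q φ)
    (h' : IsCo n q' ψ) (g : Zc K →ₗ[Am K] Zc K)
    (hg : ∀ w d x, (qMem K (n : ℤ) q').mem w d x → (qMem K (n : ℤ) q).mem w d (g x))
    (adj : ∀ j w d x, Mem K w n d q' x → pair (n : ℤ) (g x) (φ j) = pair (n : ℤ) x (ψ j)) :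
    toHom φ h ∘ₗ rowMap _ _ g hg = toHom ψ h' := by
  refine LinearMap.ext fun z => mat_injective ?_
  show homMat n φ (fun i => g (z.1 i)) = homMat n ψ z.1
  ext1 ⟨a, r⟩ ⟨a', c⟩
  fin_cases a <;> fin_cases a' <;>
    simp [homMat, adj _ _ _ _ (z.2 r).1, adj _ _ _ _ (z.2 r).2]

end Vale.Agent.P195
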