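import Vale.Agent.P195.Shift

/-!
`Ext` from inflated modules into the algebra `Kill θ`, into the universal extensions `Eu θ V`, and
the comparison of `Ext¹` between inflated modules with `Ext¹` over `A₀`.
-/

namespace Vale.Agent.P195

open Kill ExtTools

variable {K : Type} [Field K] {A₀ : Type} [Ring A₀] [Algebra K A₀] {θ : Cocycle K A₀}

namespace Kill

/-- a free cover with finitely generated kernel -/
theorem exists_cover [Module.Finite K A₀] (Y : Type) [AddCommGroup Y] [Module A₀ Y]
    [Module.Finite A₀ Y] :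
    ∃ (m : ℕ) (p : (Fin m → A₀) →ₗ[A₀] Y), Function.Surjective p ∧
      Module.Finite A₀ (LinearMap.ker p) := by
  have : IsNoetherianRing A₀ := IsNoetherianRing.of_finite K A₀
  obtain ⟨m, p, hp⟩ := Module.Finite.exists_fin' A₀ Y
  exact ⟨m, p, hp, inferInstance⟩

section Seq

variable {Y : Type} [AddCommGroup Y] [Module A₀ Y] {m : ℕ} {p : (Fin m → A₀) →ₗ[A₀] Y}

theorem inflMap_ker_injective :
    Function.Injective (inflMap θ (LinearMap.ker p).subtype) := Subtype.val_injective

theorem inflMap_ker_exact :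
    Function.Exact (inflMap θ (LinearMap.ker p).subtype) (inflMap θ p) :=
  LinearMap.exact_subtype_ker_map p

theorem van_infl_free {T : Type} [AddCommGroup T] [Module (Kill θ) T] {i : ℕ}
    (h : Van (Kill θ) (Infl θ A₀) T i) : Van (Kill θ) (Infl θ (Fin m → A₀)) T i :=
  van_retract_left (M' := Fin m → Infl θ A₀) (i := i)
    ({ toFun := fun y => y, map_add' := fun _ _ => rfl, map_smul' := fun _ _ => rfl } :
      Infl θ (Fin m → A₀) →ₗ[Kill θ] Fin m → Infl θ A₀)
    { toFun := fun y => y, map_add' := fun _ _ => rfl, map_smul' := fun _ _ => rfl } rfl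
    (van_pi_left h m)

end Seq

/-! ### the algebra itself -/

section Self

variable [Module.Finite K A₀]

theorem hom_E2_kill (g : E2 θ →ₗ[Kill θ] Kill θ) :
    ∃ (G : Module.End K A₀) (ρ : A₀), ∀ y : E2 θ,
      g y = ⟨0, Submodule.Quotient.mk (y.F ∘ₗ G), y.F ρ, y.φ ∘ₗ G, y.φ ρ⟩ := by
  have he : ∀ χ : Module.Dual K A₀,
      g ⟨0, χ⟩ = ⟨0, 0, 0, (g ⟨0, χ⟩).s, (g ⟨0, χ⟩).c⟩ := fun χ => by
    conv_lhs => rw [← e₂_smul_pure χ, map_smul, smul_eq_mul]
    ext1 <;> simp
  have hk : ∀ (k : K) (y : E2 θ), g (k • y) = k • g y := fun k y => by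
    rw [← ksmul_E2, map_smul, smul_eq_mul, ← Algebra.smul_def]
  let S : Module.Dual K A₀ →ₗ[K] Module.Dual K A₀ :=
    { toFun := fun χ => (g ⟨0, χ⟩).s
      map_add' := fun χ χ' => by
        rw [show (⟨0, χ + χ'⟩ : E2 θ) = ⟨0, χ⟩ + ⟨0, χ'⟩ by ext <;> simp, map_add, add_s]
      map_smul' := fun k χ => by
        rw [show (⟨0, k • χ⟩ : E2 θ) = k • ⟨0, χ⟩ by ext <;> simp, hk, smul_s, RingHom.id_apply] }
  let C : Module.Dual K (Module.Dual K A₀) :=
    { toFun := fun χ => (g ⟨0, χ⟩).c
      map_add' := fun χ χ' => by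
        rw [show (⟨0, χ + χ'⟩ : E2 θ) = ⟨0, χ⟩ + ⟨0, χ'⟩ by ext <;> simp, map_add, add_c]
      map_smul' := fun k χ => by
        rw [show (⟨0, k • χ⟩ : E2 θ) = k • ⟨0, χ⟩ by ext <;> simp, hk, smul_c, RingHom.id_apply,
          smul_eq_mul] }
  let ev := Module.evalEquiv K A₀
  let G : Module.End K A₀ := ev.symm.toLinearMap ∘ₗ S.dualMap ∘ₗ ev.toLinearMap
  have hG : ∀ (χ : Module.Dual K A₀) (a : A₀), χ (G a) = S χ a := fun χ a => by
    simp [G, ev]
  have hρ : ∀ χ : Module.Dual K A₀, χ (ev.symm C) = C χ := fun χ => by simp [ev]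
  let g' : E2 θ →ₗ[Kill θ] Kill θ :=
    { toFun := fun y =>
        ⟨0, Submodule.Quotient.mk (y.F ∘ₗ G), y.F (ev.symm C), y.φ ∘ₗ G, y.φ (ev.symm C)⟩
      map_add' := fun x y => by ext1 <;> simp [LinearMap.add_comp, Submodule.Quotient.mk_add]
      map_smul' := fun a y => by
        ext1
        · simp
        · simp [LinearMap.add_comp, rs, Submodule.Quotient.mk_add]
          rfl
        · simp
        · ext c; simp
        · simp }
  have hg : g = g' := hom_E2_ext fun χ => by
    rw [he χ]
    ext1
    · rfl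
    · simp [g']
    · simp [g']
    · ext a; exact (hG χ a).symm
    · exact (hρ χ).symm
  exact ⟨G, ev.symm C, fun y => by rw [hg]; rfl⟩

theorem kill_extend_syz (h : Syz₁ θ →ₗ[Kill θ] Kill θ) :
    ∃ k : P1 θ 1 →ₗ[Kill θ] Kill θ, k.comp (Syz₁ θ).subtype = h := by
  obtain ⟨G, ρ, hg⟩ := hom_E2_kill (h.comp (sigSyz θ))
  have hz : ∀ a : A₀, (⟨0, Submodule.Quotient.mk (LinearMap.mul K A₀ a ∘ₗ G), a * ρ, 0, 0⟩ :
      Kill θ) = 0 := fun a => by
    have := hg (iota₁ θ (toInfl θ a))
    rw [LinearMap.comp_apply, (exact_iota₁_sigSyz θ).apply_apply_eq_zero, map_zero] at this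
    rw [this]
    ext1 <;> rfl
  have hρ : ρ = 0 := by simpa using congrArg Kill.r (hz 1)
  obtain ⟨z, hzG⟩ := (Submodule.Quotient.mk_eq_zero _).1 (congrArg Kill.q (hz 1))
  have hG : G = LinearMap.mul K A₀ z := by
    rw [hzG]; ext c; simp
  refine ⟨(LinearMap.toSpanSingleton (Kill θ) (Kill θ) (emb θ z)).comp (P1 θ 1).subtype,
    LinearMap.ext fun x => ?_⟩
  obtain ⟨y, rfl⟩ := sigSyz_surjective θ x
  show sigW y * emb θ z = _
  rw [← LinearMap.comp_apply h (sigSyz θ), hg y, hG, hρ]
  ext1 <;> simp

/-- maps from an inflated module into the algebra live in two coordinates -/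
theorem hom_infl_kill {Y : Type} [AddCommGroup Y] [Module A₀ Y]
    (h : Infl θ Y →ₗ[Kill θ] Kill θ) (y : Infl θ Y) :
    (h y).u = 0 ∧ (h y).s = 0 ∧ (h y).c = 0 := by
  have he := infl_smul_eq h (e₂ θ) rfl y
  have hs : (h y).s = 0 := by simpa using congrArg Kill.s he
  have hc : (h y).c = 0 := by simpa using congrArg Kill.c he
  refine ⟨(Module.forall_dual_apply_eq_zero_iff K _).1 fun χ => ?_, hs, hc⟩
  have h1 := infl_smul_eq h (⟨0, 0, 0, χ, 0⟩ : Kill θ) rfl y
  simpa using LinearMap.congr_fun (congrArg Kill.s h1) 1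

theorem kill_extend_free (h : Infl θ A₀ →ₗ[Kill θ] Kill θ) :
    ∃ k : E2 θ →ₗ[Kill θ] Kill θ, k.comp (iota₁ θ) = h := by
  obtain ⟨G, hG⟩ := Submodule.Quotient.mk_surjective _ (h (toInfl θ (1 : A₀))).q
  let ρ : A₀ := (h (toInfl θ (1 : A₀))).r
  let k : E2 θ →ₗ[Kill θ] Kill θ :=
    { toFun := fun y => ⟨0, Submodule.Quotient.mk (y.F ∘ₗ G), y.F ρ, y.φ ∘ₗ G, y.φ ρ⟩
      map_add' := fun x y => by ext1 <;> simp [LinearMap.add_comp, Submodule.Quotient.mk_add]
      map_smul' := fun a y => by
        ext1
        · simp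
        · simp [LinearMap.add_comp, rs, Submodule.Quotient.mk_add]
          rfl
        · simp
        · ext c; simp
        · simp }
  refine ⟨k, LinearMap.ext fun a => ?_⟩
  have ha : h a = emb θ (show A₀ from a) * h (toInfl θ (1 : A₀)) := by
    rw [← smul_eq_mul, ← map_smul]
    congr 1
    exact (mul_one (show A₀ from a)).symm
  obtain ⟨hu, hs, hc⟩ := hom_infl_kill h (toInfl θ (1 : A₀))
  rw [ha]
  ext1
  · simp [k, hu]
  · simp [k, hu, hs, ← hG, iota₁_F]
    rfl
  · simp [k, hc, ρ, iota₁_F]
    rfl
  · simp [k, iota₁, hu, hs]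
  · simp [k, iota₁, hc]

/-- over `A₀`, no `Ext` into the ring gives none into `Kill θ` -/
theorem van_kill : ∀ (i : ℕ) (Y : Type) [AddCommGroup Y] [Module A₀ Y] [Module.Finite A₀ Y],
    Van A₀ Y A₀ (i + 1) → Van (Kill θ) (Infl θ Y) (Kill θ) (i + 1) := by
  intro i
  induction i with
  | zero =>
    intro Y _ _ _ hY
    obtain ⟨m, p, hp, hfin⟩ := exists_cover (K := K) (A₀ := A₀) Y
    refine van_one_of_extend inflMap_ker_injective hp inflMap_ker_exact
      (van_infl_free (van_infl_self θ kill_extend_syz kill_extend_free 0)) fun h => ?_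
    let b := Module.Free.chooseBasis K A₀
    have hh : ∀ (a : A₀) (y : Infl θ (LinearMap.ker p)), h (a • y) = emb θ a * h y :=
      fun a y => h.map_smul (emb θ a) y
    let H : Module.Free.ChooseBasisIndex K A₀ → (LinearMap.ker p →ₗ[A₀] A₀) := fun j =>
      { toFun := fun y => qsec (h y).q (b j)
        map_add' := fun x y => by
          rw [show h (x + y : LinearMap.ker p) = h x + h y from map_add h x y, add_q, map_add]
          rfl
        map_smul' := fun a y => by
          rw [show h (a • y : LinearMap.ker p) = emb θ a * h y from hh a y]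
          simp [(hom_infl_kill h y).1, (hom_infl_kill h y).2.1, qsec_qleft] }
    let R : LinearMap.ker p →ₗ[A₀] A₀ :=
      { toFun := fun y => (h y).r
        map_add' := fun x y => by
          rw [show h (x + y : LinearMap.ker p) = h x + h y from map_add h x y, add_r]
        map_smul' := fun a y => by
          rw [show h (a • y : LinearMap.ker p) = emb θ a * h y from hh a y]
          simp [(hom_infl_kill h y).2.2] }
    choose kH hkH using fun j =>
      extend_of_van_one Subtype.val_injective hp (exact_ker p) hY (H j)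
    obtain ⟨kR, hkR⟩ := extend_of_van_one Subtype.val_injective hp (exact_ker p) hY R
    let k : Infl θ (Fin m → A₀) →ₗ[Kill θ] Kill θ :=
      { toFun := fun v => ⟨0, Submodule.Quotient.mk (∑ j, (b.coord j).smulRight (kH j v)),
          kR v, 0, 0⟩
        map_add' := fun v w => by
          ext1
          · simp
          · show (Submodule.Quotient.mk _ : Quot₀ K A₀) =
              Submodule.Quotient.mk _ + Submodule.Quotient.mk _
            rw [← Submodule.Quotient.mk_add, ← Finset.sum_add_distrib]
            refine congrArg Submodule.Quotient.mk ?_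
            refine Finset.sum_congr rfl fun j _ => ?_
            ext c
            simp only [LinearMap.smulRight_apply, LinearMap.add_apply, ← smul_add]
            exact congrArg (fun t : A₀ => b.coord j c • t) (map_add (kH j) v w)
          · exact map_add kR v w
          · simp
          · simp
        map_smul' := fun x v => by
          ext1
          · simp
          · simp only [RingHom.id_apply, smul_eq_mul, mul_q, gam_zero_right, qright_zero,
              rs_zero_right, add_zero, qleft_mk]
            congr 1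
            ext c
            simp only [LinearMap.comp_apply, LinearMap.sum_apply, LinearMap.smulRight_apply,
              map_sum, LinearMap.mul_apply']
            refine Finset.sum_congr rfl fun j _ => ?_
            rw [show kH j (x • v) = x.u * kH j v from (kH j).map_smul x.u v]
            simp
          · simp only [RingHom.id_apply, smul_eq_mul, mul_r, zero_smul, add_zero]
            exact kR.map_smul x.u v
          · simp
          · simp }
    refine ⟨k, LinearMap.ext fun y => ?_⟩
    obtain ⟨hu, hs, hc⟩ := hom_infl_kill h y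
    refine Kill.ext hu.symm ?_ (LinearMap.congr_fun hkR y) hs.symm hc.symm
    rw [← mk_qsec (h y).q]
    show Submodule.Quotient.mk _ = _
    congr 1
    refine b.ext fun j => ?_
    simp only [LinearMap.sum_apply, LinearMap.smulRight_apply, Module.Basis.coord_apply,
      Module.Basis.repr_self]
    rw [Finset.sum_eq_single j (fun l _ hl => by simp [Ne.symm hl])
      (by simp)]
    simp only [Finsupp.single_eq_same, one_smul]
    exact LinearMap.congr_fun (hkH j) y
  | succ i ih =>
    intro Y _ _ _ hY
    obtain ⟨m, p, hp, hfin⟩ := exists_cover (K := K) (A₀ := A₀) Y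
    exact van_right inflMap_ker_injective hp inflMap_ker_exact
      (ih _ (van_left Subtype.val_injective hp (exact_ker p) (van_of_projective i) hY))
      (van_infl_free (van_infl_self θ kill_extend_syz kill_extend_free _))

end Self

end Kill

end Vale.Agent.P195
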