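import Vale.Agent.P195.CellMaps
import Vale.Agent.P195.ExtTools

/-!
If all Ext groups over `A₀` from `Y` to `X` vanish, so do those of the inflated modules over the
extension `Kill θ`.
-/

namespace Vale.Agent.P195.KillOrbit

open CategoryTheory Abelian ExtTools Kill

variable {K : Type} [Field K] {A₀ : Type} [Ring A₀] [Algebra K A₀]

section Maps

variable (θ : Cocycle K A₀)

theorem normal_one : Cocycle.IsNormal θ (1 : A₀) :=
  ⟨one_mul 1, θ.one_left, θ.one_mid, θ.one_right⟩

/-- inflation of a linear map -/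
noncomputable def lift0 {M N : Type} [AddCommGroup M] [Module A₀ M] [AddCommGroup N] [Module A₀ N]
    (g : M →ₗ[A₀] N) : Infl θ M →ₗ[Kill θ] Infl θ N where
  toFun y := g y
  map_add' := g.map_add
  map_smul' a y := g.map_smul a.u y

theorem lift0_apply {M N : Type} [AddCommGroup M] [Module A₀ M] [AddCommGroup N] [Module A₀ N]
    (g : M →ₗ[A₀] N) (y : Infl θ M) : lift0 θ g y = g y := rfl

/-- a linear map between inflated modules is linear over the small algebra -/
noncomputable def down0 {M N : Type} [AddCommGroup M] [Module A₀ M] [AddCommGroup N] [Module A₀ N]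
    (f : Infl θ M →ₗ[Kill θ] Infl θ N) : M →ₗ[A₀] N where
  toFun y := f y
  map_add' := f.map_add
  map_smul' a y := f.map_smul (emb θ a) y

theorem down0_apply {M N : Type} [AddCommGroup M] [Module A₀ M] [AddCommGroup N] [Module A₀ N]
    (f : Infl θ M →ₗ[Kill θ] Infl θ N) (y : M) : down0 θ f y = f y := rfl

/-- the first projection of the cell at `1` -/
noncomputable def top : P1 θ (1 : A₀) →ₗ[Kill θ] Infl θ A₀ where
  toFun x := (x : Kill θ).u
  map_add' _ _ := rfl
  map_smul' _ _ := rfl

theorem top_apply (x : P1 θ (1 : A₀)) : top θ x = (x : Kill θ).u := rfl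

theorem top_surjective : Function.Surjective (top θ) := fun a =>
  ⟨⟨emb θ (show A₀ from a), emb_mem (normal_one θ) (mul_one (show A₀ from a))⟩, rfl⟩

/-- the first syzygy of the inflated algebra -/
noncomputable abbrev K1 : Type := LinearMap.ker (top θ)

/-- the cell of the second kind onto the syzygy -/
noncomputable def mid : E2 θ →ₗ[Kill θ] K1 θ :=
  LinearMap.codRestrict _
    (LinearMap.codRestrict _ (sigW (θ := θ)) fun y => by
      rw [mem_P1 θ.one_mid]
      have h1 : LinearMap.mul K A₀ (1 : A₀) = LinearMap.id := LinearMap.ext fun c => one_mul c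
      simp [h1])
    fun y => rfl

theorem coe_mid (y : E2 θ) : ((mid θ y : P1 θ (1 : A₀)) : Kill θ) = sigW y := rfl

theorem mid_surjective : Function.Surjective (mid θ) := by
  rintro ⟨x, hx⟩
  obtain ⟨y, hy⟩ := exists_sigP (normal_one θ) x hx
  exact ⟨y, Subtype.ext (Subtype.ext (congrArg Subtype.val hy))⟩

/-- left multiplications inside the cell of the second kind -/
noncomputable def bot : Infl θ A₀ →ₗ[Kill θ] E2 θ where
  toFun a := ⟨LinearMap.mul K A₀ a, 0⟩
  map_add' a b := E2.ext (LinearMap.ext fun c => add_mul (show A₀ from a) b c) (by simp)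
  map_smul' x a := E2.ext (LinearMap.ext fun c => by
    show x.u * (show A₀ from a) * c = _
    exact (mul_assoc x.u (show A₀ from a) c).trans (by simp; rfl)) (by simp)

theorem bot_injective : Function.Injective (bot θ) := fun a b h => by
  have := LinearMap.congr_fun (congrArg E2.F h) 1
  exact ((mul_one (show A₀ from a)).symm.trans this).trans (mul_one (show A₀ from b))

theorem exact_bot_mid : Function.Exact (bot θ) (mid θ) := by
  refine fun y => ⟨fun h => ?_, ?_⟩
  · have h1 : sigW y = 0 := congrArg (fun z : K1 θ => ((z : P1 θ (1 : A₀)) : Kill θ)) h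
    obtain ⟨a, ha⟩ := (Submodule.Quotient.mk_eq_zero _).1
      (congrArg Kill.q h1 : (Submodule.Quotient.mk y.F : Quot₀ K A₀) = 0)
    exact ⟨a, E2.ext ha (congrArg Kill.s h1 : y.φ = 0).symm⟩
  · rintro ⟨a, rfl⟩
    refine Subtype.ext (Subtype.ext (Kill.ext rfl ?_ rfl rfl rfl))
    exact (Submodule.Quotient.mk_eq_zero _).2 ⟨a, rfl⟩

/-- the lower short exact sequence -/
theorem seqBot : (ShortComplex.moduleCatMk (bot θ) (mid θ)
    (exact_bot_mid θ).linearMap_comp_eq_zero).ShortExact :=
  shortExact (bot_injective θ) (mid_surjective θ) (exact_bot_mid θ)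

/-- the upper short exact sequence -/
theorem seqTop : (ShortComplex.moduleCatMk (LinearMap.ker (top θ)).subtype (top θ)
    (exact_ker (top θ)).linearMap_comp_eq_zero).ShortExact :=
  shortExact (Submodule.injective_subtype _) (top_surjective θ) (exact_ker _)

/-- right multiplication on the inflated algebra -/
noncomputable def rA (a : A₀) : Infl θ A₀ →ₗ[Kill θ] Infl θ A₀ :=
  lift0 θ (LinearMap.toSpanSingleton A₀ A₀ a)

/-- right multiplication on the cell -/
noncomputable def rP (a : A₀) : P1 θ (1 : A₀) →ₗ[Kill θ] P1 θ (1 : A₀) :=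
  mulP (normal_one θ) (mul_one a)

theorem top_rP (a : A₀) (x : P1 θ (1 : A₀)) : top θ (rP θ a x) = rA θ a (top θ x) := by
  rfl

/-- right multiplication on the syzygy -/
noncomputable def rK (a : A₀) : K1 θ →ₗ[Kill θ] K1 θ :=
  LinearMap.codRestrict _ (rP θ a ∘ₗ (LinearMap.ker (top θ)).subtype) fun x => by
    rw [LinearMap.mem_ker]
    exact (top_rP θ a _).trans ((congrArg (rA θ a) x.2).trans (map_zero _))

theorem mid_rK (a : A₀) (y : E2 θ) : rK θ a (mid θ y) = mid θ (E2.rightMul a y) :=
  Subtype.ext (Subtype.ext (sigW_mul a y))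

theorem bot_rA (a : A₀) (b : Infl θ A₀) : bot θ (rA θ a b) = E2.rightMul a (bot θ b) :=
  E2.ext (LinearMap.ext fun c => mul_assoc (show A₀ from b) a c) (LinearMap.zero_comp _).symm

end Maps

section Period

variable (θ : Cocycle K A₀) (X : Type) [AddCommGroup X] [Module A₀ X]

theorem hom_E2_zero [Module.Finite K A₀] (f : E2 θ →ₗ[Kill θ] Infl θ X) : f = 0 := by
  refine LinearMap.ext fun y => ?_
  have h := hom_P2 (one_mul (1 : A₀)) (f ∘ₗ (P2 θ 1).subtype)
  exact LinearMap.congr_fun h ⟨y, by constructor <;> ext c <;> simp⟩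

theorem hom_K1_zero [Module.Finite K A₀] (f : K1 θ →ₗ[Kill θ] Infl θ X) : f = 0 := by
  refine LinearMap.ext fun x => ?_
  obtain ⟨y, rfl⟩ := mid_surjective θ x
  exact LinearMap.congr_fun (hom_E2_zero θ X (f ∘ₗ mid θ)) y

theorem projective_top : Module.Projective (Kill θ) (P1 θ (1 : A₀)) :=
  projective_P1 (one_mul 1) θ.one_mid

theorem van_one [Module.Finite K A₀] : Van (Kill θ) (Infl θ A₀) (Infl θ X) 1 := by
  have := projective_top θ
  refine van_one_of_extend (Submodule.injective_subtype _) (top_surjective θ) (exact_ker _)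
    (van_of_projective 0) fun h => ⟨0, ?_⟩
  rw [hom_K1_zero θ X h, LinearMap.zero_comp]

theorem van_E2 [Module.Finite K A₀] : ∀ n, Van (Kill θ) (E2 θ) (Infl θ X) n
  | 0 => van_zero_iff.2 (hom_E2_zero θ X)
  | n + 1 => have := projective_E2 (θ := θ); van_of_projective n

variable {X}

/-- the connecting map of the lower sequence -/
noncomputable def dBot {n : ℕ} (e : E (Kill θ) (Infl θ A₀) (Infl θ X) n) :
    E (Kill θ) (K1 θ) (Infl θ X) (n + 1) :=
  (seqBot θ).extClass.comp e (add_comm 1 n)

/-- the connecting map of the upper sequence -/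
noncomputable def dTop {n : ℕ} (e : E (Kill θ) (K1 θ) (Infl θ X) n) :
    E (Kill θ) (Infl θ A₀) (Infl θ X) (n + 1) :=
  (seqTop θ).extClass.comp e (add_comm 1 n)

/-- the periodicity map -/
noncomputable def per {n : ℕ} (e : E (Kill θ) (Infl θ A₀) (Infl θ X) n) :
    E (Kill θ) (Infl θ A₀) (Infl θ X) (n + 2) :=
  dTop θ (dBot θ e)

theorem per_add {n : ℕ} (e e' : E (Kill θ) (Infl θ A₀) (Infl θ X) n) :
    per θ (e + e') = per θ e + per θ e' :=
  (congrArg (dTop θ (n := n + 1)) (Ext.comp_add (seqBot θ).extClass e e' (add_comm 1 n))).trans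
    (Ext.comp_add (seqTop θ).extClass (dBot θ e) (dBot θ e') (add_comm 1 (n + 1)))

theorem per_zero {n : ℕ} : per θ (0 : E (Kill θ) (Infl θ A₀) (Infl θ X) n) = 0 :=
  map_zero (AddMonoidHom.mk' (per θ (n := n) (X := X)) (per_add θ))

theorem per_injective [Module.Finite K A₀] {n : ℕ}
    (e : E (Kill θ) (Infl θ A₀) (Infl θ X) n) (he : per θ e = 0) : e = 0 := by
  have := projective_top θ
  obtain ⟨y, hy⟩ := Ext.contravariant_sequence_exact₁ (seqTop θ) _ (dBot θ e)
    (n₁ := n + 2) (by omega) he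
  have hz : dBot θ e = 0 := by
    have : Van (Kill θ) (P1 θ (1 : A₀)) (Infl θ X) (n + 1) := van_of_projective n
    rw [← hy, show y = 0 from Subsingleton.elim (α := E (Kill θ) (P1 θ (1 : A₀)) (Infl θ X) (n + 1)) y 0]
    exact Ext.comp_zero _ _ _ _ _
  obtain ⟨z, hz'⟩ := Ext.contravariant_sequence_exact₁ (seqBot θ) _ e (n₁ := n + 1) (by omega) hz
  rw [← hz', show z = 0 from
    Subsingleton.elim (α := E (Kill θ) (E2 θ) (Infl θ X) n) (h := van_E2 θ X n) z 0]
  exact Ext.comp_zero _ _ _ _ _

theorem per_surjective [Module.Finite K A₀] {n : ℕ}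
    (x : E (Kill θ) (Infl θ A₀) (Infl θ X) (n + 2)) : ∃ e, per θ e = x := by
  have := projective_top θ
  have hP : Van (Kill θ) (P1 θ (1 : A₀)) (Infl θ X) (n + 2) := van_of_projective (n + 1)
  obtain ⟨y, rfl⟩ := Ext.contravariant_sequence_exact₃ (seqTop θ) _ x
    (Subsingleton.elim (α := E (Kill θ) (P1 θ (1 : A₀)) (Infl θ X) (n + 2)) _ _) (n₀ := n + 1)
    (by omega)
  obtain ⟨e, rfl⟩ := Ext.contravariant_sequence_exact₃ (seqBot θ) _ y
    (Subsingleton.elim (α := E (Kill θ) (E2 θ) (Infl θ X) (n + 1)) (h := van_E2 θ X (n + 1)) _ _)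
    (n₀ := n) (by omega)
  exact ⟨e, rfl⟩

theorem van_odd [Module.Finite K A₀] :
    ∀ m, Van (Kill θ) (Infl θ A₀) (Infl θ X) (2 * m + 1)
  | 0 => van_one θ X
  | m + 1 => subsingleton_of_forall_eq 0 fun x => by
      obtain ⟨e, rfl⟩ := per_surjective θ (n := 2 * m + 1) x
      have := van_odd m
      rw [Subsingleton.elim e 0, per_zero]

theorem natural {C : Type 1} [Category.{0} C] [Abelian C] [HasExt.{0} C] {S : ShortComplex C}
    (hS : S.ShortExact) (φ : S ⟶ S) {T : C} {n : ℕ} (e : Ext S.X₁ T n) :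
    (Ext.mk₀ φ.τ₃).comp (hS.extClass.comp e (add_comm 1 n)) (zero_add (n + 1)) =
      hS.extClass.comp ((Ext.mk₀ φ.τ₁).comp e (zero_add n)) (add_comm 1 n) := by
  rw [← Ext.comp_assoc (a₁₂ := 1) _ _ _ (zero_add 1) (add_comm 1 n) (by omega),
    ← ShortComplex.ShortExact.extClass_naturality hS hS φ, Ext.comp_assoc_of_second_deg_zero]

theorem pull_per (a : A₀) {n : ℕ} (e : E (Kill θ) (Infl θ A₀) (Infl θ X) n) :
    pull (rA θ a) (per θ e) = per θ (pull (rA θ a) e) := by
  let nb : (ShortComplex.moduleCatMk (bot θ) (mid θ)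
      (exact_bot_mid θ).linearMap_comp_eq_zero) ⟶ (ShortComplex.moduleCatMk (bot θ) (mid θ)
      (exact_bot_mid θ).linearMap_comp_eq_zero) :=
    { τ₁ := ModuleCat.ofHom (rA θ a)
      τ₂ := ModuleCat.ofHom (E2.rightMul a)
      τ₃ := ModuleCat.ofHom (rK θ a)
      comm₁₂ := by ext b; exact bot_rA θ a b
      comm₂₃ := by ext y; exact (mid_rK θ a y).symm }
  let nt : (ShortComplex.moduleCatMk (LinearMap.ker (top θ)).subtype (top θ)
      (exact_ker (top θ)).linearMap_comp_eq_zero) ⟶ (ShortComplex.moduleCatMk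
      (LinearMap.ker (top θ)).subtype (top θ) (exact_ker (top θ)).linearMap_comp_eq_zero) :=
    { τ₁ := ModuleCat.ofHom (rK θ a)
      τ₂ := ModuleCat.ofHom (rP θ a)
      τ₃ := ModuleCat.ofHom (rA θ a)
      comm₁₂ := by ext b; rfl
      comm₂₃ := by ext y; exact (top_rP θ a y).symm }
  exact (natural (seqTop θ) nt (dBot θ e)).trans
    (congrArg (dTop θ (n := n + 1)) (natural (seqBot θ) nb e))

/-- the classes in even degree attached to the elements of `X` -/
noncomputable def even : ∀ m, X → E (Kill θ) (Infl θ A₀) (Infl θ X) (2 * m)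
  | 0, x => cls (lift0 θ (LinearMap.toSpanSingleton A₀ X x))
  | m + 1, x => per θ (n := 2 * m) (even m x)

theorem even_add : ∀ m (x y : X), even θ m (x + y) = even θ m x + even θ m y
  | 0, x, y => by
      refine Eq.trans (congrArg cls ?_) (Ext.mk₀_add _ _)
      exact LinearMap.ext fun b => smul_add (show A₀ from b) x y
  | m + 1, x, y => by simp only [even, even_add m x y, per_add]

theorem even_zero (m : ℕ) : even θ m (0 : X) = 0 :=
  map_zero (AddMonoidHom.mk' (even θ m) (even_add θ m))

theorem pull_even (a : A₀) : ∀ m (x : X), pull (rA θ a) (even θ m x) = even θ m (a • x)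
  | 0, x => by
      refine (pull_cls _ _).trans (congrArg cls ?_)
      exact LinearMap.ext fun b => mul_smul (show A₀ from b) a x
  | m + 1, x => by simp only [even]; rw [pull_per, pull_even a m x]

theorem even_injective [Module.Finite K A₀] :
    ∀ m (x : X), even θ m x = 0 → x = 0
  | 0, x, h => by
      have := LinearMap.congr_fun (cls_injective (h.trans cls_zero.symm)) (toInfl θ (1 : A₀))
      exact (one_smul A₀ x).symm.trans this
  | m + 1, x, h => even_injective m x (per_injective θ _ h)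

theorem even_surjective [Module.Finite K A₀] :
    ∀ m (e : E (Kill θ) (Infl θ A₀) (Infl θ X) (2 * m)), ∃ x, even θ m x = e
  | 0, e => by
      obtain ⟨f, rfl⟩ := cls_surjective e
      refine ⟨f (toInfl θ (1 : A₀)), congrArg cls (LinearMap.ext fun b => ?_)⟩
      show (show A₀ from b) • (down0 θ f (1 : A₀)) = down0 θ f (show A₀ from b)
      rw [← map_smul, smul_eq_mul, mul_one]
  | m + 1, e => by
      obtain ⟨e', rfl⟩ := per_surjective θ (n := 2 * m) e
      obtain ⟨x, rfl⟩ := even_surjective m e'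
      exact ⟨x, rfl⟩

end Period

section Free

variable (θ : Cocycle K A₀) {X : Type} [AddCommGroup X] [Module A₀ X]

/-- a free inflated module -/
abbrev FR (r : ℕ) : Type := Fin r → Infl θ A₀

/-- the coordinate maps -/
noncomputable def inj (r : ℕ) (i : Fin r) : Infl θ A₀ →ₗ[Kill θ] FR θ r :=
  LinearMap.single (Kill θ) (fun _ : Fin r => Infl θ A₀) i

/-- a map between free modules over the small algebra -/
noncomputable def liftF {r s : ℕ} (g : (Fin r → A₀) →ₗ[A₀] (Fin s → A₀)) :
    FR θ r →ₗ[Kill θ] FR θ s where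
  toFun v := g v
  map_add' := g.map_add
  map_smul' a v := g.map_smul a.u v

/-- a class on a free module and the map it corresponds to -/
def Rep (m : ℕ) {r : ℕ} (e : E (Kill θ) (FR θ r) (Infl θ X) (2 * m))
    (φ : (Fin r → A₀) →ₗ[A₀] X) : Prop :=
  ∀ i, pull (inj θ r i) e = even θ m (φ (Pi.single i 1))

theorem pull_sum {M M' N : Type} [AddCommGroup M] [Module (Kill θ) M] [AddCommGroup M']
    [Module (Kill θ) M'] [AddCommGroup N] [Module (Kill θ) N] {ι : Type} (s : Finset ι)
    (f : ι → M →ₗ[Kill θ] M') {n : ℕ} (e : E (Kill θ) M' N n) :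
    pull (∑ i ∈ s, f i) e = ∑ i ∈ s, pull (f i) e :=
  map_sum (AddMonoidHom.mk' (fun g : M →ₗ[Kill θ] M' => pull g e) fun g g' =>
    (congrArg (fun z => Ext.comp z e _) (Ext.mk₀_add (ModuleCat.ofHom g) (ModuleCat.ofHom g'))).trans
      (Ext.add_comp _ _ _ _)) f s

theorem sum_inj_proj (r : ℕ) :
    (LinearMap.id : FR θ r →ₗ[Kill θ] FR θ r) = ∑ i, inj θ r i ∘ₗ LinearMap.proj i := by
  refine LinearMap.ext fun v => ?_
  simp [inj, LinearMap.sum_apply, Finset.univ_sum_single]

theorem rep_eq_zero {m r : ℕ} {e : E (Kill θ) (FR θ r) (Infl θ X) (2 * m)}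
    (he : Rep θ m e (0 : (Fin r → A₀) →ₗ[A₀] X)) : e = 0 := by
  rw [← pull_id e, sum_inj_proj θ r, pull_sum θ]
  refine Finset.sum_eq_zero fun i _ => ?_
  rw [← pull_pull, he i, LinearMap.zero_apply, even_zero, pull_zero]

theorem exists_class (m : ℕ) {r : ℕ} (φ : (Fin r → A₀) →ₗ[A₀] X) :
    ∃ e, Rep θ m e φ := by
  refine ⟨∑ i, pull (LinearMap.proj i) (even θ m (φ (Pi.single i 1))), fun j => ?_⟩
  refine (map_sum (AddMonoidHom.mk' (pull (inj θ r j)) (pull_add _)) _ _).trans ?_
  rw [Finset.sum_eq_single j]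
  · rw [AddMonoidHom.mk'_apply, pull_pull,
      show (LinearMap.proj j).comp (inj θ r j) = LinearMap.id from
        LinearMap.ext fun b => by simp [inj], pull_id]
  · intro i _ hij
    rw [AddMonoidHom.mk'_apply, pull_pull,
      show (LinearMap.proj i).comp (inj θ r j) = 0 from LinearMap.ext fun b => by simp [inj, hij]]
    simp [pull]
  · simp

theorem exists_map [Module.Finite K A₀] (m : ℕ) {r : ℕ}
    (e : E (Kill θ) (FR θ r) (Infl θ X) (2 * m)) : ∃ φ, Rep θ m e φ := by
  choose x hx using fun i : Fin r => even_surjective θ m (pull (inj θ r i) e)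
  refine ⟨∑ i, (LinearMap.toSpanSingleton A₀ X (x i)).comp (LinearMap.proj i), fun j => ?_⟩
  rw [← hx j]
  congr 1
  rw [LinearMap.sum_apply, Finset.sum_eq_single j]
  · simp
  · intro i _ hij; simp [hij]
  · simp

theorem Rep.pull {m r s : ℕ} {e : E (Kill θ) (FR θ s) (Infl θ X) (2 * m)}
    {φ : (Fin s → A₀) →ₗ[A₀] X} (he : Rep θ m e φ) (g : (Fin r → A₀) →ₗ[A₀] (Fin s → A₀)) :
    Rep θ m (ExtTools.pull (liftF θ g) e) (φ ∘ₗ g) := by
  intro i
  have hdec : (liftF θ g).comp (inj θ r i) =
      ∑ j, (inj θ s j).comp (rA θ (g (Pi.single i 1) j)) := by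
    refine LinearMap.ext fun b => funext fun l => ?_
    have hb : ∀ a : A₀, (Pi.single i a : Fin r → A₀) = a • Pi.single i 1 := fun a => by
      funext t; rcases eq_or_ne t i with rfl | h <;> simp [*]
    simp only [LinearMap.sum_apply, Finset.sum_apply, LinearMap.comp_apply, inj,
      LinearMap.coe_single]
    rw [Finset.sum_eq_single l]
    · show g (Pi.single i b) l = _
      erw [hb, map_smul]
      rw [Pi.single_eq_same]
      rfl
    · intro j _ hj; exact Pi.single_eq_of_ne (Ne.symm hj) _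
    · simp
  rw [pull_pull, hdec, pull_sum θ]
  simp only [← pull_pull, he _, pull_even θ]
  refine (map_sum (AddMonoidHom.mk' (even θ m) (even_add θ m)) _ _).symm.trans ?_
  rw [AddMonoidHom.mk'_apply, LinearMap.comp_apply]
  congr 1
  conv_rhs => rw [pi_eq_sum_univ (g (Pi.single i 1)), map_sum]
  refine Finset.sum_congr rfl fun j _ => ?_
  rw [map_smul]
  congr 2
  funext t
  simp [Pi.single_apply, eq_comm]

theorem eq_zero_of_pull {m r s : ℕ} [Module.Finite K A₀]
    {e : E (Kill θ) (FR θ s) (Infl θ X) (2 * m)}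
    {φ : (Fin s → A₀) →ₗ[A₀] X} (he : Rep θ m e φ) (g : (Fin r → A₀) →ₗ[A₀] (Fin s → A₀))
    (h0 : ExtTools.pull (liftF θ g) e = 0) : φ ∘ₗ g = 0 := by
  refine LinearMap.pi_ext' fun i => LinearMap.ext_ring ?_
  have := (Rep.pull θ he g) i
  rw [h0, pull_zero] at this
  simpa using even_injective θ m _ this.symm

end Free

section Main

variable (θ : Cocycle K A₀) {X : Type} [AddCommGroup X] [Module A₀ X]
  {Y : Type} [AddCommGroup Y] [Module A₀ Y]

/-- a surjection from a free module, inflated -/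
noncomputable def liftP0 {r : ℕ} (p : (Fin r → A₀) →ₗ[A₀] Y) : FR θ r →ₗ[Kill θ] Infl θ Y where
  toFun v := p v
  map_add' := p.map_add
  map_smul' a v := p.map_smul a.u v

/-- the inclusion of a kernel, inflated -/
noncomputable def liftI0 {r : ℕ} (p : (Fin r → A₀) →ₗ[A₀] Y) :
    Infl θ (LinearMap.ker p) →ₗ[Kill θ] FR θ r where
  toFun v := (LinearMap.ker p).subtype v
  map_add' := (LinearMap.ker p).subtype.map_add
  map_smul' a v := (LinearMap.ker p).subtype.map_smul a.u v

theorem seq_infl {r : ℕ} (p : (Fin r → A₀) →ₗ[A₀] Y) (hp : Function.Surjective p) :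
    Function.Injective (liftI0 θ p) ∧ Function.Surjective (liftP0 θ p) ∧
      Function.Exact (liftI0 θ p) (liftP0 θ p) :=
  ⟨Subtype.val_injective, hp, exact_ker p⟩

theorem eq_zero_of_pull_eq_zero {R A B C T : Type} [Ring R] [AddCommGroup A] [Module R A]
    [AddCommGroup B] [Module R B] [AddCommGroup C] [Module R C] [AddCommGroup T] [Module R T]
    {f : A →ₗ[R] B} {g : B →ₗ[R] C} (hf : Function.Injective f) (hg : Function.Surjective g)
    (he : Function.Exact f g) {n : ℕ} (hs : ∀ y : E R A T n, ∃ x : E R B T n, pull f x = y)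
    (x : E R C T (n + 1)) (hx : pull g x = 0) : x = 0 := by
  obtain ⟨y, rfl⟩ := Ext.contravariant_sequence_exact₃ (shortExact hf hg he) _ x hx (n₀ := n)
    (by omega)
  obtain ⟨z, rfl⟩ := hs y
  exact (shortExact hf hg he).extClass_comp_assoc z

/-- classes on a syzygy are restrictions -/
theorem restrict_surj [Module.Finite K A₀] (n : ℕ) :
    ∀ (Y : Type) [AddCommGroup Y] [Module A₀ Y], (∀ j, Van A₀ Y X (j + 1)) →
      ∀ (r : ℕ) (p : (Fin r → A₀) →ₗ[A₀] Y), Function.Surjective p →
        ∀ e : E (Kill θ) (Infl θ (LinearMap.ker p)) (Infl θ X) n,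
          ∃ e', pull (liftI0 θ p) e' = e := by
  induction n with
  | zero =>
    intro Y _ _ hY r p hp e
    obtain ⟨f, rfl⟩ := cls_surjective e
    obtain ⟨k, hk⟩ := extend_of_van_one (Submodule.injective_subtype _) hp (exact_ker p) (hY 0)
      (down0 θ f)
    refine ⟨cls (liftP0 θ k), (pull_cls _ _).trans (congrArg cls (LinearMap.ext fun v => ?_))⟩
    exact LinearMap.congr_fun hk v
  | succ n ih =>
    intro Y _ _ hY r p hp e
    have hY1 : ∀ j, Van A₀ (LinearMap.ker p) X (j + 1) := fun j =>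
      van_left (Submodule.injective_subtype _) hp (exact_ker p) (van_of_projective j) (hY (j + 1))
    have hnoeth : IsNoetherianRing A₀ := IsNoetherianRing.of_finite K A₀
    obtain ⟨s, q, hq⟩ := Module.Finite.exists_fin' A₀ (LinearMap.ker p)
    obtain ⟨hi, hs, hex⟩ := seq_infl θ q hq
    have inj' := eq_zero_of_pull_eq_zero (T := Infl θ X) hi hs hex (ih _ hY1 s q hq)
    obtain ⟨m, hm | hm⟩ := Nat.even_or_odd' (n + 1)
    · generalize n + 1 = N at *
      subst hm
      obtain ⟨φ, hφ⟩ := exists_map θ m (pull (liftP0 θ q) e)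
      obtain ⟨t, c, hc⟩ := Module.Finite.exists_fin' A₀ (LinearMap.ker q)
      have h0 : φ ∘ₗ ((LinearMap.ker q).subtype ∘ₗ c) = 0 := by
        refine eq_zero_of_pull θ hφ _ ?_
        rw [pull_pull]
        have : (liftP0 θ q).comp (liftF θ ((LinearMap.ker q).subtype ∘ₗ c)) = 0 :=
          LinearMap.ext fun v => (c v).2
        rw [this]
        simp [ExtTools.pull]
      have hker : LinearMap.ker q ≤ LinearMap.ker φ := fun v hv => by
        obtain ⟨w, hw⟩ := hc ⟨v, hv⟩
        have := LinearMap.congr_fun h0 w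
        rw [LinearMap.comp_apply, LinearMap.comp_apply, hw] at this
        exact this
      obtain ⟨φ₁, hφ₁⟩ : ∃ φ₁ : LinearMap.ker p →ₗ[A₀] X, φ₁ ∘ₗ q = φ :=
        ⟨((LinearMap.ker q).liftQ φ hker).comp (q.quotKerEquivOfSurjective hq).symm.toLinearMap,
          LinearMap.ext fun v => by
            simp [show (q.quotKerEquivOfSurjective hq).symm (q v) = Submodule.Quotient.mk v from
              (LinearEquiv.symm_apply_eq _).2 (by simp)]⟩
      obtain ⟨φ₀, hφ₀⟩ := extend_of_van_one (Submodule.injective_subtype _) hp (exact_ker p) (hY 0) φ₁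
      obtain ⟨e', he'⟩ := exists_class θ m φ₀
      refine ⟨e', sub_eq_zero.1 (inj' _ ?_)⟩
      have hcomp : pull (liftP0 θ q) (pull (liftI0 θ p) e') =
          pull (liftF θ ((LinearMap.ker p).subtype ∘ₗ q)) e' := pull_pull _ _ _
      rw [pull_sub, hcomp]
      apply rep_eq_zero θ (m := m)
      intro i
      rw [pull_sub, LinearMap.zero_apply, even_zero, sub_eq_zero, (Rep.pull θ he' _) i, hφ i,
        ← hφ₁]
      congr 1
      exact LinearMap.congr_fun hφ₀ _
    · refine ⟨0, ?_⟩
      rw [pull_zero]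
      refine (inj' e ?_).symm
      have hv : Van (Kill θ) (FR θ s) (Infl θ X) (n + 1) := hm ▸ van_pi_left (van_odd θ m) s
      exact Subsingleton.elim (h := hv) _ _

/-- The vanishing of all Ext groups passes to the inflated modules. -/
theorem extVan_infl [Module.Finite K A₀] [Module.Finite A₀ Y]
    (h : ∀ i, ExtVan A₀ Y X i) : ∀ n, ExtVan (Kill θ) (Infl θ Y) (Infl θ X) n := by
  have hom0 : ∀ f : Y →ₗ[A₀] X, f = 0 := van_zero_iff.1 (h 0)
  rintro (_ | n)
  · refine van_zero_iff.2 fun f => LinearMap.ext fun y => ?_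
    exact LinearMap.congr_fun (hom0 (down0 θ f)) y
  · obtain ⟨r, p, hp⟩ := Module.Finite.exists_fin' A₀ Y
    obtain ⟨hi, hs, hex⟩ := seq_infl θ p hp
    refine subsingleton_of_forall_eq 0 fun x =>
      eq_zero_of_pull_eq_zero hi hs hex (restrict_surj θ n Y (fun j => h (j + 1)) r p hp) x ?_
    obtain ⟨m, hm | hm⟩ := Nat.even_or_odd' (n + 1)
    · generalize n + 1 = N at *
      subst hm
      obtain ⟨φ, hφ⟩ := exists_map θ m (pull (liftP0 θ p) x)
      have hnoeth : IsNoetherianRing A₀ := IsNoetherianRing.of_finite K A₀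
      obtain ⟨t, c, hc⟩ := Module.Finite.exists_fin' A₀ (LinearMap.ker p)
      have h0 : φ ∘ₗ ((LinearMap.ker p).subtype ∘ₗ c) = 0 := by
        refine eq_zero_of_pull θ hφ _ ?_
        rw [pull_pull]
        have : (liftP0 θ p).comp (liftF θ ((LinearMap.ker p).subtype ∘ₗ c)) = 0 :=
          LinearMap.ext fun v => (c v).2
        rw [this]
        simp [ExtTools.pull]
      have hφ0 : φ = 0 := by
        have hker : LinearMap.ker p ≤ LinearMap.ker φ := fun v hv => by
          obtain ⟨w, hw⟩ := hc ⟨v, hv⟩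
          have := LinearMap.congr_fun h0 w
          rw [LinearMap.comp_apply, LinearMap.comp_apply, hw] at this
          exact this
        refine LinearMap.ext fun v => ?_
        have := LinearMap.congr_fun
          (hom0 (((LinearMap.ker p).liftQ φ hker).comp (p.quotKerEquivOfSurjective hp).symm.toLinearMap))
          (p v)
        simpa [show (p.quotKerEquivOfSurjective hp).symm (p v) = Submodule.Quotient.mk v from
          (LinearEquiv.symm_apply_eq _).2 (by simp)] using this
      exact rep_eq_zero θ (hφ0 ▸ hφ)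
    · have hv : Van (Kill θ) (FR θ r) (Infl θ X) (n + 1) := hm ▸ van_pi_left (van_odd θ m) r
      exact Subsingleton.elim (h := hv) _ _

end Main

end Vale.Agent.P195.KillOrbit
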