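import Vale.Agent.P195.Resolution

/-!
The total complex of four periodic columns joined by twisted horizontal maps.
-/

namespace Vale.Agent.P195

open CategoryTheory

variable (R : Type) [Ring R] (M : Type) [AddCommGroup M] [Module R M]

/-- four two-periodic columns (`P` in even, `Q` in odd height) with horizontal maps, their second
order corrections `η` and the third order maps `ΘP`, `ΘQ` -/
structure Twist (P₀ P₁ P₂ P₃ Q₀ Q₁ Q₂ Q₃ : Type)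
    [AddCommGroup P₀] [AddCommGroup P₁] [AddCommGroup P₂] [AddCommGroup P₃]
    [AddCommGroup Q₀] [AddCommGroup Q₁] [AddCommGroup Q₂] [AddCommGroup Q₃]
    [Module R P₀] [Module R P₁] [Module R P₂] [Module R P₃]
    [Module R Q₀] [Module R Q₁] [Module R Q₂] [Module R Q₃] where
  σ₀ : Q₀ →ₗ[R] P₀
  σ₁ : Q₁ →ₗ[R] P₁
  σ₂ : Q₂ →ₗ[R] P₂
  σ₃ : Q₃ →ₗ[R] P₃
  ρ₀ : P₀ →ₗ[R] Q₀
  ρ₁ : P₁ →ₗ[R] Q₁
  ρ₂ : P₂ →ₗ[R] Q₂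
  ρ₃ : P₃ →ₗ[R] Q₃
  a₁ : P₁ →ₗ[R] P₀
  a₂ : P₂ →ₗ[R] P₁
  a₃ : P₃ →ₗ[R] P₂
  b₁ : Q₁ →ₗ[R] Q₀
  b₂ : Q₂ →ₗ[R] Q₁
  b₃ : Q₃ →ₗ[R] Q₂
  η₂ : P₂ →ₗ[R] Q₀
  η₃ : P₃ →ₗ[R] Q₁
  ΘP : P₃ →ₗ[R] P₀
  ΘQ : Q₃ →ₗ[R] Q₀
  π : P₀ →ₗ[R] M
  col₀ : Function.Exact ρ₀ σ₀
  col₀' : Function.Exact σ₀ ρ₀
  col₁ : Function.Exact ρ₁ σ₁
  col₁' : Function.Exact σ₁ ρ₁
  col₂ : Function.Exact ρ₂ σ₂
  col₂' : Function.Exact σ₂ ρ₂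
  col₃ : Function.Exact ρ₃ σ₃
  col₃' : Function.Exact σ₃ ρ₃
  aσ₁ : ∀ y, a₁ (σ₁ y) = σ₀ (b₁ y)
  aσ₂ : ∀ y, a₂ (σ₂ y) = σ₁ (b₂ y)
  aσ₃ : ∀ y, a₃ (σ₃ y) = σ₂ (b₃ y)
  bρ₁ : ∀ x, b₁ (ρ₁ x) = ρ₀ (a₁ x)
  bρ₂ : ∀ x, b₂ (ρ₂ x) = ρ₁ (a₂ x)
  bρ₃ : ∀ x, b₃ (ρ₃ x) = ρ₂ (a₃ x)
  bb₂ : ∀ y, b₁ (b₂ y) = 0
  bb₃ : ∀ y, b₂ (b₃ y) = 0
  aa₂ : ∀ x, a₁ (a₂ x) = σ₀ (η₂ x)
  aa₃ : ∀ x, a₂ (a₃ x) = σ₁ (η₃ x)
  ησ₂ : ∀ y, η₂ (σ₂ y) = 0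
  ησ₃ : ∀ y, η₃ (σ₃ y) = 0
  curv : ∀ x, b₁ (η₃ x) - η₂ (a₃ x) = ρ₀ (ΘP x)
  Θρ : ∀ x, ρ₀ (ΘP x) = ΘQ (ρ₃ x)
  Θσ : ∀ y, σ₀ (ΘQ y) = ΘP (σ₃ y)
  π_surj : Function.Surjective π
  π_σ : ∀ y, π (σ₀ y) = 0
  π_a : ∀ x, π (a₁ x) = 0
  ex₀ : ∀ x, π x = 0 → ∃ y, ∃ z, x - a₁ y = σ₀ z
  ex₁ : ∀ x, (∃ w, a₁ x = σ₀ w) → ∃ y, ∃ z, x - a₂ y = σ₁ z
  ex₂ : ∀ x, (∃ w, a₂ x = σ₁ w) → ∃ y, ∃ z, x - a₃ y = σ₂ z
  ex₃ : ∀ x, (∃ w, a₃ x = σ₂ w) → ∃ z, x = σ₃ z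

variable {R M} {P₀ P₁ P₂ P₃ Q₀ Q₁ Q₂ Q₃ : Type}
    [AddCommGroup P₀] [AddCommGroup P₁] [AddCommGroup P₂] [AddCommGroup P₃]
    [AddCommGroup Q₀] [AddCommGroup Q₁] [AddCommGroup Q₂] [AddCommGroup Q₃]
    [Module R P₀] [Module R P₁] [Module R P₂] [Module R P₃]
    [Module R Q₀] [Module R Q₁] [Module R Q₂] [Module R Q₃]
    (T : Twist R M P₀ P₁ P₂ P₃ Q₀ Q₁ Q₂ Q₃)

namespace Twist

/-- degree one to degree zero -/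
def D₁ : Q₀ × P₁ →ₗ[R] P₀ := T.σ₀.coprod T.a₁

/-- degree two to degree one -/
def D₂ : P₀ × Q₁ × P₂ →ₗ[R] Q₀ × P₁ where
  toFun x := (T.ρ₀ x.1 - T.b₁ x.2.1 - T.η₂ x.2.2, T.σ₁ x.2.1 + T.a₂ x.2.2)
  map_add' x y := by simp only [Prod.fst_add, Prod.snd_add, map_add, Prod.mk_add_mk]; congr 1 <;> abel
  map_smul' r x := by simp [smul_sub, smul_add]

/-- from odd to even degree, twisting coefficient `c` -/
def oddD (c : ℤ) : Q₀ × P₁ × Q₂ × P₃ →ₗ[R] P₀ × Q₁ × P₂ × Q₃ where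
  toFun x := (T.σ₀ x.1 + T.a₁ x.2.1 - c • T.ΘP x.2.2.2,
    T.ρ₁ x.2.1 - T.b₂ x.2.2.1 - T.η₃ x.2.2.2,
    T.σ₂ x.2.2.1 + T.a₃ x.2.2.2, T.ρ₃ x.2.2.2)
  map_add' x y := by
    simp only [Prod.fst_add, Prod.snd_add, map_add, smul_add, Prod.mk_add_mk]
    congr 1
    · abel
    congr 1
    · abel
    congr 1
    abel
  map_smul' r x := by simp [smul_sub, smul_add, smul_comm c r]

/-- from degree three to degree two -/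
def oddT : Q₀ × P₁ × Q₂ × P₃ →ₗ[R] P₀ × Q₁ × P₂ where
  toFun x := ((T.oddD 1 x).1, (T.oddD 1 x).2.1, (T.oddD 1 x).2.2.1)
  map_add' x y := by simp only [map_add]; rfl
  map_smul' r x := by simp only [map_smul]; rfl

/-- from even to odd degree, twisting coefficient `c` -/
def evenD (c : ℤ) : P₀ × Q₁ × P₂ × Q₃ →ₗ[R] Q₀ × P₁ × Q₂ × P₃ where
  toFun x := (T.ρ₀ x.1 - T.b₁ x.2.1 - T.η₂ x.2.2.1 + c • T.ΘQ x.2.2.2,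
    T.σ₁ x.2.1 + T.a₂ x.2.2.1, T.ρ₂ x.2.2.1 - T.b₃ x.2.2.2, T.σ₃ x.2.2.2)
  map_add' x y := by
    simp only [Prod.fst_add, Prod.snd_add, map_add, smul_add, Prod.mk_add_mk]
    congr 1
    · abel
    congr 1
    · abel
    congr 1
    abel
  map_smul' r x := by simp [smul_sub, smul_add, smul_comm c r]

theorem odd_even (c : ℤ) (x : P₀ × Q₁ × P₂ × Q₃) : T.oddD c (T.evenD c x) = 0 := by
  obtain ⟨x₀, y₁, x₂, y₃⟩ := x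
  simp [oddD, evenD, T.col₀.apply_apply_eq_zero, T.col₁'.apply_apply_eq_zero,
    T.col₂.apply_apply_eq_zero, T.col₃'.apply_apply_eq_zero, T.aσ₁, T.aσ₃, T.aa₂, T.Θσ, T.bρ₂,
    T.bb₃, T.ησ₃]
  abel

theorem even_odd (c : ℤ) (x : Q₀ × P₁ × Q₂ × P₃) : T.evenD c (T.oddD (c + 1) x) = 0 := by
  obtain ⟨y₀, x₁, y₂, x₃⟩ := x
  simp [oddD, evenD, T.col₀'.apply_apply_eq_zero, T.col₁.apply_apply_eq_zero,
    T.col₂'.apply_apply_eq_zero, T.col₃.apply_apply_eq_zero, T.aσ₂, T.aa₃, T.bρ₁, T.bρ₃,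
    T.bb₂, T.ησ₂, add_smul]
  rw [← T.Θρ, ← T.curv]
  abel

theorem D₂_oddT (x : Q₀ × P₁ × Q₂ × P₃) : T.D₂ (T.oddT x) = 0 := by
  obtain ⟨y₀, x₁, y₂, x₃⟩ := x
  simp [oddT, oddD, D₂, T.col₀'.apply_apply_eq_zero, T.col₁.apply_apply_eq_zero,
    T.aσ₂, T.aa₃, T.bρ₁, T.bb₂, T.ησ₂, ← T.curv]

theorem D₁_D₂ (x : P₀ × Q₁ × P₂) : T.D₁ (T.D₂ x) = 0 := by
  obtain ⟨x₀, y₁, x₂⟩ := x
  simp [D₁, D₂, T.col₀.apply_apply_eq_zero, T.aσ₁, T.aa₂]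

theorem exact_even_odd (c : ℤ) : Function.Exact (T.evenD c) (T.oddD c) := by
  refine fun y => ⟨fun h => ?_, fun ⟨x, hx⟩ => hx ▸ T.odd_even c x⟩
  obtain ⟨q₀, p₁, q₂, p₃⟩ := y
  simp only [oddD, LinearMap.coe_mk, AddHom.coe_mk, Prod.mk_eq_zero] at h
  obtain ⟨h₀, h₁, h₂, h₃⟩ := h
  obtain ⟨z₃, rfl⟩ := (T.col₃' _).1 h₃
  rw [T.aσ₃, ← map_add] at h₂
  obtain ⟨z₂, hz₂⟩ := (T.col₂ _).1 h₂
  have h₁' : T.ρ₁ (p₁ - T.a₂ z₂) = 0 := by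
    rw [T.ησ₃, sub_zero] at h₁
    rw [map_sub, ← T.bρ₂, hz₂, map_add, T.bb₃, add_zero, h₁]
  obtain ⟨z₁, hz₁⟩ := (T.col₁' _).1 h₁'
  have h₀' : T.σ₀ (q₀ + T.b₁ z₁ + T.η₂ z₂ - c • T.ΘQ z₃) = 0 := by
    rw [map_sub, map_add, map_add, map_zsmul, ← T.aσ₁, hz₁, ← T.aa₂, T.Θσ, map_sub, ← h₀]
    abel
  obtain ⟨z₀, hz₀⟩ := (T.col₀ _).1 h₀'
  refine ⟨(z₀, z₁, z₂, z₃), ?_⟩
  simp only [evenD, LinearMap.coe_mk, AddHom.coe_mk, hz₀, hz₁, hz₂]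
  simp
  abel

theorem exact_odd_even (c : ℤ) : Function.Exact (T.oddD (c + 1)) (T.evenD c) := by
  refine fun y => ⟨fun h => ?_, fun ⟨x, hx⟩ => hx ▸ T.even_odd c x⟩
  obtain ⟨p₀, q₁, p₂, q₃⟩ := y
  simp only [evenD, LinearMap.coe_mk, AddHom.coe_mk, Prod.mk_eq_zero] at h
  obtain ⟨h₀, h₁, h₂, h₃⟩ := h
  obtain ⟨z₃, rfl⟩ := (T.col₃ _).1 h₃
  rw [T.bρ₃, ← map_sub] at h₂
  obtain ⟨z₂, hz₂⟩ := (T.col₂' _).1 h₂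
  have h₁' : T.σ₁ (q₁ + T.b₂ z₂ + T.η₃ z₃) = 0 := by
    rw [map_add, map_add, ← T.aσ₂, hz₂, ← T.aa₃, map_sub, ← h₁]
    abel
  obtain ⟨z₁, hz₁⟩ := (T.col₁ _).1 h₁'
  have h₀' : T.ρ₀ (p₀ - T.a₁ z₁ + (c + 1) • T.ΘP z₃) = 0 := by
    have e : T.η₂ (T.a₃ z₃) = T.η₂ p₂ := by
      have := congrArg T.η₂ hz₂
      rw [T.ησ₂, map_sub, eq_comm, sub_eq_zero] at this
      exact this.symm
    have e' : T.ρ₀ (T.ΘP z₃) = T.b₁ (T.η₃ z₃) - T.η₂ p₂ := by rw [← T.curv, e]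
    rw [← T.Θρ, e'] at h₀
    rw [map_add, map_sub, map_zsmul, ← T.bρ₁, hz₁, map_add, map_add, T.bb₂, add_smul, one_smul,
      e']
    refine Eq.trans ?_ h₀
    abel
  obtain ⟨z₀, hz₀⟩ := (T.col₀' _).1 h₀'
  refine ⟨(z₀, z₁, z₂, z₃), ?_⟩
  simp only [oddD, LinearMap.coe_mk, AddHom.coe_mk, hz₀, hz₁, hz₂]
  simp
  refine ⟨?_, ?_⟩ <;> abel

theorem exact_even_oddT : Function.Exact (T.evenD 1) T.oddT := by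
  refine fun y => ⟨fun h => ?_, fun ⟨x, hx⟩ => ?_⟩
  · obtain ⟨q₀, p₁, q₂, p₃⟩ := y
    simp only [oddT, oddD, LinearMap.coe_mk, AddHom.coe_mk, Prod.mk_eq_zero] at h
    obtain ⟨z₃, rfl⟩ := T.ex₃ p₃ ⟨-q₂, by rw [map_neg]; exact eq_neg_of_add_eq_zero_right h.2.2⟩
    refine (T.exact_even_odd 1 _).1 ?_
    simp only [oddD, LinearMap.coe_mk, AddHom.coe_mk, Prod.mk_eq_zero]
    exact ⟨h.1, h.2.1, h.2.2, T.col₃'.apply_apply_eq_zero _⟩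
  · subst hx
    have h := T.odd_even 1 x
    simp [oddT, h]

theorem exact_oddT_D₂ : Function.Exact T.oddT T.D₂ := by
  refine fun y => ⟨fun h => ?_, fun ⟨x, hx⟩ => hx ▸ T.D₂_oddT x⟩
  obtain ⟨p₀, q₁, p₂⟩ := y
  simp only [D₂, LinearMap.coe_mk, AddHom.coe_mk, Prod.mk_eq_zero] at h
  obtain ⟨h₀, h₁⟩ := h
  obtain ⟨z₃, z₂, hz⟩ := T.ex₂ p₂ ⟨-q₁, by rw [map_neg]; exact eq_neg_of_add_eq_zero_right h₁⟩
  have h₁' : T.σ₁ (q₁ + T.b₂ z₂ + T.η₃ z₃) = 0 := by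
    rw [map_add, map_add, ← T.aσ₂, ← hz, ← T.aa₃, map_sub, ← h₁]
    abel
  obtain ⟨z₁, hz₁⟩ := (T.col₁ _).1 h₁'
  have h₀' : T.ρ₀ (p₀ - T.a₁ z₁ + T.ΘP z₃) = 0 := by
    have e : T.η₂ (T.a₃ z₃) = T.η₂ p₂ := by
      have := congrArg T.η₂ hz
      rw [T.ησ₂, map_sub, sub_eq_zero] at this
      exact this.symm
    rw [map_add, map_sub, ← T.bρ₁, hz₁, map_add, map_add, T.bb₂, ← T.curv, e]
    refine Eq.trans ?_ h₀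
    abel
  obtain ⟨z₀, hz₀⟩ := (T.col₀' _).1 h₀'
  refine ⟨(z₀, z₁, z₂, z₃), ?_⟩
  simp only [oddT, oddD, LinearMap.coe_mk, AddHom.coe_mk, hz₀, hz₁, ← hz]
  simp
  refine ⟨?_, ?_⟩ <;> abel

theorem exact_D₂_D₁ : Function.Exact T.D₂ T.D₁ := by
  refine fun y => ⟨fun h => ?_, fun ⟨x, hx⟩ => hx ▸ T.D₁_D₂ x⟩
  obtain ⟨q₀, p₁⟩ := y
  simp only [D₁, LinearMap.coprod_apply] at h
  obtain ⟨z₂, z₁, hz⟩ := T.ex₁ p₁ ⟨-q₀, by rw [map_neg]; exact eq_neg_of_add_eq_zero_right h⟩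
  have h₀' : T.σ₀ (q₀ + T.b₁ z₁ + T.η₂ z₂) = 0 := by
    rw [map_add, map_add, ← T.aσ₁, ← hz, ← T.aa₂, map_sub, ← h]
    abel
  obtain ⟨z₀, hz₀⟩ := (T.col₀ _).1 h₀'
  refine ⟨(z₀, z₁, z₂), ?_⟩
  simp only [D₂, LinearMap.coe_mk, AddHom.coe_mk, hz₀, ← hz]
  simp
  abel

theorem exact_D₁_π : Function.Exact T.D₁ T.π := by
  refine fun y => ⟨fun h => ?_, fun ⟨x, hx⟩ => ?_⟩
  · obtain ⟨p, q, hq⟩ := T.ex₀ y h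
    exact ⟨(q, p), by simp [D₁, ← hq]⟩
  · subst hx
    simp [D₁, T.π_σ, T.π_a]

end Twist

namespace Twist

/-! ### The resolution as a sequence of modules -/

section Resolution

set_option linter.unusedSectionVars false

/-- odd and even degrees from three on -/
def per (_T : Twist R M P₀ P₁ P₂ P₃ Q₀ Q₁ Q₂ Q₃) : ℕ → ModuleCat.{0} R
  | 0 => ModuleCat.of R (Q₀ × P₁ × Q₂ × P₃)
  | 1 => ModuleCat.of R (P₀ × Q₁ × P₂ × Q₃)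
  | j + 2 => per _T j

/-- the modules of the resolution -/
def tot : ℕ → ModuleCat.{0} R
  | 0 => ModuleCat.of R P₀
  | 1 => ModuleCat.of R (Q₀ × P₁)
  | 2 => ModuleCat.of R (P₀ × Q₁ × P₂)
  | j + 3 => T.per j

/-- the differentials from degree four on -/
def perD : ∀ (j : ℕ), ℤ → (T.per (j + 1) →ₗ[R] T.per j)
  | 0, c => T.evenD c
  | 1, c => T.oddD (c + 1)
  | j + 2, c => perD j (c + 1)

/-- the differentials of the resolution -/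
def totD : ∀ n, T.tot (n + 1) →ₗ[R] T.tot n
  | 0 => T.D₁
  | 1 => T.D₂
  | 2 => T.oddT
  | j + 3 => T.perD j 1

theorem per_exact : ∀ (j : ℕ) (c : ℤ), Function.Exact (T.perD (j + 1) c) (T.perD j c)
  | 0, c => T.exact_odd_even c
  | 1, c => T.exact_even_odd (c + 1)
  | j + 2, c => per_exact j (c + 1)

theorem tot_exact : ∀ n, Function.Exact (T.totD (n + 1)) (T.totD n)
  | 0 => T.exact_D₂_D₁
  | 1 => T.exact_oddT_D₂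
  | 2 => T.exact_even_oddT
  | j + 3 => T.per_exact j 1

variable [Module.Projective R P₀] [Module.Projective R P₁] [Module.Projective R P₂]
  [Module.Projective R P₃] [Module.Projective R Q₀] [Module.Projective R Q₁]
  [Module.Projective R Q₂] [Module.Projective R Q₃]

theorem per_projective : ∀ j, Module.Projective R (T.per j)
  | 0 => inferInstanceAs (Module.Projective R (Q₀ × P₁ × Q₂ × P₃))
  | 1 => inferInstanceAs (Module.Projective R (P₀ × Q₁ × P₂ × Q₃))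
  | j + 2 => per_projective j

theorem tot_projective : ∀ n, Module.Projective R (T.tot n)
  | 0 => inferInstanceAs (Module.Projective R P₀)
  | 1 => inferInstanceAs (Module.Projective R (Q₀ × P₁))
  | 2 => inferInstanceAs (Module.Projective R (P₀ × Q₁ × P₂))
  | j + 3 => T.per_projective j

variable {X : Type} [AddCommGroup X] [Module R X]

/-- what the complex of maps into `X` needs -/
structure Kills (T : Twist R M P₀ P₁ P₂ P₃ Q₀ Q₁ Q₂ Q₃) (X : Type) [AddCommGroup X] [Module R X] :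
    Prop where
  hQ₀ : ∀ f : Q₀ →ₗ[R] X, f = 0
  hQ₁ : ∀ f : Q₁ →ₗ[R] X, f = 0
  hQ₂ : ∀ f : Q₂ →ₗ[R] X, f = 0
  hQ₃ : ∀ f : Q₃ →ₗ[R] X, f = 0
  hP₁ : ∀ f : P₁ →ₗ[R] X, f = 0
  hP₂ : ∀ f : P₂ →ₗ[R] X, f = 0
  inj : ∀ c : ℤ, 1 ≤ c → ∀ f : P₀ →ₗ[R] X, (∀ x, c • f (T.ΘP x) = 0) → f = 0
  surj : ∀ c : ℤ, 1 ≤ c → ∀ f : P₃ →ₗ[R] X, ∃ g : P₀ →ₗ[R] X, ∀ x, c • g (T.ΘP x) = f x

variable {T} (hk : T.Kills X)
include hk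

theorem odd_hom (f : Q₀ × P₁ × Q₂ × P₃ →ₗ[R] X) (y : Q₀ × P₁ × Q₂ × P₃) :
    f y = f (0, 0, 0, y.2.2.2) := by
  have h₀ : ∀ q, f (q, 0) = 0 := fun q => LinearMap.congr_fun (hk.hQ₀ (f ∘ₗ LinearMap.inl R _ _)) q
  have h₁ : ∀ p, f (0, p, 0) = 0 := fun p =>
    LinearMap.congr_fun (hk.hP₁ (f ∘ₗ LinearMap.inr R _ _ ∘ₗ LinearMap.inl R _ _)) p
  have h₂ : ∀ q, f (0, 0, q, 0) = 0 := fun q => LinearMap.congr_fun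
    (hk.hQ₂ (f ∘ₗ LinearMap.inr R _ _ ∘ₗ LinearMap.inr R _ _ ∘ₗ LinearMap.inl R _ _)) q
  obtain ⟨q₀, p₁, q₂, p₃⟩ := y
  have e : ((q₀, p₁, q₂, p₃) : Q₀ × P₁ × Q₂ × P₃)
      = (q₀, 0) + (0, p₁, 0) + (0, 0, q₂, 0) + (0, 0, 0, p₃) := by
    simp only [Prod.mk_add_mk, add_zero, zero_add, Prod.zero_eq_mk]
  rw [e, map_add, map_add, map_add, h₀, h₁, h₂, zero_add, zero_add, zero_add, ← e]

theorem even_hom (f : P₀ × Q₁ × P₂ × Q₃ →ₗ[R] X) (y : P₀ × Q₁ × P₂ × Q₃) :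
    f y = f (y.1, 0) := by
  have h₁ : ∀ p, f (0, p, 0) = 0 := fun p =>
    LinearMap.congr_fun (hk.hQ₁ (f ∘ₗ LinearMap.inr R _ _ ∘ₗ LinearMap.inl R _ _)) p
  have h₂ : ∀ q, f (0, 0, q, 0) = 0 := fun q => LinearMap.congr_fun
    (hk.hP₂ (f ∘ₗ LinearMap.inr R _ _ ∘ₗ LinearMap.inr R _ _ ∘ₗ LinearMap.inl R _ _)) q
  have h₃ : ∀ q, f (0, 0, 0, q) = 0 := fun q => LinearMap.congr_fun
    (hk.hQ₃ (f ∘ₗ LinearMap.inr R _ _ ∘ₗ LinearMap.inr R _ _ ∘ₗ LinearMap.inr R _ _)) q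
  obtain ⟨p₀, q₁, p₂, q₃⟩ := y
  have e : ((p₀, q₁, p₂, q₃) : P₀ × Q₁ × P₂ × Q₃)
      = (p₀, 0) + (0, q₁, 0) + (0, 0, p₂, 0) + (0, 0, 0, q₃) := by
    simp only [Prod.mk_add_mk, add_zero, zero_add, Prod.zero_eq_mk]
  rw [e, map_add, map_add, map_add, h₁, h₂, h₃, add_zero, add_zero, add_zero, ← e]

theorem odd_zero {c : ℤ} (hc : 1 ≤ c) {f : P₀ × Q₁ × P₂ × Q₃ →ₗ[R] X}
    (h : f ∘ₗ T.oddD c = 0) : f = 0 := by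
  have hf : f ∘ₗ LinearMap.inl R _ _ = 0 := hk.inj c hc _ fun x => by
    have := LinearMap.congr_fun h (0, 0, 0, x)
    rw [LinearMap.comp_apply, even_hom hk] at this
    have e : (T.oddD c (0, 0, 0, x)).1 = -(c • T.ΘP x) := by simp [oddD]
    rw [e] at this
    rw [← map_zsmul, ← neg_eq_zero, ← map_neg]
    exact this
  exact LinearMap.ext fun y => (even_hom hk f y).trans (LinearMap.congr_fun hf y.1)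

theorem even_lift {c : ℤ} (hc : 1 ≤ c) (f : Q₀ × P₁ × Q₂ × P₃ →ₗ[R] X) :
    ∃ g : P₀ × Q₁ × P₂ × Q₃ →ₗ[R] X, g ∘ₗ T.oddD c = f := by
  obtain ⟨g, hg⟩ := hk.surj c hc (f ∘ₗ LinearMap.inr R _ _ ∘ₗ LinearMap.inr R _ _ ∘ₗ LinearMap.inr R _ _)
  refine ⟨(-g) ∘ₗ LinearMap.fst R _ _, LinearMap.ext fun y => ?_⟩
  rw [odd_hom hk f y]
  have e0 : g (T.σ₀ y.1) = 0 := LinearMap.congr_fun (hk.hQ₀ (g ∘ₗ T.σ₀)) _
  have e1 : g (T.a₁ y.2.1) = 0 := LinearMap.congr_fun (hk.hP₁ (g ∘ₗ T.a₁)) _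
  simp [oddD, e0, e1, hg y.2.2.2]

theorem per_hom : ∀ (j : ℕ) (c : ℤ), 1 ≤ c → ∀ f : T.per (j + 1) →ₗ[R] X,
    f ∘ₗ T.perD (j + 1) c = 0 → ∃ g : T.per j →ₗ[R] X, g ∘ₗ T.perD j c = f
  | 0, c, hc, f, hf => ⟨0, by
      rw [show f = 0 from odd_zero hk (f := f) (c := c + 1) (by omega) hf]; rfl⟩
  | 1, c, hc, f, _ => even_lift hk (c := c + 1) (by omega) f
  | j + 2, c, hc, f, hf => per_hom j (c + 1) (by omega) f hf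

theorem tot_hom : ∀ n (f : T.tot (n + 1) →ₗ[R] X), f ∘ₗ T.totD (n + 1) = 0 →
    ∃ g : T.tot n →ₗ[R] X, g ∘ₗ T.totD n = f
  | 0, f, _ => ⟨0, by
      refine (LinearMap.zero_comp _).trans (LinearMap.prod_ext ?_ ?_)
      · exact (hk.hQ₀ (f ∘ₗ LinearMap.inl R Q₀ P₁)).symm
      · exact (hk.hP₁ (f ∘ₗ LinearMap.inr R Q₀ P₁)).symm⟩
  | 1, f, hf => ⟨0, by
      let f' : P₀ × Q₁ × P₂ × Q₃ →ₗ[R] X := f ∘ₗ (LinearMap.id.prodMap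
        (LinearMap.id.prodMap (LinearMap.fst R P₂ Q₃)))
      have h0 : f' = 0 := odd_zero hk (c := 1) le_rfl (LinearMap.ext fun y => LinearMap.congr_fun hf y)
      refine (LinearMap.zero_comp _).trans (LinearMap.ext fun y => ?_)
      exact (LinearMap.congr_fun h0 ((y : P₀ × Q₁ × P₂).1, (y : P₀ × Q₁ × P₂).2.1,
        (y : P₀ × Q₁ × P₂).2.2, 0)).symm⟩
  | 2, f, _ => by
      obtain ⟨g, hg⟩ := even_lift hk (c := 1) le_rfl f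
      refine ⟨g ∘ₗ (LinearMap.id.prodMap (LinearMap.id.prodMap (LinearMap.inl R P₂ Q₃))),
        LinearMap.ext fun y => ?_⟩
      have e : g (T.oddD 1 y) = f y := LinearMap.congr_fun hg y
      rw [even_hom hk] at e
      show g ((T.oddT y).1, (T.oddT y).2.1, (T.oddT y).2.2, 0) = f y
      rw [even_hom hk]
      exact e
  | j + 3, f, hf => per_hom hk j 1 le_rfl f hf

/-- the twisted total complex computes vanishing Ext groups -/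
theorem extVan (i : ℕ) (hi : 1 ≤ i) :
    Subsingleton (Abelian.Ext (ModuleCat.of R M) (ModuleCat.of R X) i) :=
  haveI := T.tot_projective
  extVan_of_resolution (fun n => T.tot n) T.totD T.π T.π_surj T.exact_D₁_π T.tot_exact
    (tot_hom hk) i hi

end Resolution

end Twist

end Vale.Agent.P195
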