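import Vale.Agent.P195.CellMaps
import Vale.Agent.P195.TotalComplex

/-!
The twisted resolution of the inflation of `H` and the vanishing of `Ext` from `H` into `X`.
-/

namespace Vale.Agent.P195

open Kill

variable {K : Type} [Field K] {A₀ : Type} [Ring A₀] [Algebra K A₀]
  {X X₁ H : Type} [AddCommGroup X] [Module A₀ X] [Module K X] [IsScalarTower K A₀ X]
  [AddCommGroup X₁] [Module A₀ X₁] [Module K X₁] [IsScalarTower K A₀ X₁]
  [AddCommGroup H] [Module A₀ H] [Module K H] [IsScalarTower K A₀ H]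

namespace Base

set_option linter.unusedSectionVars false

variable (B : Base K A₀ X X₁ H)


/-- two copies of a cell of the first kind -/
abbrev PP (p : Fin 4) : Type := P1 B.θ (B.ε p) × P1 B.θ (B.ε p)

/-- two copies of a cell of the second kind -/
abbrev QQ (p : Fin 4) : Type := P2 B.θ (B.ε p) × P2 B.θ (B.ε p)

/-- the augmentation -/
noncomputable def aug : P1 B.θ (B.ε 0) →ₗ[Kill B.θ] Infl B.θ H :=
  LinearMap.toSpanSingleton (Kill B.θ) (Infl B.θ H) (toInfl B.θ B.gen) ∘ₗ (P1 B.θ (B.ε 0)).subtype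

theorem aug_apply (x : P1 B.θ (B.ε 0)) : B.aug x = (x : Kill B.θ).u • B.gen := rfl

theorem aug_surjective : Function.Surjective B.aug := by
  intro h
  obtain ⟨a, rfl⟩ := B.gen_span h
  refine ⟨⟨emb B.θ (a * B.ε 0), emb_mem (B.normal 0) (by rw [mul_assoc, B.idem])⟩, ?_⟩
  show (a * B.ε 0) • B.gen = a • B.gen
  rw [mul_smul, B.gen_eq]

/-- the horizontal map from the first column -/
noncomputable def mapA₁ : B.PP 1 →ₗ[Kill B.θ] P1 B.θ (B.ε 0) :=
  (mulP (B.normal 0) (B.d1_right 0)).coprod (mulP (B.normal 0) (B.d1_right 1))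

/-- the horizontal map from the second column -/
noncomputable def mapA₂ : B.PP 2 →ₗ[Kill B.θ] B.PP 1 :=
  ((mulP (B.normal 1) (B.d2_right 0 0)).coprod (mulP (B.normal 1) (B.d2_right 1 0))).prod
    ((mulP (B.normal 1) (B.d2_right 0 1)).coprod (mulP (B.normal 1) (B.d2_right 1 1)))

/-- the horizontal map from the third column -/
noncomputable def mapA₃ : P1 B.θ (B.ε 3) →ₗ[Kill B.θ] B.PP 2 :=
  (mulP (B.normal 2) (B.d3_right 0)).prod (mulP (B.normal 2) (B.d3_right 1))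

/-- the horizontal map from the first column, odd height -/
noncomputable def mapB₁ : B.QQ 1 →ₗ[Kill B.θ] P2 B.θ (B.ε 0) :=
  (mulQ (B.d1_right 0)).coprod (mulQ (B.d1_right 1))

/-- the horizontal map from the second column, odd height -/
noncomputable def mapB₂ : B.QQ 2 →ₗ[Kill B.θ] B.QQ 1 :=
  ((mulQ (B.d2_right 0 0)).coprod (mulQ (B.d2_right 1 0))).prod
    ((mulQ (B.d2_right 0 1)).coprod (mulQ (B.d2_right 1 1)))

/-- the horizontal map from the third column, odd height -/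
noncomputable def mapB₃ : P2 B.θ (B.ε 3) →ₗ[Kill B.θ] B.QQ 2 :=
  (mulQ (B.d3_right 0)).prod (mulQ (B.d3_right 1))

theorem exact_prodMap {R P₁ P₂ P₃ : Type} [Ring R] [AddCommGroup P₁] [AddCommGroup P₂]
    [AddCommGroup P₃] [Module R P₁] [Module R P₂] [Module R P₃] {f : P₁ →ₗ[R] P₂} {g : P₂ →ₗ[R] P₃}
    (h : Function.Exact f g) : Function.Exact (f.prodMap f) (g.prodMap g) := by
  rintro ⟨x, y⟩
  constructor
  · intro e
    simp only [LinearMap.prodMap_apply, Prod.mk_eq_zero] at e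
    obtain ⟨a, ha⟩ := (h x).1 e.1
    obtain ⟨b, hb⟩ := (h y).1 e.2
    exact ⟨(a, b), by simp [ha, hb]⟩
  · rintro ⟨⟨a, b⟩, e⟩
    rw [← e]
    simp [h.apply_apply_eq_zero]

/-- lifting elements of `A₀ ε` to the cell -/
noncomputable def liftP {p : Fin 4} (v : A₀) (hv : v * B.ε p = v) : P1 B.θ (B.ε p) :=
  ⟨emb B.θ v, emb_mem (B.normal p) hv⟩

@[simp] theorem liftP_u {p : Fin 4} (v : A₀) (hv : v * B.ε p = v) :
    ((B.liftP v hv : P1 B.θ (B.ε p)) : Kill B.θ).u = v := rfl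

theorem mem_u {p : Fin 4} (x : P1 B.θ (B.ε p)) : (x : Kill B.θ).u * B.ε p = (x : Kill B.θ).u :=
  ((mem_P1 (B.normal p).mid).1 x.2).1

/-- the twisted total complex of `H` -/
noncomputable def twist : Twist (Kill B.θ) (Infl B.θ H) (P1 B.θ (B.ε 0)) (B.PP 1) (B.PP 2)
    (P1 B.θ (B.ε 3)) (P2 B.θ (B.ε 0)) (B.QQ 1) (B.QQ 2) (P2 B.θ (B.ε 3)) where
  σ₀ := sigP (B.normal 0)
  σ₁ := (sigP (B.normal 1)).prodMap (sigP (B.normal 1))
  σ₂ := (sigP (B.normal 2)).prodMap (sigP (B.normal 2))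
  σ₃ := sigP (B.normal 3)
  ρ₀ := rhoP (B.normal 0)
  ρ₁ := (rhoP (B.normal 1)).prodMap (rhoP (B.normal 1))
  ρ₂ := (rhoP (B.normal 2)).prodMap (rhoP (B.normal 2))
  ρ₃ := rhoP (B.normal 3)
  a₁ := B.mapA₁
  a₂ := B.mapA₂
  a₃ := B.mapA₃
  b₁ := B.mapB₁
  b₂ := B.mapB₂
  b₃ := B.mapB₃
  η₂ := (etaP (B.h21_eq 0)).coprod (etaP (B.h21_eq 1))
  η₃ := (etaP (B.h32_eq 0)).prod (etaP (B.h32_eq 1))
  ΘP := mulP (B.normal 0) B.Θ_right
  ΘQ := mulQ B.Θ_right
  π := B.aug
  col₀ := exact_rhoP_sigP _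
  col₀' := exact_sigP_rhoP _
  col₁ := exact_prodMap (exact_rhoP_sigP _)
  col₁' := exact_prodMap (exact_sigP_rhoP _)
  col₂ := exact_prodMap (exact_rhoP_sigP _)
  col₂' := exact_prodMap (exact_sigP_rhoP _)
  col₃ := exact_rhoP_sigP _
  col₃' := exact_sigP_rhoP _
  aσ₁ y := Subtype.ext (by simp [mapA₁, mapB₁, sigW_mul])
  aσ₂ y := Prod.ext (Subtype.ext (by simp [mapA₂, mapB₂, sigW_mul]))
    (Subtype.ext (by simp [mapA₂, mapB₂, sigW_mul]))
  aσ₃ y := Prod.ext (Subtype.ext (by simp [mapA₃, mapB₃, sigW_mul]))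
    (Subtype.ext (by simp [mapA₃, mapB₃, sigW_mul]))
  bρ₁ x := Subtype.ext (by simp [mapA₁, mapB₁, rightMul_rho])
  bρ₂ x := Prod.ext (Subtype.ext (by simp [mapA₂, mapB₂, rightMul_rho]))
    (Subtype.ext (by simp [mapA₂, mapB₂, rightMul_rho]))
  bρ₃ x := Prod.ext (Subtype.ext (by simp [mapA₃, mapB₃, rightMul_rho]))
    (Subtype.ext (by simp [mapA₃, mapB₃, rightMul_rho]))
  bb₂ y := by
    have h0 := B.d21 0
    have h1 := B.d21 1
    rw [Fin.sum_univ_two] at h0 h1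
    refine Subtype.ext (E2.ext (LinearMap.ext fun c => ?_) (LinearMap.ext fun c => ?_)) <;>
    · have e0 := congrArg (fun a => a * c) h0
      have e1 := congrArg (fun a => a * c) h1
      simp only [zero_mul, add_mul] at e0 e1
      simp [mapB₁, mapB₂, ← mul_assoc, eq_neg_of_add_eq_zero_left e0, eq_neg_of_add_eq_zero_left e1]
      abel
  bb₃ y := by
    have h0 := B.d32 0
    have h1 := B.d32 1
    rw [Fin.sum_univ_two] at h0 h1
    refine Prod.ext (Subtype.ext (E2.ext (LinearMap.ext fun c => ?_) (LinearMap.ext fun c => ?_)))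
      (Subtype.ext (E2.ext (LinearMap.ext fun c => ?_) (LinearMap.ext fun c => ?_))) <;>
    · have e0 := congrArg (fun a => a * c) h0
      have e1 := congrArg (fun a => a * c) h1
      simp only [zero_mul, add_mul] at e0 e1
      simp [mapB₂, mapB₃, ← mul_assoc, eq_neg_of_add_eq_zero_left e0, eq_neg_of_add_eq_zero_left e1]
  aa₂ x := by
    have h0 := B.d21 0
    have h1 := B.d21 1
    rw [Fin.sum_univ_two] at h0 h1
    refine Subtype.ext ?_
    simp only [mapA₁, mapA₂, LinearMap.coprod_apply, LinearMap.prod_apply, Function.prod_apply,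
      Submodule.coe_add, coe_mulP, coe_sigP, coe_etaP, map_add, mul_emb_emb]
    have k0 : emb B.θ (B.d2 0 0 * B.d1 0) + emb B.θ (B.d2 0 1 * B.d1 1) = 0 := by
      ext1 <;> simp [h0]
    have k1 : emb B.θ (B.d2 1 0 * B.d1 0) + emb B.θ (B.d2 1 1 * B.d1 1) = 0 := by
      ext1 <;> simp [h1]
    rw [eq_neg_of_add_eq_zero_left k0, eq_neg_of_add_eq_zero_left k1]
    ext1 <;> simp [h21, LinearMap.comp_add, Submodule.Quotient.mk_add] <;> abel
  aa₃ x := by
    have h0 := B.d32 0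
    have h1 := B.d32 1
    rw [Fin.sum_univ_two] at h0 h1
    have k0 : emb B.θ (B.d3 0 * B.d2 0 0) + emb B.θ (B.d3 1 * B.d2 1 0) = 0 := by
      ext1 <;> simp [h0]
    have k1 : emb B.θ (B.d3 0 * B.d2 0 1) + emb B.θ (B.d3 1 * B.d2 1 1) = 0 := by
      ext1 <;> simp [h1]
    refine Prod.ext (Subtype.ext ?_) (Subtype.ext ?_) <;>
      simp only [mapA₂, mapA₃, LinearMap.coprod_apply, LinearMap.prod_apply, Function.prod_apply,
        LinearMap.prodMap_apply, Submodule.coe_add, coe_mulP, coe_sigP, coe_etaP, mul_emb_emb]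
    · rw [eq_neg_of_add_eq_zero_left k0]
      ext1 <;> simp [h32, LinearMap.comp_add, Submodule.Quotient.mk_add]
      abel
    · rw [eq_neg_of_add_eq_zero_left k1]
      ext1 <;> simp [h32, LinearMap.comp_add, Submodule.Quotient.mk_add]
      abel
  ησ₂ y := Subtype.ext (by simp [etaW_sigW])
  ησ₃ y := Prod.ext (Subtype.ext (by simp [etaW_sigW])) (Subtype.ext (by simp [etaW_sigW]))
  curv x := by
    refine Subtype.ext (E2.ext (LinearMap.ext fun c => ?_) (by simp [mapA₃, mapB₁]))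
    have h := B.homotopy c
    rw [Fin.sum_univ_two, Fin.sum_univ_two] at h
    simp [mapA₃, mapB₁, mul_assoc, ← h, mul_add, mul_sub]
  Θρ x := Subtype.ext (by simp [rightMul_rho])
  Θσ y := Subtype.ext (by simp [sigW_mul])
  π_surj := B.aug_surjective
  π_σ y := by
    rw [aug_apply, coe_sigP, sigW_u, zero_smul]
    rfl
  π_a x := by
    rw [aug_apply]
    simp [mapA₁, add_smul, mul_smul, B.d1_gen]
    rfl
  ex₀ x hx := by
    obtain ⟨v, hv, hsum⟩ := B.exact0 _ (B.mem_u x) hx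
    rw [Fin.sum_univ_two] at hsum
    refine ⟨(B.liftP (v 0) (hv 0), B.liftP (v 1) (hv 1)), ?_⟩
    obtain ⟨z, hz⟩ := exists_sigP (B.normal 0)
      (x - B.mapA₁ (B.liftP (v 0) (hv 0), B.liftP (v 1) (hv 1)))
      (by simp [mapA₁, hsum])
    exact ⟨z, hz.symm⟩
  ex₁ x hx := by
    obtain ⟨w, hw⟩ := hx
    have hu := congrArg (fun t : P1 B.θ (B.ε 0) => (t : Kill B.θ).u) hw
    simp [mapA₁] at hu
    obtain ⟨v, hv, hsum⟩ := B.exact1 ![(x.1 : Kill B.θ).u, (x.2 : Kill B.θ).u]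
      (fun j => by fin_cases j <;> simp [B.mem_u]) (by simpa [Fin.sum_univ_two] using hu)
    have e0 := hsum 0
    have e1 := hsum 1
    rw [Fin.sum_univ_two] at e0 e1
    refine ⟨(B.liftP (v 0) (hv 0), B.liftP (v 1) (hv 1)), ?_⟩
    obtain ⟨z₀, hz₀⟩ := exists_sigP (B.normal 1)
      (x - B.mapA₂ (B.liftP (v 0) (hv 0), B.liftP (v 1) (hv 1))).1 (by simp [mapA₂, e0])
    obtain ⟨z₁, hz₁⟩ := exists_sigP (B.normal 1)
      (x - B.mapA₂ (B.liftP (v 0) (hv 0), B.liftP (v 1) (hv 1))).2 (by simp [mapA₂, e1])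
    exact ⟨(z₀, z₁), Prod.ext hz₀.symm hz₁.symm⟩
  ex₂ x hx := by
    obtain ⟨w, hw⟩ := hx
    have hu0 := congrArg (fun t : B.PP 1 => (t.1 : Kill B.θ).u) hw
    have hu1 := congrArg (fun t : B.PP 1 => (t.2 : Kill B.θ).u) hw
    simp [mapA₂] at hu0 hu1
    obtain ⟨v, hv, hsum⟩ := B.exact2 ![(x.1 : Kill B.θ).u, (x.2 : Kill B.θ).u]
      (fun j => by fin_cases j <;> simp [B.mem_u])
      (fun j => by fin_cases j <;> simpa [Fin.sum_univ_two] using (by assumption))
    refine ⟨B.liftP v hv, ?_⟩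
    obtain ⟨z₀, hz₀⟩ := exists_sigP (B.normal 2) (x - B.mapA₃ (B.liftP v hv)).1
      (by simp [mapA₃, hsum 0])
    obtain ⟨z₁, hz₁⟩ := exists_sigP (B.normal 2) (x - B.mapA₃ (B.liftP v hv)).2
      (by simp [mapA₃, hsum 1])
    exact ⟨(z₀, z₁), Prod.ext hz₀.symm hz₁.symm⟩
  ex₃ x hx := by
    obtain ⟨w, hw⟩ := hx
    have hu0 := congrArg (fun t : B.PP 2 => (t.1 : Kill B.θ).u) hw
    have hu1 := congrArg (fun t : B.PP 2 => (t.2 : Kill B.θ).u) hw
    simp [mapA₃] at hu0 hu1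
    obtain ⟨z, hz⟩ := exists_sigP (B.normal 3) x
      (B.exact3 _ (B.mem_u x) (fun i => by fin_cases i <;> assumption))
    exact ⟨z, hz.symm⟩

theorem hom_X_zero {p : Fin 4} (hp : ∀ x : X, B.ε p • x = 0)
    (f : P1 B.θ (B.ε p) →ₗ[Kill B.θ] Infl B.θ X) : f = 0 := by
  obtain ⟨w, hw, hf⟩ := hom_P1 (B.normal p) f
  refine LinearMap.ext fun x => ?_
  rw [hf, ← hw]
  show (x : Kill B.θ).u • (B.ε p • w : X) = 0
  rw [hp, smul_zero]

/-- `Ext^i(H, X) = 0` over the killing algebra, in every positive degree -/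
theorem killExt_H_X [Module.Finite K A₀] [CharZero K] (i : ℕ) (hi : 1 ≤ i) :
    ExtVan (Kill B.θ) (Infl B.θ H) (Infl B.θ X) i := by
  have hP : ∀ p, Module.Projective (Kill B.θ) (P1 B.θ (B.ε p)) := fun p =>
    projective_P1 (B.normal p).idem (B.normal p).mid
  have hQ : ∀ p, Module.Projective (Kill B.θ) (P2 B.θ (B.ε p)) := fun p =>
    projective_P2 (B.normal p).idem
  have hQ0 : ∀ p (f : P2 B.θ (B.ε p) →ₗ[Kill B.θ] Infl B.θ X), f = 0 := fun p f =>
    hom_P2 (B.normal p).idem f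
  refine Twist.extVan (T := B.twist) (X := Infl B.θ X)
    { hQ₀ := hQ0 0
      hQ₁ := fun f => LinearMap.prod_ext ((hQ0 1 _).trans (LinearMap.zero_comp _).symm)
        ((hQ0 1 _).trans (LinearMap.zero_comp _).symm)
      hQ₂ := fun f => LinearMap.prod_ext ((hQ0 2 _).trans (LinearMap.zero_comp _).symm)
        ((hQ0 2 _).trans (LinearMap.zero_comp _).symm)
      hQ₃ := hQ0 3
      hP₁ := fun f => LinearMap.prod_ext
        ((B.hom_X_zero B.X_ε1 _).trans (LinearMap.zero_comp _).symm)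
        ((B.hom_X_zero B.X_ε1 _).trans (LinearMap.zero_comp _).symm)
      hP₂ := fun f => LinearMap.prod_ext
        ((B.hom_X_zero B.X_ε2 _).trans (LinearMap.zero_comp _).symm)
        ((B.hom_X_zero B.X_ε2 _).trans (LinearMap.zero_comp _).symm)
      inj := ?_
      surj := ?_ } i hi
  · intro c hc f h
    obtain ⟨w, hw, hf⟩ := hom_P1 (B.normal 0) f
    obtain ⟨k, hk⟩ := B.X_span0 w
    rw [hw] at hk
    subst hk
    have h3 : c • (k • (B.Θ • B.x₀)) = (0 : X) := by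
      have := h (B.liftP (B.ε 3) (B.normal 3).idem)
      rw [hf] at this
      refine Eq.trans ?_ this
      show c • k • B.Θ • B.x₀ = c • ((B.ε 3 * B.Θ) • (k • B.x₀) : X)
      rw [B.Θ_left, smul_X_comm B.Θ]
    rw [← Int.cast_smul_eq_zsmul K c, smul_smul] at h3
    have hk : k = 0 := by
      rcases smul_eq_zero.1 h3 with h4 | h4
      · rcases mul_eq_zero.1 h4 with h5 | h5
        · have : c = 0 := Int.cast_eq_zero.1 h5
          omega
        · exact h5
      · exact absurd h4 B.Θ_smul_ne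
    refine LinearMap.ext fun x => ?_
    rw [hf, hk]
    show (x : Kill B.θ).u • ((0 : K) • B.x₀ : X) = 0
    rw [zero_smul, smul_zero]
  · intro c hc f
    obtain ⟨w, hw, hf⟩ := hom_P1 (B.normal 3) f
    obtain ⟨k, hk⟩ := B.X_span3' w
    rw [hw] at hk
    subst hk
    have hcK : (c : K) ≠ 0 := Int.cast_ne_zero.2 (by omega)
    let w' : X := (k / (c : K)) • B.x₀
    refine ⟨LinearMap.toSpanSingleton (Kill B.θ) (Infl B.θ X) (toInfl B.θ w') ∘ₗ (P1 B.θ (B.ε 0)).subtype,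
      fun x => ?_⟩
    rw [hf]
    show c • (((x : Kill B.θ).u * B.Θ) • w' : X) = (x : Kill B.θ).u • k • B.Θ • B.x₀
    rw [mul_smul, smul_X_comm B.Θ, ← smul_comm ((x : Kill B.θ).u) c, ← Int.cast_smul_eq_zsmul K c,
      smul_smul]
    congr 2
    field_simp

end Base

end Vale.Agent.P195
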