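import Vale.Agent.P195.KillUniv
import Vale.Agent.P195.KillRes
import Vale.Agent.P195.KillOrbit

/-!
The module over `Kill θ` built from a `Base`: no self-extensions, no extensions into the algebra,
not projective.
-/

namespace Vale.Agent.P195

open Kill ExtTools

variable {K : Type} [Field K] {A₀ : Type} [Ring A₀] [Algebra K A₀]
  {X X₁ H : Type} [AddCommGroup X] [Module A₀ X] [Module K X] [IsScalarTower K A₀ X]
  [AddCommGroup X₁] [Module A₀ X₁] [Module K X₁] [IsScalarTower K A₀ X₁]
  [AddCommGroup H] [Module A₀ H] [Module K H] [IsScalarTower K A₀ H]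

namespace Base

set_option linter.unusedSectionVars false

variable (B : Base K A₀ X X₁ H)

include B in
theorem finite_X : Module.Finite A₀ X := by
  exact Module.Finite.of_surjective (LinearMap.toSpanSingleton A₀ X B.x₀) B.x₀_gen

include B in
theorem finite_X₁ [Module.Finite K A₀] : Module.Finite A₀ X₁ := by
  have : IsNoetherianRing A₀ := IsNoetherianRing.of_finite K A₀
  have : Module.Finite A₀ H := Module.Finite.of_surjective (LinearMap.toSpanSingleton A₀ H B.gen)
    B.gen_span
  exact Module.Finite.of_injective B.inc B.inc_inj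

/-- the cover of `X` -/
noncomputable def psi : P1 B.θ 1 →ₗ[Kill B.θ] Infl B.θ X where
  toFun x := (x : Kill B.θ).u • toInfl B.θ B.x₀
  map_add' _ _ := add_smul _ _ _
  map_smul' _ _ := mul_smul _ _ _

theorem psi_surjective : Function.Surjective B.psi := fun x => by
  obtain ⟨a, ha⟩ := B.x₀_gen x
  exact ⟨⟨emb B.θ a, mem_P0.2 ⟨rfl, rfl⟩⟩, ha⟩

theorem psi_sig₁ (y : E2 B.θ) : B.psi (sig₁ B.θ y) = 0 := zero_smul A₀ B.x₀

/-- the counterexample attached to the data -/
theorem exists_orthogonal [Module.Finite K A₀] [CharZero K]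
    (horb : ∀ n, ExtVan (Kill B.θ) (Infl B.θ X₁) (Infl B.θ X) n) :
    ∃ (M : Type) (_ : AddCommGroup M) (_ : Module (Kill B.θ) M),
      Module.Finite (Kill B.θ) M ∧ ¬ Module.Projective (Kill B.θ) M ∧
      ∀ i, 1 ≤ i → ExtVan (Kill B.θ) M M i ∧ ExtVan (Kill B.θ) M (Kill B.θ) i := by
  have := B.finite_X
  have : IsNoetherianRing (Kill B.θ) := IsNoetherianRing.of_finite K (Kill B.θ)
  have hP0 : Module.Projective (Kill B.θ) (P1 B.θ 1) := projective_P1 (mul_one 1) B.θ.one_mid
  have hE2 : Module.Projective (Kill B.θ) (E2 B.θ) := projective_E2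
  -- self-extensions of `X`
  have hXX : ∀ n, Van (Kill B.θ) (Infl B.θ X) (Infl B.θ X) (n + 1) := fun n =>
    van_right (f := inflMap B.θ B.inc) (g := inflMap B.θ B.pr) B.inc_inj B.pr_surj
      (LinearMap.exact_iff.2 B.ex : Function.Exact B.inc B.pr) (horb n)
      (B.killExt_H_X (n + 1) (by omega))
  -- extensions of `X` into the algebra
  have hXA : ∀ i, Van (Kill B.θ) (Infl B.θ X) (Kill B.θ) (i + 3) := fun i =>
    van_kill (i + 2) X (B.ext_proj (i + 3) (by omega))
  have hXP : ∀ i, Van (Kill B.θ) (Infl B.θ X) (P1 B.θ 1) (i + 3) := fun i =>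
    van_retract_right (P1 B.θ 1).subtype
      (LinearMap.codRestrict _ (LinearMap.toSpanSingleton (Kill B.θ) (Kill B.θ) (emb B.θ 1))
        fun x => mul_emb_mem_P1 (mul_one 1) B.θ.one_mid x)
      (LinearMap.ext fun x => Subtype.ext x.2) (hXA i)
  -- the first syzygy
  let L := LinearMap.ker B.psi
  have hXL : ∀ i, Van (Kill B.θ) (Infl B.θ X) L (i + 3) := fun i =>
    covan_left Subtype.val_injective B.psi_surjective (exact_ker B.psi) (hXX (i + 1)) (hXP i)
  obtain ⟨m, p, hp⟩ := Module.Finite.exists_fin' (Kill B.θ) L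
  let M := LinearMap.ker p
  have hXF : ∀ i, Van (Kill B.θ) (Infl B.θ X) (Fin m → Kill B.θ) (i + 3) := fun i =>
    van_pi_right (hXA i) m
  have hXM : ∀ i, Van (Kill B.θ) (Infl B.θ X) M (i + 3) := by
    rintro (_ | i)
    · refine covan_left_of_surj Subtype.val_injective hp (exact_ker p) (hXF 0) fun y => ?_
      obtain ⟨w, hw⟩ := sig₁_push_surjective (B.ext_proj_one) (push L.subtype y)
      let sigL : E2 B.θ →ₗ[Kill B.θ] L := LinearMap.codRestrict _ (sig₁ B.θ) B.psi_sig₁
      obtain ⟨τ, hτ⟩ := Module.projective_lifting_property p sigL hp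
      refine ⟨push τ w, ?_⟩
      rw [push_push, hτ]
      refine eq_of_sub_eq_zero ?_
      refine push_injective_of_van Subtype.val_injective B.psi_surjective (exact_ker B.psi) (hXX 0)
        _ ?_
      rw [push_sub, push_push, show L.subtype.comp sigL = sig₁ B.θ from rfl, hw, sub_self]
    · exact covan_left Subtype.val_injective hp (exact_ker p) (hXL i) (hXF (i + 1))
  -- shifting in the first variable
  have shift : ∀ (T : Type) [AddCommGroup T] [Module (Kill B.θ) T] (j : ℕ),
      Van (Kill B.θ) (Infl B.θ X) T (j + 3) → Van (Kill B.θ) M T (j + 1) := fun T _ _ j h =>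
    van_left Subtype.val_injective hp (exact_ker p) (van_of_projective j)
      (van_left Subtype.val_injective B.psi_surjective (exact_ker B.psi) (van_of_projective (j + 1)) h)
  refine ⟨M, inferInstance, inferInstance, inferInstance, fun hproj => ?_, fun i hi => ?_⟩
  · refine not_van_three B.ext_proj_two (van_right Subtype.val_injective B.psi_surjective
      (exact_ker B.psi) ?_ (van_of_projective 2))
    exact van_right Subtype.val_injective hp (exact_ker p) (van_of_projective 0) (van_of_projective 1)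
  · obtain ⟨j, rfl⟩ : ∃ j, i = j + 1 := ⟨i - 1, by omega⟩
    exact ⟨shift M j (hXM j), shift (Kill B.θ) j (hXA j)⟩

/-- a `Base` yields a finite-dimensional algebra failing the Auslander-Reiten conjecture -/
theorem exists_counterexample [Module.Finite K A₀] [CharZero K] :
    ∃ (M : Type) (_ : AddCommGroup M) (_ : Module (Kill B.θ) M),
      Module.Finite (Kill B.θ) M ∧ ¬ Module.Projective (Kill B.θ) M ∧
      ∀ i, 1 ≤ i → ExtVan (Kill B.θ) M M i ∧ ExtVan (Kill B.θ) M (Kill B.θ) i :=
  have := B.finite_X₁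
  B.exists_orthogonal (KillOrbit.extVan_infl B.θ B.ext_orbit)

end Base

end Vale.Agent.P195
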