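import Vale.Agent.P195.Killer

/-!
`Kill θ` is a finite-dimensional algebra; inflation of `A₀`-modules.
-/

namespace Vale.Agent.P195

variable {K : Type} [Field K] {A₀ : Type} [Ring A₀] [Algebra K A₀]

namespace Kill

theorem mk_eq_mk {F G : Module.End K A₀} {a : A₀} (h : ∀ x, F x - G x = a * x) :
    (Submodule.Quotient.mk F : Quot₀ K A₀) = Submodule.Quotient.mk G :=
  (Submodule.Quotient.eq _).2 ⟨a, by ext x; simp [h x]⟩

@[simp] theorem qleft_mk (a : A₀) (F : Module.End K A₀) :
    qleft a (Submodule.Quotient.mk F) =
      (Submodule.Quotient.mk (LinearMap.mul K A₀ a ∘ₗ F) : Quot₀ K A₀) := rfl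

@[simp] theorem qright_mk (a : A₀) (F : Module.End K A₀) :
    qright a (Submodule.Quotient.mk F) =
      (Submodule.Quotient.mk (F ∘ₗ LinearMap.mul K A₀ a) : Quot₀ K A₀) := rfl

theorem qext {M : Type} [AddCommGroup M] [Module K M] {f g : Quot₀ K A₀ →ₗ[K] M}
    (h : ∀ F, f (Submodule.Quotient.mk F) = g (Submodule.Quotient.mk F)) : f = g :=
  Submodule.linearMap_qext _ (LinearMap.ext h)

theorem qleft_qleft (a b : A₀) (q : Quot₀ K A₀) : qleft a (qleft b q) = qleft (a * b) q := by
  induction q using Submodule.Quotient.induction_on with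
  | _ F => simp only [qleft_mk]; congr 1; ext x; simp [mul_assoc]

theorem qright_qright (a b : A₀) (q : Quot₀ K A₀) : qright b (qright a q) = qright (a * b) q := by
  induction q using Submodule.Quotient.induction_on with
  | _ F => simp only [qright_mk]; congr 1; ext x; simp [mul_assoc]

theorem qright_qleft (a b : A₀) (q : Quot₀ K A₀) : qright b (qleft a q) = qleft a (qright b q) := by
  induction q using Submodule.Quotient.induction_on with
  | _ F => simp only [qleft_mk, qright_mk]; rfl

@[simp] theorem qleft_one (q : Quot₀ K A₀) : qleft 1 q = q := by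
  induction q using Submodule.Quotient.induction_on with
  | _ F => simp only [qleft_mk]; congr 1; ext x; simp

@[simp] theorem qright_one (q : Quot₀ K A₀) : qright 1 q = q := by
  induction q using Submodule.Quotient.induction_on with
  | _ F => simp only [qright_mk]; congr 1; ext x; simp

theorem qleft_add (a b : A₀) (q : Quot₀ K A₀) : qleft (a + b) q = qleft a q + qleft b q := by
  induction q using Submodule.Quotient.induction_on with
  | _ F => simp only [qleft_mk, ← Submodule.Quotient.mk_add]; congr 1; ext x; simp

theorem qright_add (a b : A₀) (q : Quot₀ K A₀) : qright (a + b) q = qright a q + qright b q := by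
  induction q using Submodule.Quotient.induction_on with
  | _ F => simp only [qright_mk, ← Submodule.Quotient.mk_add]; congr 1; ext x; simp

@[simp] theorem qleft_zero (q : Quot₀ K A₀) : qleft (0 : A₀) q = 0 :=
  (AddMonoidHom.mk' (fun a => qleft a q) (fun a b => qleft_add a b q)).map_zero

@[simp] theorem qright_zero (q : Quot₀ K A₀) : qright (0 : A₀) q = 0 :=
  (AddMonoidHom.mk' (fun a => qright a q) (fun a b => qright_add a b q)).map_zero

theorem qleft_smul (k : K) (a : A₀) (q : Quot₀ K A₀) : qleft (k • a) q = k • qleft a q := by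
  induction q using Submodule.Quotient.induction_on with
  | _ F => simp only [qleft_mk, ← Submodule.Quotient.mk_smul]; congr 1; ext x; simp

theorem qright_smul (k : K) (a : A₀) (q : Quot₀ K A₀) : qright (k • a) q = k • qright a q := by
  induction q using Submodule.Quotient.induction_on with
  | _ F => simp only [qright_mk, ← Submodule.Quotient.mk_smul]; congr 1; ext x; simp

variable {θ : Cocycle K A₀}

theorem gam_add_left (a b c : A₀) : gam θ (a + b) c = gam θ a c + gam θ b c := by simp [gam]
theorem gam_add_right (a b c : A₀) : gam θ a (b + c) = gam θ a b + gam θ a c := by simp [gam]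
theorem gam_smul_left (k : K) (a b : A₀) : gam θ (k • a) b = k • gam θ a b := by simp [gam]
theorem gam_smul_right (k : K) (a b : A₀) : gam θ a (k • b) = k • gam θ a b := by simp [gam]
@[simp] theorem gam_zero_left (b : A₀) : gam θ 0 b = 0 := by simp [gam]
@[simp] theorem gam_zero_right (a : A₀) : gam θ a 0 = 0 := by simp [gam]

@[simp] theorem gam_one_left (b : A₀) : gam θ 1 b = 0 := by
  have : θ.θ 1 b = 0 := LinearMap.ext fun c => by simpa using θ.one_left b c
  simp [gam, this]

@[simp] theorem gam_one_right (a : A₀) : gam θ a 1 = 0 := by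
  have : θ.θ a 1 = 0 := LinearMap.ext fun c => by simpa using θ.one_mid a c
  simp [gam, this]

/-- the cocycle identity in the quotient -/
theorem gam_assoc (a b c : A₀) :
    qright c (gam θ a b) + gam θ (a * b) c = qleft a (gam θ b c) + gam θ a (b * c) := by
  simp only [gam, qleft_mk, qright_mk, ← Submodule.Quotient.mk_add]
  refine mk_eq_mk (a := θ.θ a b c) fun d => ?_
  have h := θ.closed a b c d
  simp only [LinearMap.add_apply, LinearMap.comp_apply, LinearMap.mul_apply']
  linear_combination (norm := abel) -h

theorem rs_add_left (r r' : A₀) (s : Module.Dual K A₀) : rs (r + r') s = rs r s + rs r' s := by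
  simp only [rs, ← Submodule.Quotient.mk_add]; congr 1; ext x; simp [smul_add]

theorem rs_add_right (r : A₀) (s s' : Module.Dual K A₀) : rs r (s + s') = rs r s + rs r s' := by
  simp only [rs, ← Submodule.Quotient.mk_add]; congr 1; ext x; simp [add_smul]

theorem rs_smul_left (k : K) (r : A₀) (s : Module.Dual K A₀) : rs (k • r) s = k • rs r s := by
  simp only [rs, ← Submodule.Quotient.mk_smul]; congr 1; ext x; simp [smul_comm (s x) k r]

theorem rs_smul_right (k : K) (r : A₀) (s : Module.Dual K A₀) : rs r (k • s) = k • rs r s := by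
  simp only [rs, ← Submodule.Quotient.mk_smul]; congr 1; ext x; simp [mul_smul]

@[simp] theorem rs_zero_left (s : Module.Dual K A₀) : rs (0 : A₀) s = 0 := by
  have : s.smulRight (0 : A₀) = 0 := by ext x; simp
  simp [rs, this]

@[simp] theorem rs_zero_right (r : A₀) : rs r (0 : Module.Dual K A₀) = 0 := by
  have : (0 : Module.Dual K A₀).smulRight r = 0 := by ext x; simp
  simp [rs, this]

theorem qright_rs (a r : A₀) (s : Module.Dual K A₀) :
    qright a (rs r s) = rs r (s ∘ₗ LinearMap.mul K A₀ a) := by
  simp only [rs, qright_mk]; congr 1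

theorem qleft_rs (a r : A₀) (s : Module.Dual K A₀) : qleft a (rs r s) = rs (a * r) s := by
  simp only [rs, qleft_mk]; congr 1; ext x; simp

noncomputable instance : Sub (Kill θ) :=
  ⟨fun x y => ⟨x.u - y.u, x.q - y.q, x.r - y.r, x.s - y.s, x.c - y.c⟩⟩
noncomputable instance : SMul ℕ (Kill θ) :=
  ⟨fun k x => ⟨k • x.u, k • x.q, k • x.r, k • x.s, k • x.c⟩⟩
noncomputable instance : SMul ℤ (Kill θ) :=
  ⟨fun k x => ⟨k • x.u, k • x.q, k • x.r, k • x.s, k • x.c⟩⟩

/-- the five coordinates -/
def toProd (x : Kill θ) : A₀ × Quot₀ K A₀ × A₀ × Module.Dual K A₀ × K :=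
  (x.u, x.q, x.r, x.s, x.c)

theorem toProd_injective : Function.Injective (toProd (θ := θ)) := fun x y h => by
  simp only [toProd, Prod.mk.injEq] at h
  exact Kill.ext h.1 h.2.1 h.2.2.1 h.2.2.2.1 h.2.2.2.2

noncomputable instance : AddCommGroup (Kill θ) :=
  toProd_injective.addCommGroup toProd rfl (fun _ _ => rfl) (fun _ => rfl) (fun _ _ => rfl)
    (fun _ _ => rfl) (fun _ _ => rfl)

@[simp] theorem zero_u : (0 : Kill θ).u = 0 := rfl
@[simp] theorem zero_q : (0 : Kill θ).q = 0 := rfl
@[simp] theorem zero_r : (0 : Kill θ).r = 0 := rfl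
@[simp] theorem zero_s : (0 : Kill θ).s = 0 := rfl
@[simp] theorem zero_c : (0 : Kill θ).c = 0 := rfl
@[simp] theorem one_u : (1 : Kill θ).u = 1 := rfl
@[simp] theorem one_q : (1 : Kill θ).q = 0 := rfl
@[simp] theorem one_r : (1 : Kill θ).r = 0 := rfl
@[simp] theorem one_s : (1 : Kill θ).s = 0 := rfl
@[simp] theorem one_c : (1 : Kill θ).c = 1 := rfl
@[simp] theorem add_u (x y : Kill θ) : (x + y).u = x.u + y.u := rfl
@[simp] theorem add_q (x y : Kill θ) : (x + y).q = x.q + y.q := rfl
@[simp] theorem add_r (x y : Kill θ) : (x + y).r = x.r + y.r := rfl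
@[simp] theorem add_s (x y : Kill θ) : (x + y).s = x.s + y.s := rfl
@[simp] theorem add_c (x y : Kill θ) : (x + y).c = x.c + y.c := rfl
@[simp] theorem neg_u (x : Kill θ) : (-x).u = -x.u := rfl
@[simp] theorem neg_q (x : Kill θ) : (-x).q = -x.q := rfl
@[simp] theorem neg_r (x : Kill θ) : (-x).r = -x.r := rfl
@[simp] theorem neg_s (x : Kill θ) : (-x).s = -x.s := rfl
@[simp] theorem neg_c (x : Kill θ) : (-x).c = -x.c := rfl
@[simp] theorem sub_u (x y : Kill θ) : (x - y).u = x.u - y.u := rfl
@[simp] theorem sub_q (x y : Kill θ) : (x - y).q = x.q - y.q := rfl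
@[simp] theorem sub_r (x y : Kill θ) : (x - y).r = x.r - y.r := rfl
@[simp] theorem sub_s (x y : Kill θ) : (x - y).s = x.s - y.s := rfl
@[simp] theorem sub_c (x y : Kill θ) : (x - y).c = x.c - y.c := rfl
@[simp] theorem smul_u (k : K) (x : Kill θ) : (k • x).u = k • x.u := rfl
@[simp] theorem smul_q (k : K) (x : Kill θ) : (k • x).q = k • x.q := rfl
@[simp] theorem smul_r (k : K) (x : Kill θ) : (k • x).r = k • x.r := rfl
@[simp] theorem smul_s (k : K) (x : Kill θ) : (k • x).s = k • x.s := rfl
@[simp] theorem smul_c (k : K) (x : Kill θ) : (k • x).c = k * x.c := rfl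
@[simp] theorem mul_u (x y : Kill θ) : (x * y).u = x.u * y.u := rfl
@[simp] theorem mul_q (x y : Kill θ) :
    (x * y).q = qleft x.u y.q + qright y.u x.q + gam θ x.u y.u + rs x.r y.s := rfl
@[simp] theorem mul_r (x y : Kill θ) : (x * y).r = x.u * y.r + y.c • x.r := rfl
@[simp] theorem mul_s (x y : Kill θ) :
    (x * y).s = x.s ∘ₗ LinearMap.mul K A₀ y.u + x.c • y.s := rfl
@[simp] theorem mul_c (x y : Kill θ) : (x * y).c = x.c * y.c := rfl

protected theorem mul_assoc' (x y z : Kill θ) : x * y * z = x * (y * z) := by
  ext1
  · simp [mul_assoc]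
  · simp only [mul_q, mul_u, mul_r, mul_s, map_add, qright_rs, qleft_rs, qright_qright,
      qleft_qleft, qright_qleft, rs_add_left, rs_add_right, rs_smul_left, rs_smul_right]
    have h := gam_assoc (θ := θ) x.u y.u z.u
    linear_combination (norm := abel) h
  · simp [mul_add, smul_smul, mul_assoc, add_assoc, mul_comm]
  · ext a; simp [mul_assoc, add_assoc]
  · simp [mul_assoc]

protected theorem one_mul' (x : Kill θ) : 1 * x = x := by
  ext1
  all_goals simp

protected theorem mul_one' (x : Kill θ) : x * 1 = x := by
  ext1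
  all_goals first | (simp; done) | (ext a; simp)

noncomputable instance : Ring (Kill θ) :=
  { (inferInstance : AddCommGroup (Kill θ)), (inferInstance : Mul (Kill θ)),
    (inferInstance : One (Kill θ)) with
    mul_assoc := Kill.mul_assoc'
    one_mul := Kill.one_mul'
    mul_one := Kill.mul_one'
    left_distrib := fun x y z => by
      ext1
      · simp [mul_add]
      · simp [gam_add_right, rs_add_right, qright_add]; abel
      · simp [mul_add, add_smul]; abel
      · ext a; simp; abel
      · simp [mul_add]
    right_distrib := fun x y z => by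
      ext1
      · simp [add_mul]
      · simp [gam_add_left, rs_add_left, qleft_add]; abel
      · simp [add_mul]; abel
      · ext a; simp [add_mul]; abel
      · simp [add_mul]
    zero_mul := fun x => by
      ext1
      all_goals simp
    mul_zero := fun x => by
      ext1
      all_goals simp }

noncomputable instance : Module K (Kill θ) :=
  toProd_injective.module K
    { toFun := toProd, map_zero' := rfl, map_add' := fun _ _ => rfl } fun _ _ => rfl

noncomputable instance : Algebra K (Kill θ) :=
  Algebra.ofModule
    (fun k x y => by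
      ext1
      · simp
      · simp [qleft_smul, gam_smul_left, rs_smul_left, smul_add]
      · simp [smul_comm k y.c, smul_add]
      · ext a; simp [mul_assoc]
      · simp [mul_assoc])
    (fun k x y => by
      ext1
      · simp
      · simp [qright_smul, gam_smul_right, rs_smul_right, smul_add]
      · simp [mul_smul, smul_add]
      · ext a; simp [mul_left_comm]
      · simp [mul_left_comm])

/-- the coordinates as a linear map -/
noncomputable def toProdₗ : Kill θ →ₗ[K] A₀ × Quot₀ K A₀ × A₀ × Module.Dual K A₀ × K where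
  toFun := toProd
  map_add' _ _ := rfl
  map_smul' _ _ := rfl

instance [Module.Finite K A₀] : Module.Finite K (Kill θ) :=
  Module.Finite.of_injective toProdₗ toProd_injective

/-- the projection `(u, q, r, s, c) ↦ u` -/
noncomputable def toA₀ : Kill θ →+* A₀ where
  toFun x := x.u
  map_one' := rfl
  map_mul' _ _ := rfl
  map_zero' := rfl
  map_add' _ _ := rfl

@[simp] theorem toA₀_apply (x : Kill θ) : toA₀ x = x.u := rfl

/-- inflation of an `A₀`-module along `toA₀` -/
def Infl (_θ : Cocycle K A₀) (X : Type) : Type := X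

variable (θ) in
/-- view an element in the inflated module -/
def toInfl {X : Type} [AddCommGroup X] (x : X) : Infl θ X := x

section Infl

variable {X : Type} [AddCommGroup X]

instance : AddCommGroup (Infl θ X) := inferInstanceAs (AddCommGroup X)
instance instModuleA₀Infl [Module A₀ X] : Module A₀ (Infl θ X) := inferInstanceAs (Module A₀ X)
noncomputable instance instModuleInfl [Module A₀ X] : Module (Kill θ) (Infl θ X) :=
  Module.compHom X (toA₀ (θ := θ))

theorem infl_smul [Module A₀ X] (a : Kill θ) (x : Infl θ X) : a • x = a.u • x := rfl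

end Infl

end Kill

end Vale.Agent.P195
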