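import Vale.Agent.P195.KillExt

/-!
The extensions `Eu θ V`, which have no `Ext` from inflated modules, and their consequences.
-/

namespace Vale.Agent.P195

open Kill ExtTools

variable {K : Type} [Field K] {A₀ : Type} [Ring A₀] [Algebra K A₀] {θ : Cocycle K A₀}

namespace Kill

/-- pairs of a map `V → A₀` and a functional on `V` -/
@[ext]
structure Eu (θ : Cocycle K A₀) (V : Type) [AddCommGroup V] [Module K V] where
  G : V →ₗ[K] A₀
  s : Module.Dual K V

namespace Eu

variable {V : Type} [AddCommGroup V] [Module K V]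

noncomputable instance : Zero (Eu θ V) := ⟨⟨0, 0⟩⟩
noncomputable instance : Add (Eu θ V) := ⟨fun x y => ⟨x.G + y.G, x.s + y.s⟩⟩
noncomputable instance : Neg (Eu θ V) := ⟨fun x => ⟨-x.G, -x.s⟩⟩
noncomputable instance : Sub (Eu θ V) := ⟨fun x y => ⟨x.G - y.G, x.s - y.s⟩⟩
noncomputable instance : SMul ℕ (Eu θ V) := ⟨fun k x => ⟨k • x.G, k • x.s⟩⟩
noncomputable instance : SMul ℤ (Eu θ V) := ⟨fun k x => ⟨k • x.G, k • x.s⟩⟩

/-- the two coordinates -/
def toProd (x : Eu θ V) : (V →ₗ[K] A₀) × Module.Dual K V := (x.G, x.s)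

theorem toProd_injective : Function.Injective (toProd (θ := θ) (V := V)) := fun x y h => by
  simp only [toProd, Prod.mk.injEq] at h
  exact Eu.ext h.1 h.2

noncomputable instance : AddCommGroup (Eu θ V) :=
  toProd_injective.addCommGroup toProd rfl (fun _ _ => rfl) (fun _ => rfl) (fun _ _ => rfl)
    (fun _ _ => rfl) (fun _ _ => rfl)

@[simp] theorem zero_G : (0 : Eu θ V).G = 0 := rfl
@[simp] theorem zero_s : (0 : Eu θ V).s = 0 := rfl
@[simp] theorem add_G (x y : Eu θ V) : (x + y).G = x.G + y.G := rfl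
@[simp] theorem add_s (x y : Eu θ V) : (x + y).s = x.s + y.s := rfl

/-- `(u,q,r,s,c)(G,t) = (L_u G, c t + s G)` -/
noncomputable instance : SMul (Kill θ) (Eu θ V) :=
  ⟨fun a x => ⟨LinearMap.mul K A₀ a.u ∘ₗ x.G, a.c • x.s + a.s ∘ₗ x.G⟩⟩

@[simp] theorem smul_G (a : Kill θ) (x : Eu θ V) :
    (a • x).G = LinearMap.mul K A₀ a.u ∘ₗ x.G := rfl
@[simp] theorem smul_s (a : Kill θ) (x : Eu θ V) :
    (a • x).s = a.c • x.s + a.s ∘ₗ x.G := rfl

noncomputable instance instModuleKill : Module (Kill θ) (Eu θ V) where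
  one_smul x := by ext <;> simp
  mul_smul a b x := by
    ext v
    · simp [mul_assoc]
    · simp; ring
  smul_zero a := by ext <;> simp
  smul_add a x y := by
    ext v
    · simp [mul_add]
    · simp; ring
  add_smul a b x := by
    ext v
    · simp
    · simp; ring
  zero_smul x := by ext <;> simp

end Eu

section

variable [Module.Finite K A₀] {V : Type} [AddCommGroup V] [Module K V]

omit [Module.Finite K A₀] in
theorem hom_infl_eu {Y : Type} [AddCommGroup Y] [Module A₀ Y] (h : Infl θ Y →ₗ[Kill θ] Eu θ V) :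
    h = 0 := by
  refine LinearMap.ext fun y => ?_
  have hs : (h y).s = 0 := by simpa using congrArg Eu.s (infl_smul_eq h (e₂ θ) rfl y)
  refine Eu.ext ?_ hs
  refine LinearMap.ext fun v => (Module.forall_dual_apply_eq_zero_iff K _).1 fun χ => ?_
  have h1 := infl_smul_eq h (⟨0, 0, 0, χ, 0⟩ : Kill θ) rfl y
  simpa [hs] using LinearMap.congr_fun (congrArg Eu.s h1) v

theorem eu_extend_syz [Module.Finite K V] (h : Syz₁ θ →ₗ[Kill θ] Eu θ V) :
    ∃ k : P1 θ 1 →ₗ[Kill θ] Eu θ V, k.comp (Syz₁ θ).subtype = h := by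
  let g := h.comp (sigSyz θ)
  have he : ∀ χ : Module.Dual K A₀, g ⟨0, χ⟩ = ⟨0, (g ⟨0, χ⟩).s⟩ := fun χ => by
    conv_lhs => rw [← e₂_smul_pure χ, map_smul]
    ext <;> simp
  have hk : ∀ (k : K) (y : E2 θ), (g (k • y)).s = k • (g y).s := fun k y => by
    rw [← ksmul_E2, map_smul, Eu.smul_s, Algebra.algebraMap_eq_smul_one]
    simp
  let S : Module.Dual K A₀ →ₗ[K] Module.Dual K V :=
    { toFun := fun χ => (g ⟨0, χ⟩).s
      map_add' := fun χ χ' => by
        rw [show (⟨0, χ + χ'⟩ : E2 θ) = ⟨0, χ⟩ + ⟨0, χ'⟩ by ext <;> simp, map_add, Eu.add_s]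
      map_smul' := fun k χ => by
        rw [show (⟨0, k • χ⟩ : E2 θ) = k • ⟨0, χ⟩ by ext <;> simp, hk, RingHom.id_apply] }
  let G : V →ₗ[K] A₀ :=
    (Module.evalEquiv K A₀).symm.toLinearMap ∘ₗ S.dualMap ∘ₗ Module.Dual.eval K V
  have hG : ∀ (χ : Module.Dual K A₀) (v : V), χ (G v) = S χ v := fun χ v => by simp [G]
  let g' : E2 θ →ₗ[Kill θ] Eu θ V :=
    { toFun := fun y => ⟨0, y.φ ∘ₗ G⟩
      map_add' := fun x y => by ext <;> simp
      map_smul' := fun a y => by ext <;> simp }
  have hg : g = g' := hom_E2_ext fun χ => by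
    rw [he χ]
    ext v
    · rfl
    · exact (hG χ v).symm
  refine ⟨(LinearMap.toSpanSingleton (Kill θ) (Eu θ V) ⟨G, 0⟩).comp (P1 θ 1).subtype,
    LinearMap.ext fun x => ?_⟩
  obtain ⟨y, rfl⟩ := sigSyz_surjective θ x
  show sigW y • (⟨G, 0⟩ : Eu θ V) = g y
  rw [hg]
  show _ = (⟨0, y.φ ∘ₗ G⟩ : Eu θ V)
  ext <;> simp

theorem van_eu [Module.Finite K V] : ∀ (i : ℕ) (Y : Type) [AddCommGroup Y] [Module A₀ Y]
    [Module.Finite A₀ Y], Van (Kill θ) (Infl θ Y) (Eu θ V) i := by
  intro i
  induction i with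
  | zero => exact fun Y _ _ _ => van_zero_iff.2 hom_infl_eu
  | succ i ih =>
    intro Y _ _ _
    obtain ⟨m, p, hp, hfin⟩ := exists_cover (K := K) (A₀ := A₀) Y
    exact van_right inflMap_ker_injective hp inflMap_ker_exact (ih _)
      (van_infl_free (van_infl_self θ eu_extend_syz
        (fun h => ⟨0, by rw [hom_infl_eu h, LinearMap.zero_comp]⟩) _))

end

/-! ### inflated targets -/

section InflTarget

variable [Module.Finite K A₀] {Y N : Type} [AddCommGroup Y] [Module A₀ Y] [Module.Finite A₀ Y]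
  [AddCommGroup N] [Module A₀ N]

omit [Module.Finite A₀ Y] in
theorem van_one_infl_free : Van (Kill θ) (Infl θ A₀) (Infl θ N) 1 := by
  have : Module.Projective (Kill θ) (P1 θ 1) := projective_P1 (mul_one 1) θ.one_mid
  refine van_one_of_extend Subtype.val_injective (aug₁_surjective θ) (exact_ker _)
    (van_of_projective 0) fun h => ⟨0, ?_⟩
  have h0 : h.comp (sigSyz θ) = 0 := hom_E2_ext fun χ => by
    conv_lhs => rw [← e₂_smul_pure χ, map_smul, infl_smul, e₂_u, zero_smul]
    rfl
  refine LinearMap.ext fun x => ?_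
  obtain ⟨y, rfl⟩ := sigSyz_surjective θ x
  exact (LinearMap.congr_fun h0 y).symm

/-- `Ext¹` between inflated modules is that over `A₀` -/
theorem van_one_infl (h : Van A₀ Y N 1) : Van (Kill θ) (Infl θ Y) (Infl θ N) 1 := by
  obtain ⟨m, p, hp, hfin⟩ := exists_cover (K := K) (A₀ := A₀) Y
  refine van_one_of_extend inflMap_ker_injective hp inflMap_ker_exact
    (van_infl_free van_one_infl_free) fun f => ?_
  obtain ⟨k, hk⟩ := extend_of_van_one Subtype.val_injective hp (exact_ker p) h (deflMap f)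
  exact ⟨inflMap θ k, LinearMap.ext fun y => LinearMap.congr_fun hk y⟩

/-- vanishing of `Ext²` between inflated modules descends -/
theorem van_two_defl (h : Van (Kill θ) (Infl θ Y) (Infl θ N) 2) : Van A₀ Y N 2 := by
  obtain ⟨m, p, hp, hfin⟩ := exists_cover (K := K) (A₀ := A₀) Y
  have h1 : Van (Kill θ) (Infl θ (LinearMap.ker p)) (Infl θ N) 1 :=
    van_left inflMap_ker_injective hp inflMap_ker_exact (van_infl_free van_one_infl_free) h
  obtain ⟨m', p', hp', hfin'⟩ := exists_cover (K := K) (A₀ := A₀) (LinearMap.ker p)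
  refine van_right Subtype.val_injective hp (exact_ker p) ?_ (van_of_projective 1)
  refine van_one_of_extend Subtype.val_injective hp' (exact_ker p') (van_of_projective 0) fun g => ?_
  obtain ⟨k, hk⟩ := extend_of_van_one inflMap_ker_injective hp' inflMap_ker_exact h1 (inflMap θ g)
  exact ⟨deflMap k, LinearMap.ext fun y => LinearMap.congr_fun hk y⟩

end InflTarget

/-! ### the two uses -/

section Uses

variable (θ)

/-- `(G, s) ↦ G - L_(G 1)` -/
noncomputable def euProj : Eu θ A₀ →ₗ[Kill θ] Infl θ (Module.End K A₀) where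
  toFun x := toInfl θ (x.G - LinearMap.mul K A₀ (x.G 1))
  map_add' x y := by
    show (x + y).G - _ = (x.G - LinearMap.mul K A₀ (x.G 1)) + (y.G - LinearMap.mul K A₀ (y.G 1))
    simp only [Eu.add_G, LinearMap.add_apply, map_add]
    abel
  map_smul' a x := by
    refine LinearMap.ext fun c => ?_
    show (a • x).G c - (a • x).G 1 * c = a.u * (x.G c - x.G 1 * c)
    simp [mul_sub, mul_assoc]

/-- the normalisation on inflated endomorphisms -/
noncomputable def endProj : Infl θ (Module.End K A₀) →ₗ[Kill θ] LinearMap.range (euProj θ) :=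
  LinearMap.codRestrict _
    (inflMap θ
      ({ toFun := fun G => G - LinearMap.mul K A₀ (G 1)
         map_add' := fun x y => by
          simp only [LinearMap.add_apply, map_add]
          abel
         map_smul' := fun a x => by
          refine LinearMap.ext fun c => ?_
          show (a • x) c - (a • x) 1 * c = a * (x c - x 1 * c)
          simp [mul_sub, mul_assoc] } : Module.End K A₀ →ₗ[A₀] Module.End K A₀))
    fun G => ⟨⟨(show Module.End K A₀ from G), 0⟩, rfl⟩

/-- the map `P1 θ 1 → ker euProj` -/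
noncomputable def zeta : P1 θ 1 →ₗ[Kill θ] LinearMap.ker (euProj θ) :=
  LinearMap.codRestrict _
    { toFun := fun x => ⟨LinearMap.mul K A₀ (x : Kill θ).u, (x : Kill θ).s⟩
      map_add' := fun x y => by ext <;> simp
      map_smul' := fun a x => by
        ext c
        · simp [mul_assoc]
        · simp [add_comm] }
    fun x => by
      refine LinearMap.ext fun c => ?_
      show LinearMap.mul K A₀ (x : Kill θ).u c - LinearMap.mul K A₀ (x : Kill θ).u 1 * c = 0
      simp

theorem zeta_surjective : Function.Surjective (zeta θ) := by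
  rintro ⟨x, hx⟩
  refine ⟨⟨⟨x.G 1, 0, 0, x.s, 0⟩, mem_P0.2 ⟨rfl, rfl⟩⟩, Subtype.ext (Eu.ext ?_ rfl)⟩
  have hx' : x.G - LinearMap.mul K A₀ (x.G 1) = 0 := hx
  exact (sub_eq_zero.1 hx').symm

variable [Module.Finite K A₀] {θ} {Y : Type} [AddCommGroup Y] [Module A₀ Y] [Module.Finite A₀ Y]

theorem sig₁_push_surjective (hY : Van A₀ Y A₀ 1) (y : E (Kill θ) (Infl θ Y) (P1 θ 1) 2) :
    ∃ x : E (Kill θ) (Infl θ Y) (E2 θ) 2, push (sig₁ θ) x = y := by
  let b := Module.Free.chooseBasis K A₀
  have hEnd : Van A₀ Y (Module.End K A₀) 1 := by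
    let n := Fintype.card (Module.Free.ChooseBasisIndex K A₀)
    let e := Fintype.equivFin (Module.Free.ChooseBasisIndex K A₀)
    refine van_retract_right (N' := Fin n → A₀)
      { toFun := fun G i => G (b (e.symm i)), map_add' := fun _ _ => rfl,
        map_smul' := fun _ _ => rfl }
      (∑ j, LinearMap.comp
        ({ toFun := fun a => (b.coord j).smulRight a
           map_add' := fun x z => by ext c; simp
           map_smul' := fun a x => by ext c; simp } : A₀ →ₗ[A₀] Module.End K A₀)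
        (LinearMap.proj (e j))) ?_ (van_pi_right hY n)
    refine LinearMap.ext fun G => b.ext fun k => ?_
    simp [Finsupp.single_apply, ite_smul]
  have hrange : Van (Kill θ) (Infl θ Y) (LinearMap.range (euProj θ)) 1 := by
    refine van_retract_right (LinearMap.range (euProj θ)).subtype (endProj θ) ?_ (van_one_infl hEnd)
    refine LinearMap.ext fun x => Subtype.ext ?_
    obtain ⟨z, hz⟩ := x.2
    show (show Module.End K A₀ from (x : Infl θ (Module.End K A₀))) -
      LinearMap.mul K A₀ ((show Module.End K A₀ from (x : Infl θ (Module.End K A₀))) 1) =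
      (show Module.End K A₀ from (x : Infl θ (Module.End K A₀)))
    rw [← hz]
    refine LinearMap.ext fun c => ?_
    show z.G c - z.G 1 * c - (z.G 1 - z.G 1 * 1) * c = z.G c - z.G 1 * c
    simp
  have hZ : Van (Kill θ) (Infl θ Y) (LinearMap.ker (euProj θ)) 2 :=
    covan_left Subtype.val_injective (LinearMap.surjective_rangeRestrict _)
      (f := (LinearMap.ker (euProj θ)).subtype) (g := (euProj θ).rangeRestrict)
      (fun x => by
        rw [← LinearMap.exact_subtype_ker_map (euProj θ) x]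
        exact ⟨fun h => congrArg Subtype.val h, fun h => Subtype.ext h⟩)
      hrange (van_eu 2 Y)
  obtain ⟨z, rfl⟩ := exists_push_of_push_eq_zero Subtype.val_injective (zeta_surjective θ)
    (exact_ker (zeta θ)) y (Subsingleton.elim _ _)
  let sec : LinearMap.ker (zeta θ) →ₗ[Kill θ] Infl θ (Module.End K A₀) :=
    { toFun := fun t => toInfl θ (qsec ((t : P1 θ 1) : Kill θ).q)
      map_add' := fun s t => map_add qsec ((s : P1 θ 1) : Kill θ).q ((t : P1 θ 1) : Kill θ).q
      map_smul' := fun a t => by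
        have h : (⟨LinearMap.mul K A₀ ((t : P1 θ 1) : Kill θ).u, ((t : P1 θ 1) : Kill θ).s⟩ :
            Eu θ A₀) = 0 := congrArg Subtype.val t.2
        have hu : ((t : P1 θ 1) : Kill θ).u = 0 := by
          simpa using LinearMap.congr_fun (congrArg Eu.G h) 1
        have hs : ((t : P1 θ 1) : Kill θ).s = 0 := congrArg Eu.s h
        show qsec (a * ((t : P1 θ 1) : Kill θ)).q =
          LinearMap.mul K A₀ a.u ∘ₗ qsec ((t : P1 θ 1) : Kill θ).q
        simp [hu, hs, qsec_qleft] }
  let incl : Infl θ (Module.End K A₀) →ₗ[Kill θ] E2 θ :=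
    { toFun := fun G => ⟨(show Module.End K A₀ from G), 0⟩
      map_add' := fun x z => by
        refine E2.ext rfl ?_
        simp
      map_smul' := fun a x => by
        refine E2.ext (LinearMap.ext fun c => ?_) (by simp)
        simp
        rfl }
  refine ⟨push incl (push sec z), ?_⟩
  rw [push_push, push_push]
  congr 1
  refine LinearMap.ext fun t => Subtype.ext ?_
  have h : (⟨LinearMap.mul K A₀ ((t : P1 θ 1) : Kill θ).u, ((t : P1 θ 1) : Kill θ).s⟩ :
      Eu θ A₀) = 0 := congrArg Subtype.val t.2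
  obtain ⟨hr, hc⟩ := mem_P0.1 (t : P1 θ 1).2
  refine Kill.ext ?_ (mk_qsec _) hr.symm (congrArg Eu.s h).symm hc.symm
  exact (by simpa using LinearMap.congr_fun (congrArg Eu.G h) 1 :
    ((t : P1 θ 1) : Kill θ).u = 0).symm

variable (θ) in
/-- `(G, s) ↦ G 1` for `V = K` -/
noncomputable def euOne : Eu θ K →ₗ[Kill θ] Infl θ A₀ where
  toFun x := toInfl θ (x.G 1)
  map_add' _ _ := rfl
  map_smul' _ _ := rfl

omit [Module.Finite K A₀] in
theorem euOne_surjective : Function.Surjective (euOne θ) :=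
  fun a => ⟨⟨LinearMap.toSpanSingleton K A₀ (show A₀ from a), 0⟩,
    one_smul K (show A₀ from a)⟩

/-- a nonzero `Ext²` over `A₀` gives a nonzero `Ext³` into the module at the extra vertex -/
theorem not_van_three (hY : ¬ Van A₀ Y A₀ 2) :
    ¬ Van (Kill θ) (Infl θ Y) (LinearMap.ker (euOne θ)) 3 := fun h =>
  hY (van_two_defl (covan_right Subtype.val_injective euOne_surjective (exact_ker _)
    (van_eu 2 Y) h))

end Uses

end Kill

end Vale.Agent.P195
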