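import Vale.Agent.P195.Resolution

/-!
Long exact sequences of Ext in elementwise form, for modules.
-/

namespace Vale.Agent.P195

open CategoryTheory Abelian

/-- Ext groups of modules -/
abbrev Ex (R : Type) [Ring R] (A B : Type) [AddCommGroup A] [Module R A] [AddCommGroup B]
    [Module R B] (j : ℕ) : Type _ :=
  Ext (ModuleCat.of R A) (ModuleCat.of R B) j

variable {R : Type} [Ring R] {M : Type} [AddCommGroup M] [Module R M]
  {A B C A' B' C' : Type} [AddCommGroup A] [Module R A] [AddCommGroup B] [Module R B]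
  [AddCommGroup C] [Module R C] [AddCommGroup A'] [Module R A'] [AddCommGroup B'] [Module R B']
  [AddCommGroup C'] [Module R C']

/-- restriction along a map -/
noncomputable def pre (f : A →ₗ[R] B) {j : ℕ} (x : Ex R B M j) : Ex R A M j :=
  (Ext.mk₀ (ModuleCat.ofHom f)).comp x (zero_add j)

/-- a map as a class of degree zero -/
noncomputable def hom₀ (φ : A →ₗ[R] M) : Ex R A M 0 := Ext.mk₀ (ModuleCat.ofHom φ)

theorem hom₀_surjective (x : Ex R A M 0) : ∃ φ, hom₀ φ = x := by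
  obtain ⟨φ, rfl⟩ := (Ext.mk₀_bijective _ _).2 x
  exact ⟨φ.hom, rfl⟩

theorem hom₀_injective {φ ψ : A →ₗ[R] M} (h : hom₀ φ = hom₀ ψ) : φ = ψ :=
  congrArg ModuleCat.Hom.hom ((Ext.mk₀_bijective _ _).1 h)

theorem hom₀_zero : hom₀ (0 : A →ₗ[R] M) = 0 := by
  exact (congrArg Ext.mk₀ (ModuleCat.hom_ext rfl : ModuleCat.ofHom (0 : A →ₗ[R] M)
    = (0 : ModuleCat.of R A ⟶ ModuleCat.of R M))).trans (Ext.mk₀_zero _ _)

theorem pre_hom₀ (f : A →ₗ[R] B) (φ : B →ₗ[R] M) : pre f (hom₀ φ) = hom₀ (φ ∘ₗ f) :=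
  Ext.mk₀_comp_mk₀ _ _

theorem pre_zero (f : A →ₗ[R] B) {j : ℕ} : pre f (0 : Ex R B M j) = 0 := Ext.comp_zero _ _ _ _ _

theorem pre_zero_map {j : ℕ} (x : Ex R B M j) : pre (0 : A →ₗ[R] B) x = 0 := by
  show (Ext.mk₀ (0 : ModuleCat.of R A ⟶ ModuleCat.of R B)).comp x _ = 0
  rw [Ext.mk₀_zero, Ext.zero_comp]

theorem pre_comp (f : A →ₗ[R] B) (g : B →ₗ[R] C) {j : ℕ} (x : Ex R C M j) :
    pre f (pre g x) = pre (g ∘ₗ f) x :=
  Ext.mk₀_comp_mk₀_assoc _ _ x

theorem pre_sub (f : A →ₗ[R] B) {j : ℕ} (x y : Ex R B M j) : pre f (x - y) = pre f x - pre f y :=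
  map_sub ((Ext.mk₀ (ModuleCat.ofHom f)).precomp (ModuleCat.of R M) (zero_add j)) x y

theorem pre_eq_zero_iff {f : A →ₗ[R] B} (hf : Function.Surjective f) (x : Ex R B M 0) :
    pre f x = 0 ↔ x = 0 := by
  refine ⟨fun h => ?_, fun h => by rw [h, pre_zero]⟩
  obtain ⟨φ, rfl⟩ := hom₀_surjective x
  rw [pre_hom₀, ← hom₀_zero] at h
  rw [← hom₀_zero]
  congr 1
  exact LinearMap.ext fun b => by
    obtain ⟨a, rfl⟩ := hf b
    exact LinearMap.congr_fun (hom₀_injective h) a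

/-- a short exact sequence -/
structure Ses (ι : A →ₗ[R] B) (f : B →ₗ[R] C) : Prop where
  inj : Function.Injective ι
  surj : Function.Surjective f
  exact : Function.Exact ι f

namespace Ses

variable {ι : A →ₗ[R] B} {f : B →ₗ[R] C} (S : Ses ι f)
include S

theorem shortExact :
    (ShortComplex.moduleCatMk ι f S.exact.linearMap_comp_eq_zero).ShortExact :=
  ModuleCat.shortComplex_shortExact _ S.exact S.inj S.surj

/-- the connecting map -/
noncomputable def del {j : ℕ} (y : Ex R A M j) : Ex R C M (j + 1) :=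
  S.shortExact.extClass.comp y (add_comm 1 j)

theorem del_zero {j : ℕ} : S.del (0 : Ex R A M j) = 0 := Ext.comp_zero _ _ _ _ _

theorem del_add {j : ℕ} (y z : Ex R A M j) : S.del (y + z) = S.del y + S.del z :=
  Ext.comp_add _ _ _ _

theorem pre_pre {j : ℕ} (x : Ex R C M j) : pre ι (pre f x) = 0 := by
  rw [pre_comp, S.exact.linearMap_comp_eq_zero, pre_zero_map]

theorem del_pre {j : ℕ} (z : Ex R B M j) : S.del (pre ι z) = 0 :=
  S.shortExact.extClass_comp_assoc z

theorem exact_right {j : ℕ} (x : Ex R C M (j + 1)) (h : pre f x = 0) : ∃ y, S.del y = x :=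
  Ext.contravariant_sequence_exact₃ S.shortExact _ x h _

theorem exact_left {j : ℕ} (y : Ex R A M j) (h : S.del y = 0) : ∃ z, pre ι z = y :=
  Ext.contravariant_sequence_exact₁ S.shortExact _ y _ h

theorem exact_middle {j : ℕ} (z : Ex R B M j) (h : pre ι z = 0) : ∃ x, pre f x = z :=
  Ext.contravariant_sequence_exact₂ S.shortExact _ z h

theorem del_surjective [Module.Projective R B] {j : ℕ} (x : Ex R C M (j + 1)) :
    ∃ y, S.del y = x := by
  have : Projective (ModuleCat.of R B) := (IsProjective.iff_projective B).1 inferInstance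
  exact S.exact_right x (Ext.eq_zero_of_projective _)

theorem del_injective [Module.Projective R B] {j : ℕ} (y : Ex R A M (j + 1)) (h : S.del y = 0) :
    y = 0 := by
  have : Projective (ModuleCat.of R B) := (IsProjective.iff_projective B).1 inferInstance
  obtain ⟨z, rfl⟩ := S.exact_left y h
  rw [show z = 0 from Ext.eq_zero_of_projective _, pre_zero]

theorem del_hom₀_eq_zero_iff (φ : A →ₗ[R] M) : S.del (hom₀ φ) = 0 ↔ ∃ g, g ∘ₗ ι = φ := by
  refine ⟨fun h => ?_, fun ⟨g, hg⟩ => by rw [← hg, ← pre_hom₀, S.del_pre]⟩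
  obtain ⟨z, hz⟩ := S.exact_left _ h
  obtain ⟨g, rfl⟩ := hom₀_surjective z
  rw [pre_hom₀] at hz
  exact ⟨g, hom₀_injective hz⟩

theorem pre_del {ι' : A' →ₗ[R] B'} {f' : B' →ₗ[R] C'} (S' : Ses ι' f') (a : A →ₗ[R] A')
    (b : B →ₗ[R] B') (c : C →ₗ[R] C') (h₁ : b ∘ₗ ι = ι' ∘ₗ a) (h₂ : c ∘ₗ f = f' ∘ₗ b) {j : ℕ}
    (y : Ex R A' M j) : pre c (S'.del y) = S.del (pre a y) := by
  let τ : ShortComplex.moduleCatMk ι f S.exact.linearMap_comp_eq_zero
      ⟶ ShortComplex.moduleCatMk ι' f' S'.exact.linearMap_comp_eq_zero :=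
    { τ₁ := ModuleCat.ofHom a
      τ₂ := ModuleCat.ofHom b
      τ₃ := ModuleCat.ofHom c
      comm₁₂ := ModuleCat.hom_ext h₁.symm
      comm₂₃ := ModuleCat.hom_ext h₂.symm }
  have h := S.shortExact.extClass_naturality S'.shortExact τ
  unfold Ses.del pre
  refine ((Ext.comp_assoc (a₁₂ := 1) _ _ _ (zero_add 1) (add_comm 1 j) (by omega)).symm.trans
    ?_).trans (Ext.comp_assoc (a₁₂ := 1) _ _ _ (add_zero 1) (zero_add j) (by omega))
  exact congrArg (fun z => z.comp y (add_comm 1 j)) h.symm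

end Ses

end Vale.Agent.P195
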