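import Vale.Agent.P195.Shape

/-!
Exactness of the leading parts of the twisted Koszul complexes.
-/

namespace Vale.Agent.P195

variable {K : Type} [Field K] {ε : Fin 2} {w n e e' : ℤ}

/-- the cochains that are constants of weight zero -/
def Cst (σ : Fin 2) (w n : ℤ) (z : Zc K) : Prop :=
  ∀ vp b m, z vp b m ≠ 0 →
    vp = b + σ ∧ Sup n b m ∧ w - ob vp = 0 ∧ ∃ c : K, z vp b m = algebraMap K (Am K) c

theorem Cst.pm {σ : Fin 2} {z : Zc K} (h : Cst σ w n z) (he : 0 ≤ e) : RowP σ w n e z :=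
  fun vp b m h0 => by
    obtain ⟨h1, h2, h3, c, hc⟩ := h vp b m h0
    exact ⟨h1, h2, by rw [h3, hc]; exact inW_const c he⟩

theorem parity_succ {b : Fin 2} {p q : Fin 2} (hp : b + ε = p) (hq : p + 1 = q) :
    b + (ε + 1) = q := by rw [← add_assoc, hp, hq]

theorem d30_inj {z : Zc K} (h : d30 K z = 0) : z = 0 := by
  funext vp b m
  rcases two_cases vp with rfl | rfl
  · refine mul_gy_cancel ?_
    rw [← (d30_one z b m).1, h]; rfl
  · refine mul_gdx_cancel ?_
    rw [← (d30_zero z b m).1, h]; rfl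

theorem exact20 [CharZero K] {u : Zc K × Zc K} (h : RowP2 (ε + 1) w n e u) (hd : d20 K u = 0) :
    ∃ z, RowP ε w n (e - 1) z ∧ d30 K z = u := by
  obtain ⟨z, hz, hR⟩ := exists_PM (σ := ε) (w := w) (n := n) (e := e - 1)
    (R := fun b m a => (b + ε = 0 → a * gy K = u.1 1 b m ∧ -(a * gx K) = u.2 1 b m) ∧
      (b + ε = 1 → a * gdx K = u.1 0 b m ∧ a * gdy K = u.2 0 b m))
    (fun b m _ => by
      rcases two_cases (b + ε) with hp | hp <;> rw [hp]
      · have h0 : u.1 1 b m * gx K + u.2 1 b m * gy K = 0 := by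
          refine mul_gdx_cancel (neg_eq_zero.mp ?_)
          rw [← (d20_one u b m).1, hd]; rfl
        obtain ⟨s, hs, e1, e2⟩ := ker_xy (h.1.inW 1 b m) (h.2.inW 1 b m) h0
        refine ⟨s, by simpa [ob] using hs, fun _ => ⟨e1.symm, e2.symm⟩, fun hc => ?_⟩
        exact absurd hc (by decide)
      · have h0 : -u.2 0 b m * gdx K + u.1 0 b m * gdy K = 0 := by
          refine mul_gy_cancel ?_
          rw [am_neg_mul, neg_add_eq_sub, ← (d20_zero u b m).1, hd]; rfl
        obtain ⟨s, hs, e1, e2⟩ := ker_d (inW_neg (h.2.inW 0 b m)) h0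
        refine ⟨-s, by simpa [ob] using inW_neg hs, fun hc => ?_, fun _ => ⟨?_, ?_⟩⟩
        · exact absurd hc (by decide)
        · rw [am_neg_mul, e2]
        · rw [am_neg_mul, ← e1, neg_neg])
    (fun b m hs => by
      rw [h.1.eq_zero (Or.inr hs), h.2.eq_zero (Or.inr hs), h.1.eq_zero (Or.inr hs),
        h.2.eq_zero (Or.inr hs)]
      simp)
  refine ⟨z, hz, RowP2.ext (hz.d30) h (fun b m => ?_) fun b m => ?_⟩ <;>
    rcases two_cases (b + ε) with hp | hp <;>
    have hR' := hR b m <;> rw [hp] at hR'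
  · rw [parity_succ hp rfl, show (0 : Fin 2) + 1 = 1 from rfl, (d30_one z b m).1]
    exact (hR'.1 rfl).1
  · rw [parity_succ hp rfl, show (1 : Fin 2) + 1 = 0 from rfl, (d30_zero z b m).1]
    exact (hR'.2 rfl).1
  · rw [parity_succ hp rfl, show (0 : Fin 2) + 1 = 1 from rfl, (d30_one z b m).2]
    exact (hR'.1 rfl).2
  · rw [parity_succ hp rfl, show (1 : Fin 2) + 1 = 0 from rfl, (d30_zero z b m).2]
    exact (hR'.2 rfl).2

theorem exact10 [CharZero K] (hw : -1 ≤ w) (hw' : w ≤ 1) {a : Zc K × Zc K}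
    (h : RowP2 (ε + 1) w n e a) (hd : d10 K a = 0) (hb : w ≤ 0 ∨ ∃ u0, d20 K u0 = a) :
    ∃ u, RowP2 (ε + 1) w n (e - 2) u ∧ d20 K u = a := by
  obtain ⟨u, hu, hR⟩ := exists_PM2 (σ := ε + 1) (w := w) (n := n) (e := e - 2)
    (R := fun b m s t =>
      (b + ε = 0 → -((s * gx K + t * gy K) * gdx K) = a.1 1 b m ∧
        -((s * gx K + t * gy K) * gdy K) = a.2 1 b m) ∧
      (b + ε = 1 → (s * gdy K - t * gdx K) * gy K = a.1 0 b m ∧
        -((s * gdy K - t * gdx K) * gx K) = a.2 0 b m))
    (fun b m _ => by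
      rw [← add_assoc]
      rcases two_cases (b + ε) with hp | hp <;> rw [hp]
      · have h0 : a.2 1 b m * gdx K + -a.1 1 b m * gdy K = 0 := by
          rw [am_neg_mul, add_comm, ← d10_zero, hd]; rfl
        obtain ⟨s, hs, e1, e2⟩ := ker_d (h.2.inW 1 b m) h0
        obtain ⟨p, q, hp', hq', e3⟩ := img_xy_one (by simp [ob]; omega) hs
        refine ⟨-p, -q, ?_, ?_, fun _ => ?_, fun hc => absurd hc (by decide)⟩
        · simpa [ob, sub_sub] using inW_neg hp'
        · simpa [ob, sub_sub] using inW_neg hq'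
        · have e4 : -p * gx K + -q * gy K = -s := by
            rw [am_neg_mul, am_neg_mul, ← neg_add, e3]
          rw [e4, am_neg_mul, am_neg_mul, neg_neg, neg_neg, ← e1]
          exact ⟨(neg_inj.mp e2).symm, rfl⟩
      · have h0 : a.1 0 b m * gx K + a.2 0 b m * gy K = 0 := by
          rw [← d10_one, hd]; rfl
        obtain ⟨s, hs, e1, e2⟩ := ker_xy (h.1.inW 0 b m) (h.2.inW 0 b m) h0
        obtain ⟨p, q, c, hp', hq', e3, hc⟩ := img_d (by simp [ob]; omega) hs
        have hc0 : c = 0 := by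
          by_contra hne
          have hwc := (hc hne).1
          rcases hb with hb | ⟨u0, hu0⟩
          · simp [ob] at hwc; omega
          have e4 : s = u0.1 0 b m * gdy K - u0.2 0 b m * gdx K := by
            refine sub_eq_zero.mp (mul_gy_cancel ?_)
            rw [sub_mul, ← e1, ← (d20_zero u0 b m).1, hu0, sub_self]
          refine hne (const_d (a := -u0.2 0 b m - p) (b := u0.1 0 b m - q) ?_)
          rw [e4] at e3
          rw [sub_mul, sub_mul, am_neg_mul, eq_comm]
          calc algebraMap K (Am K) c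
              = (p * gdx K + q * gdy K + algebraMap K (Am K) c) - p * gdx K - q * gdy K := by abel
            _ = _ := by rw [e3]; abel
        refine ⟨q, -p, ?_, ?_, fun hc => absurd hc (by decide), fun _ => ?_⟩
        · simpa [ob, sub_sub] using hq'
        · simpa [ob, sub_sub] using inW_neg hp'
        · have e4 : q * gdy K - -p * gdx K = s := by
            rw [← e3, hc0, map_zero, add_zero, am_neg_mul, sub_neg_eq_add, add_comm]
          rw [e4]
          exact ⟨e1.symm, e2.symm⟩)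
    (fun b m hs => by
      rw [h.1.eq_zero (Or.inr hs), h.2.eq_zero (Or.inr hs), h.1.eq_zero (Or.inr hs),
        h.2.eq_zero (Or.inr hs)]
      simp)
  refine ⟨u, hu, RowP2.ext hu.d20 h (fun b m => ?_) fun b m => ?_⟩ <;>
    rcases two_cases (b + ε) with hp | hp <;>
    have hR' := hR b m <;> rw [hp, parity_succ hp rfl] at hR' <;> rw [parity_succ hp rfl]
  · rw [show (0 : Fin 2) + 1 = 1 from rfl] at hR' ⊢
    rw [(d20_one u b m).1]; exact (hR'.1 rfl).1
  · rw [show (1 : Fin 2) + 1 = 0 from rfl] at hR' ⊢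
    rw [(d20_zero u b m).1]; exact (hR'.2 rfl).1
  · rw [show (0 : Fin 2) + 1 = 1 from rfl] at hR' ⊢
    rw [(d20_one u b m).2]; exact (hR'.1 rfl).2
  · rw [show (1 : Fin 2) + 1 = 0 from rfl] at hR' ⊢
    rw [(d20_zero u b m).2]; exact (hR'.2 rfl).2

theorem exact00 [CharZero K] (hw : -1 ≤ w) (hw' : w ≤ 0) {z : Zc K} (h : RowP ε w n e z) :
    ∃ a C, RowP2 (ε + 1) w n (e - 1) a ∧ Cst ε w n C ∧ RowP ε w n e C ∧ z = d10 K a + C := by
  have key : ∀ b m, ∃ s t, ∃ c : K,
      InW K (w - ob (b + (ε + 1))) (e - 1) s ∧ InW K (w - ob (b + (ε + 1))) (e - 1) t ∧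
      (¬ Sup n b m → s = 0 ∧ t = 0 ∧ c = 0) ∧ (c ≠ 0 → w - ob (b + ε) = 0 ∧ 0 ≤ e) ∧
      (b + ε = 0 → -(s * gdy K) + t * gdx K + algebraMap K (Am K) c = z 0 b m) ∧
      (b + ε = 1 → s * gx K + t * gy K + algebraMap K (Am K) c = z 1 b m) := by
    intro b m
    by_cases hs : Sup n b m
    swap
    · refine ⟨0, 0, 0, inW_zero _ _, inW_zero _ _, fun _ => ⟨rfl, rfl, rfl⟩,
        fun hc => absurd rfl hc, fun _ => ?_, fun _ => ?_⟩ <;>
        rw [h.eq_zero (Or.inr hs)] <;> simp
    rw [← add_assoc]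
    rcases two_cases (b + ε) with hp | hp <;> rw [hp]
    · obtain ⟨p, q, c, hp', hq', e3, hc⟩ := img_d (by simp [ob]; omega) (h.inW 0 b m)
      refine ⟨-q, p, c, ?_, ?_, fun f => absurd hs f, hc, fun _ => ?_,
        fun hc => absurd hc (by decide)⟩
      · simpa [ob] using inW_neg hq'
      · simpa [ob] using hp'
      · rw [am_neg_mul, neg_neg, add_comm (q * gdy K)]; exact e3
    · obtain ⟨p, q, c, hp', hq', e3, hc⟩ := img_xy (by simp [ob]; omega) (h.inW 1 b m)
      refine ⟨p, q, c, ?_, ?_, fun f => absurd hs f, hc, fun hc => absurd hc (by decide),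
        fun _ => e3⟩
      · simpa [ob] using hp'
      · simpa [ob] using hq'
  choose s t c hs ht h0 hc h1 h2 using key
  refine ⟨(fun vp b m => if vp = b + (ε + 1) then s b m else 0,
      fun vp b m => if vp = b + (ε + 1) then t b m else 0),
    fun vp b m => if vp = b + ε then algebraMap K (Am K) (c b m) else 0,
    ⟨fun vp b m hne => ?_, fun vp b m hne => ?_⟩, fun vp b m hne => ?_, fun vp b m hne => ?_, ?_⟩
  · by_cases hv : vp = b + (ε + 1)
    · simp only [if_pos hv] at hne ⊢
      refine ⟨hv, by_contra fun f => hne (h0 b m f).1, ?_⟩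
      rw [hv]; exact hs b m
    · simp [if_neg hv] at hne
  · by_cases hv : vp = b + (ε + 1)
    · simp only [if_pos hv] at hne ⊢
      refine ⟨hv, by_contra fun f => hne (h0 b m f).2.1, ?_⟩
      rw [hv]; exact ht b m
    · simp [if_neg hv] at hne
  · by_cases hv : vp = b + ε
    · simp only [if_pos hv] at hne ⊢
      have hne' : c b m ≠ 0 := fun f => hne (by rw [f, map_zero])
      refine ⟨hv, by_contra fun f => hne' (h0 b m f).2.2, ?_, c b m, rfl⟩
      rw [hv]; exact (hc b m hne').1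
    · simp [if_neg hv] at hne
  · by_cases hv : vp = b + ε
    · simp only [if_pos hv] at hne ⊢
      have hne' : c b m ≠ 0 := fun f => hne (by rw [f, map_zero])
      refine ⟨hv, by_contra fun f => hne' (h0 b m f).2.2, ?_⟩
      rw [hv, (hc b m hne').1]; exact inW_const _ (hc b m hne').2
    · simp [if_neg hv] at hne
  · funext vp b m
    by_cases hv : vp = b + ε
    · subst hv
      simp only [Pi.add_apply]
      rw [if_pos trivial]
      rcases two_cases (b + ε) with hp | hp
      · rw [hp, d10_zero]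
        simp only [parity_succ hp (rfl : (0 : Fin 2) + 1 = 1)]
        exact (h1 b m hp).symm
      · rw [hp, d10_one]
        simp only [parity_succ hp (rfl : (1 : Fin 2) + 1 = 0)]
        exact (h2 b m hp).symm
    · rw [h.eq_zero (Or.inl hv)]
      simp only [Pi.add_apply, if_neg hv, add_zero]
      have hv3 : vp + 1 ≠ b + (ε + 1) := fun f =>
        hv (add_right_cancel (f.trans (add_assoc b ε 1).symm))
      rcases two_cases vp with rfl | rfl
      · rw [d10_zero]
        simp only [if_neg (show (1 : Fin 2) ≠ b + (ε + 1) from hv3)]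
        simp
      · rw [d10_one]
        simp only [if_neg (show (0 : Fin 2) ≠ b + (ε + 1) from hv3)]
        simp

theorem cst_im [CharZero K] {C : Zc K} {a : Zc K × Zc K} (hC : Cst ε w n C)
    (ha : RowP2 (ε + 1) w n e a) (h : d10 K a = C) : C = 0 := by
  funext vp b m
  by_contra hne
  obtain ⟨h1, h2, h3, c, hc⟩ := hC vp b m hne
  have hc0 : c = 0 := by
    rcases two_cases vp with rfl | rfl
    · refine const_d (a := a.2 1 b m) (b := -a.1 1 b m) ?_
      rw [am_neg_mul, add_comm, ← d10_zero, h, hc]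
    · refine const_xy (ha.1.inW 0 b m) (ha.2.inW 0 b m) ?_
      rw [← d10_one, h, hc]
  exact hne (by rw [hc, hc0, map_zero]; rfl)

end Vale.Agent.P195
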