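import Vale.Agent.P195.CoHom

/-!
`Ext` from the orbit modules `X n`, `n ≥ 1`, into `X 0` vanishes: maps from the resolutions into
`X 0` are scalar cochains.
-/

namespace Vale.Agent.P195

namespace Orbit

set_option linter.unusedSectionVars false

variable {K : Type} [Field K]

/-- evaluation of a Weyl element on the constant polynomial -/
noncomputable def ev0 : Am K →+ K where
  toFun a := actFn K a (mono K (0, 0)) (0, 0)
  map_zero' := by simp [actFn_zero_left]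
  map_add' a b := by simp [actFn_add_left]

/-- scalars as Weyl elements -/
noncomputable def sca : K →+* Am K := algebraMap K (Am K)

theorem ev0_sca (c : K) : ev0 (sca c) = c := by
  show actFn K (algebraMap K (Am K) c) (mono K (0, 0)) (0, 0) = c
  rw [← smul_fn, algebraMap_smul]
  simp [mono]

theorem ev0_mul_sca (a : Am K) (c : K) : ev0 (a * sca c) = c * ev0 a := by
  show actFn K (a * algebraMap K (Am K) c) (mono K (0, 0)) (0, 0) = _
  rw [actFn_mul, ← smul_fn (algebraMap K (Am K) c), algebraMap_smul, ← smul_fn, smul_comm]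
  rfl

theorem ev0_zsmul (k : ℤ) (a : Am K) : ev0 (k • a) = (k : K) * ev0 a := by
  rw [map_zsmul, zsmul_eq_mul]

/-- the scalar of a map at a monomial -/
noncomputable def sc {n : ℕ} (q : Fin 4) (ψ : PM K n q →ₗ[A0 K] XM K 0) (m : ℤ × ℤ) : K :=
  if h : m ∈ deg2 ((n : ℤ) + ob (lp q)) then (ψ (gen q ⟨lp q, m, h⟩)).1 (0, (q, 0)) (0, 0) else 0

/-- a scalar cochain -/
noncomputable def emb0 (q : Fin 4) (σ : ℤ × ℤ → K) : Zc K := fun vp b m =>
  if vp = 0 ∧ b = lp q then sca (σ m) else 0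

/-- the value of a map at the trivial exponent of a vertex -/
noncomputable def val0 (x : XM K 0) (r : V) : K := x.1 (0, r) (0, 0)

theorem val0_add (x y : XM K 0) (r : V) : val0 (x + y) r = val0 x r + val0 y r := rfl

theorem xm0_ext {x y : XM K 0} (h : ∀ r : V, r.2 = 0 → val0 x r = val0 y r) : x = y := by
  refine Subtype.ext (funext fun i => ?_)
  obtain ⟨a, r⟩ := i
  fin_cases a
  · funext m
    by_cases hr : r.2 = 0
    · by_cases hm : m = (0, 0)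
      · subst hm; exact h r hr
      · have key : ∀ z : XM K 0, z.1 (0, r) m = 0 := fun z => by
          by_contra hne
          obtain ⟨h0, h1, h2⟩ := (z.2 r).2 m hne
          simp only [off, hr, Matrix.cons_val_zero, Nat.cast_zero, add_zero] at h2
          exact hm (Prod.ext (by omega) (by omega))
        exact (key x).trans (key y).symm
    · have hr1 : r.2 = 1 := by omega
      have key : ∀ z : XM K 0, z.1 (0, r) m = 0 := fun z => by
        by_contra hne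
        obtain ⟨h0, h1, h2⟩ := (z.2 r).2 m hne
        simp only [off, hr1, Matrix.cons_val_one, Matrix.cons_val_fin_one, Nat.cast_zero,
          zero_add] at h2
        omega
      exact (key x).trans (key y).symm
  · exact (x.2 r).1.trans (y.2 r).1.symm

theorem val0_smul (s : A0 K) (x : XM K 0) (r : V) :
    val0 (s • x) r = ∑ v, actFn K (mat K s (0, r) (0, v)) (x.1 (0, v)) (0, 0) := by
  show (s • x.1) (0, r) (0, 0) = _
  rw [smul_mv_zero, Pi.add_apply, Finset.sum_apply, Finset.sum_apply,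
    Finset.sum_eq_zero (s := Finset.univ) (f := fun v =>
      (mat K s (0, r) (1, v) • x.1 (1, v)) (0, 0)) fun v _ => by rw [(x.2 v).1, smul_zero]; rfl,
    add_zero]
  rfl

theorem val0_coef {n : ℕ} {q : Fin 4} (g : Gen n) (z : PM K n q) (x : XM K 0) (r : V) :
    val0 (coef q g z • x) r = actFn K (at' q g (z.1 (1, r))) (x.1 (0, g.r q)) (0, 0) := by
  rw [val0_smul, Finset.sum_eq_single (g.r q)]
  · simp [coef, mat_ofMat, coefMat]
  · intro v _ hv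
    simp [coef, mat_ofMat, coefMat, hv, actFn_zero_left]
  · simp

theorem fn_gen {n : ℕ} {q : Fin 4} (ψ : PM K n q →ₗ[A0 K] XM K 0) (g : Gen n) :
    (ψ (gen q g)).1 (0, g.r q) =
      (if g.1 + lp q = 0 ∧ g.1 = lp q then sc q ψ g.2.1 else 0) • mono K (0, 0) := by
  obtain ⟨b, m, hm⟩ := g
  funext p
  have hp := (ψ (gen q ⟨b, m, hm⟩)).2 (q, b + lp q)
  by_cases hb : b = lp q
  · subst hb
    have e : lp q + lp q = (0 : Fin 2) := by fin_cases q <;> rfl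
    rw [if_pos ⟨e, rfl⟩]
    simp only [sc, hm, dite_true]
    by_cases h0 : p = (0, 0)
    · subst h0; simp [mono, Gen.r, e]
    · have : (ψ (gen q ⟨lp q, m, hm⟩)).1 (0, (q, lp q + lp q)) p = 0 := by
        by_contra hne
        obtain ⟨h1, h2, h3⟩ := hp.2 p hne
        simp only [off, e, Matrix.cons_val_zero, Nat.cast_zero, add_zero] at h3
        exact h0 (Prod.ext (by omega) (by omega))
      simp [mono, h0, Gen.r, this]
  · rw [if_neg fun h => hb h.2, zero_smul]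
    have e : b + lp q = 1 := by revert hb; fin_cases q <;> fin_cases b <;> simp [lp]
    by_contra hne
    obtain ⟨h1, h2, h3⟩ := hp.2 p hne
    simp only [off, e, Matrix.cons_val_one, Matrix.cons_val_fin_one, Nat.cast_zero, zero_add] at h3
    omega

/-- a map into `X 0` is the pairing with its scalar cochain -/
theorem val0_map {n : ℕ} {q : Fin 4} (ψ : PM K n q →ₗ[A0 K] XM K 0) (z : PM K n q) (r : V) :
    val0 (ψ z) r = ev0 (pair (n : ℤ) (z.1 (1, r)) (emb0 q (sc q ψ))) := by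
  conv_lhs => rw [← sum_coef q z, map_sum]
  let V0 : XM K 0 →+ K := AddMonoidHom.mk' (fun x => val0 x r) fun x y => val0_add x y r
  show V0 _ = _
  rw [map_sum, pair_eq_gen (z.2 r).1, map_sum]
  refine Finset.sum_congr rfl fun g _ => ?_
  show val0 (ψ (coef q g z • gen q g)) r = _
  rw [map_smul, val0_coef, fn_gen, ← smul_fn, smul_comm, smul_fn]
  by_cases h : g.1 = lp q
  · have e : g.1 + lp q = 0 := by rw [h]; fin_cases q <;> rfl
    rw [if_pos ⟨e, h⟩, show emb0 q (sc q ψ) (g.1 + lp q) g.1 g.2.1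
      = sca (sc q ψ g.2.1) from if_pos ⟨e, h⟩, ev0_mul_sca]
    rfl
  · rw [if_neg fun hh => h hh.2, show emb0 q (sc q ψ) (g.1 + lp q) g.1 g.2.1 = 0 by
      simp [emb0, h], mul_zero, map_zero, zero_smul]
    rfl

theorem eq_of_sc {n : ℕ} {q : Fin 4} {ψ ψ' : PM K n q →ₗ[A0 K] XM K 0}
    (h : ∀ m ∈ deg2 ((n : ℤ) + ob (lp q)), sc q ψ m = sc q ψ' m) : ψ = ψ' := by
  refine LinearMap.ext fun z => xm0_ext fun r _ => ?_
  rw [val0_map, val0_map]
  refine congrArg ev0 ?_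
  unfold pair
  refine Finset.sum_congr rfl fun vp _ => Finset.sum_congr rfl fun b _ =>
    Finset.sum_congr rfl fun m hm => ?_
  by_cases hb : vp = 0 ∧ b = lp q
  · simp only [emb0, if_pos hb]
    rw [h m (by rw [← hb.2]; exact hm)]
  · simp only [emb0, if_neg hb]

theorem sc_eq_val0 {n : ℕ} {q : Fin 4} (ψ : PM K n q →ₗ[A0 K] XM K 0) {m : ℤ × ℤ}
    (hm : m ∈ deg2 ((n : ℤ) + ob (lp q))) :
    sc q ψ m = val0 (ψ (gen q ⟨lp q, m, hm⟩)) (q, 0) := by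
  simp [sc, hm, val0]

theorem exists_sc (n : ℕ) (q : Fin 4) (σ : ℤ × ℤ → K) :
    ∃ ψ : PM K n q →ₗ[A0 K] XM K 0,
      ∀ m ∈ deg2 ((n : ℤ) + ob (lp q)), sc q ψ m = σ m := by
  let x : Gen n → XM K 0 := fun g =>
    ⟨(fun i => if i = (0, g.r q) ∧ g.1 = lp q then σ g.2.1 • mono K (0, 0) else 0 : MV K (Fn K)), fun r => ⟨by simp,
      by
        by_cases h : ((0, r) : Fin 2 × V) = (0, g.r q) ∧ g.1 = lp q
        · simp only [if_pos h]
          obtain rfl : r = g.r q := (Prod.ext_iff.mp h.1).2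
          refine Submodule.smul_mem _ _ fun p hp => ?_
          obtain rfl : p = (0, 0) := by
            by_contra hne
            exact hp (by simp [mono, hne])
          have e : g.1 + lp q = 0 := by rw [h.2]; fin_cases q <;> rfl
          simp [Gen.r, off, e]
        · simp only [if_neg h]; exact Submodule.zero_mem _⟩⟩
  let ψ : PM K n q →ₗ[A0 K] XM K 0 :=
    ∑ g, (LinearMap.toSpanSingleton (A0 K) (XM K 0) (x g)).comp (coef q g)
  refine ⟨ψ, fun m hm => ?_⟩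
  let g₀ : Gen n := ⟨lp q, m, hm⟩
  have e : lp q + lp q = (0 : Fin 2) := by fin_cases q <;> rfl
  rw [sc_eq_val0 ψ hm]
  let V0 : XM K 0 →+ K := AddMonoidHom.mk' (fun y => val0 y (q, 0)) fun y z => val0_add y z _
  show V0 (ψ (gen q g₀)) = _
  simp only [ψ, LinearMap.sum_apply, LinearMap.comp_apply, LinearMap.toSpanSingleton_apply,
    map_sum]
  have key : ∀ g : Gen n, V0 (coef (K := K) q g (gen q g₀) • x g) = if g = g₀ then σ m else 0 := by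
    intro g
    show val0 (coef (K := K) q g (gen q g₀) • x g) (q, 0) = _
    rw [val0_coef, show (gen (K := K) q g₀).1 (1, (q, 0)) = delta (K := K) q g₀ by
      simp [gen, g₀, Gen.r, e], at_delta]
    by_cases hg : g = g₀
    · subst hg
      simp [x, g₀, actFn_one, mono]
    · simp [hg, actFn_zero_left]
  simp [key]

theorem pair_delta {n : ℕ} (q : Fin 4) (g : Gen n) (φ : Zc K) :
    pair (n : ℤ) (delta q g) φ = φ (g.1 + lp q) g.1 g.2.1 := by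
  have h1 : (gen (K := K) q g).1 (1, g.r q) = delta q g := by simp [gen]
  rw [pair_eq_gen (h1 ▸ ((gen q g).2 (g.r q)).1)]
  simp [at_delta]

variable (K) in
/-- the two units of a double term -/
noncomputable def gen2 {n : ℕ} (q : Fin 4) (g : Gen n) (i : Fin 2) : PM2 K n q :=
  (PM2.equiv n q).symm (if i = 0 then (gen q g, 0) else (0, gen q g))

/-- the two maps of a map on a double term -/
noncomputable def comp1 {n : ℕ} {q : Fin 4} (ψ : PM2 K n q →ₗ[A0 K] XM K 0) :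
    PM K n q →ₗ[A0 K] XM K 0 :=
  (ψ ∘ₗ (PM2.equiv n q).symm.toLinearMap) ∘ₗ LinearMap.inl (A0 K) _ _

/-- the second one -/
noncomputable def comp2 {n : ℕ} {q : Fin 4} (ψ : PM2 K n q →ₗ[A0 K] XM K 0) :
    PM K n q →ₗ[A0 K] XM K 0 :=
  (ψ ∘ₗ (PM2.equiv n q).symm.toLinearMap) ∘ₗ LinearMap.inr (A0 K) _ _

theorem comp12_apply {n : ℕ} {q : Fin 4} (ψ : PM2 K n q →ₗ[A0 K] XM K 0) (z : PM2 K n q) :
    ψ z = comp1 ψ (PM2.equiv n q z).1 + comp2 ψ (PM2.equiv n q z).2 := by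
  obtain ⟨p, rfl⟩ := (PM2.equiv (K := K) n q).symm.surjective z
  simp only [comp1, comp2, LinearMap.comp_apply, LinearEquiv.coe_coe, LinearEquiv.apply_symm_apply]
  rw [← map_add, ← map_add]
  simp

theorem eq_of_sc2 {n : ℕ} {q : Fin 4} {ψ ψ' : PM2 K n q →ₗ[A0 K] XM K 0}
    (h₁ : ∀ m ∈ deg2 ((n : ℤ) + ob (lp q)), sc q (comp1 ψ) m = sc q (comp1 ψ') m)
    (h₂ : ∀ m ∈ deg2 ((n : ℤ) + ob (lp q)), sc q (comp2 ψ) m = sc q (comp2 ψ') m) : ψ = ψ' :=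
  LinearMap.ext fun z => by rw [comp12_apply ψ, comp12_apply ψ', eq_of_sc h₁, eq_of_sc h₂]

theorem exists_sc2 (n : ℕ) (q : Fin 4) (σ τ : ℤ × ℤ → K) :
    ∃ ψ : PM2 K n q →ₗ[A0 K] XM K 0,
      (∀ m ∈ deg2 ((n : ℤ) + ob (lp q)), sc q (comp1 ψ) m = σ m) ∧
      ∀ m ∈ deg2 ((n : ℤ) + ob (lp q)), sc q (comp2 ψ) m = τ m := by
  obtain ⟨a, ha⟩ := exists_sc n q σ
  obtain ⟨b, hb⟩ := exists_sc n q τ
  refine ⟨a ∘ₗ PM2.fst n q + b ∘ₗ PM2.snd n q, fun m hm => ?_, fun m hm => ?_⟩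
  · rw [← ha m hm]
    congr 1
    exact LinearMap.ext fun x => by simp [comp1, PM2.fst, PM2.snd]
  · rw [← hb m hm]
    congr 1
    exact LinearMap.ext fun x => by simp [comp2, PM2.fst, PM2.snd]

theorem val0_map2 {n : ℕ} {q : Fin 4} (ψ : PM2 K n q →ₗ[A0 K] XM K 0) (z : PM2 K n q) (r : V) :
    val0 (ψ z) r = ev0 (pair2 (n : ℤ) (z.1 (1, r))
      (emb0 q (sc q (comp1 ψ)), emb0 q (sc q (comp2 ψ)))) := by
  rw [comp12_apply, val0_add, val0_map, val0_map, pair2, map_add]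
  rfl

theorem lp_add_lp (q : Fin 4) : lp q + lp q = (0 : Fin 2) := by fin_cases q <;> rfl

theorem gen_row {n : ℕ} {q : Fin 4} {m : ℤ × ℤ} (hm : m ∈ deg2 ((n : ℤ) + ob (lp q))) :
    (gen (K := K) q ⟨lp q, m, hm⟩).1 (1, (q, 0)) = delta q ⟨lp q, m, hm⟩ := by
  simp [gen, Gen.r, lp_add_lp]

theorem gen2_row_fst {n : ℕ} {q : Fin 4} {m : ℤ × ℤ} (hm : m ∈ deg2 ((n : ℤ) + ob (lp q))) :
    ((PM2.equiv (K := K) n q).symm (gen q ⟨lp q, m, hm⟩, 0)).1 (1, (q, 0))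
      = (delta q ⟨lp q, m, hm⟩, 0) :=
  Prod.ext (gen_row hm) rfl

theorem gen2_row_snd {n : ℕ} {q : Fin 4} {m : ℤ × ℤ} (hm : m ∈ deg2 ((n : ℤ) + ob (lp q))) :
    ((PM2.equiv (K := K) n q).symm (0, gen q ⟨lp q, m, hm⟩)).1 (1, (q, 0))
      = (0, delta q ⟨lp q, m, hm⟩) :=
  Prod.ext rfl (gen_row hm)

variable [CharZero K]

theorem d1_row {n : ℕ} (z : PM2 K n 1) (i : Fin 2 × V) :
    ((res K n).d₁ z).1 i = d1 K (z.1 i) := rfl

theorem d2_row {n : ℕ} (z : PM2 K n 2) (i : Fin 2 × V) :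
    ((res K n).d₂ z).1 i = d2 K (z.1 i) := rfl

theorem d3_row {n : ℕ} (z : PM K n 3) (i : Fin 2 × V) :
    ((res K n).d₃ z).1 i = d3 K (z.1 i) := rfl

theorem sc_comp_d1 {n : ℕ} (ψ : PM K n 0 →ₗ[A0 K] XM K 0) {m : ℤ × ℤ}
    (hm : m ∈ deg2 ((n : ℤ) + ob (lp 1))) :
    sc 1 (comp1 (ψ ∘ₗ (res K n).d₁)) m = ev0 ((c1 K (emb0 0 (sc 0 ψ))).1 0 1 m) ∧
    sc 1 (comp2 (ψ ∘ₗ (res K n).d₁)) m = ev0 ((c1 K (emb0 0 (sc 0 ψ))).2 0 1 m) := by
  constructor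
  · rw [sc_eq_val0 _ hm, comp1]
    show val0 (ψ ((res K n).d₁ ((PM2.equiv n 1).symm (gen 1 ⟨lp 1, m, hm⟩, 0)))) _ = _
    rw [val0_map, d1_row, pair_d1 (((PM2.equiv n 1).symm (gen 1 ⟨lp 1, m, hm⟩, 0)).2 _).1.1.suppN
      (((PM2.equiv n 1).symm (gen 1 ⟨lp 1, m, hm⟩, 0)).2 _).1.2.suppN, gen2_row_fst]
    simp [pair2, pair_delta, pair_zero_left]
    rfl
  · rw [sc_eq_val0 _ hm, comp2]
    show val0 (ψ ((res K n).d₁ ((PM2.equiv n 1).symm (0, gen 1 ⟨lp 1, m, hm⟩)))) _ = _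
    rw [val0_map, d1_row, pair_d1 (((PM2.equiv n 1).symm (0, gen 1 ⟨lp 1, m, hm⟩)).2 _).1.1.suppN
      (((PM2.equiv n 1).symm (0, gen 1 ⟨lp 1, m, hm⟩)).2 _).1.2.suppN, gen2_row_snd]
    simp [pair2, pair_delta, pair_zero_left]
    rfl

theorem sc_comp_d2 {n : ℕ} (ψ : PM2 K n 1 →ₗ[A0 K] XM K 0) {m : ℤ × ℤ}
    (hm : m ∈ deg2 ((n : ℤ) + ob (lp 2))) :
    sc 2 (comp1 (ψ ∘ₗ (res K n).d₂)) m =
      ev0 ((c2 K (emb0 1 (sc 1 (comp1 ψ)), emb0 1 (sc 1 (comp2 ψ)))).1 0 1 m) ∧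
    sc 2 (comp2 (ψ ∘ₗ (res K n).d₂)) m =
      ev0 ((c2 K (emb0 1 (sc 1 (comp1 ψ)), emb0 1 (sc 1 (comp2 ψ)))).2 0 1 m) := by
  constructor
  · rw [sc_eq_val0 _ hm, comp1]
    show val0 (ψ ((res K n).d₂ ((PM2.equiv n 2).symm (gen 2 ⟨lp 2, m, hm⟩, 0)))) _ = _
    rw [val0_map2, d2_row, pair_d2 (((PM2.equiv n 2).symm (gen 2 ⟨lp 2, m, hm⟩, 0)).2 _).1.1.suppN
      (((PM2.equiv n 2).symm (gen 2 ⟨lp 2, m, hm⟩, 0)).2 _).1.2.suppN, gen2_row_fst]
    simp [pair2, pair_delta, pair_zero_left]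
    rfl
  · rw [sc_eq_val0 _ hm, comp2]
    show val0 (ψ ((res K n).d₂ ((PM2.equiv n 2).symm (0, gen 2 ⟨lp 2, m, hm⟩)))) _ = _
    rw [val0_map2, d2_row, pair_d2 (((PM2.equiv n 2).symm (0, gen 2 ⟨lp 2, m, hm⟩)).2 _).1.1.suppN
      (((PM2.equiv n 2).symm (0, gen 2 ⟨lp 2, m, hm⟩)).2 _).1.2.suppN, gen2_row_snd]
    simp [pair2, pair_delta, pair_zero_left]
    rfl

theorem sc_comp_d3 {n : ℕ} (ψ : PM2 K n 2 →ₗ[A0 K] XM K 0) {m : ℤ × ℤ}
    (hm : m ∈ deg2 ((n : ℤ) + ob (lp 3))) :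
    sc 3 (ψ ∘ₗ (res K n).d₃) m =
      ev0 (c3 K (emb0 2 (sc 2 (comp1 ψ)), emb0 2 (sc 2 (comp2 ψ))) 0 0 m) := by
  rw [sc_eq_val0 _ hm]
  show val0 (ψ ((res K n).d₃ (gen 3 ⟨lp 3, m, hm⟩))) _ = _
  rw [val0_map2, d3_row, pair_d3 ((gen 3 ⟨lp 3, m, hm⟩).2 _).1.suppN, gen_row, pair_delta]
  rfl

theorem ev0_gx_gdy (c : K) : ev0 (gx K * (gdy K * sca c)) = 0 := by
  rw [← mul_assoc, ev0_mul_sca]
  show c * actFn K (gx K * gdy K) (mono K (0, 0)) (0, 0) = 0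
  rw [actFn_mul, gx, mon, actFn_single, gdy, mon, actFn_single]
  simp [mono]

theorem ev0_gy_gdx (c : K) : ev0 (gy K * (gdx K * sca c)) = 0 := by
  rw [← mul_assoc, ev0_mul_sca]
  show c * actFn K (gy K * gdx K) (mono K (0, 0)) (0, 0) = 0
  rw [actFn_mul, gy, mon, actFn_single, gdx, mon, actFn_single]
  simp [mono]

theorem ev0_gx_gdx (c : K) : ev0 (gx K * (gdx K * sca c)) = 0 := by
  rw [← mul_assoc, ev0_mul_sca]
  show c * actFn K (gx K * gdx K) (mono K (0, 0)) (0, 0) = 0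
  rw [actFn_mul, gx, mon, actFn_single, gdx, mon, actFn_single]
  simp [mono, evm]

theorem ev0_gy_gdy (c : K) : ev0 (gy K * (gdy K * sca c)) = 0 := by
  rw [← mul_assoc, ev0_mul_sca]
  show c * actFn K (gy K * gdy K) (mono K (0, 0)) (0, 0) = 0
  rw [actFn_mul, gy, mon, actFn_single, gdy, mon, actFn_single]
  simp [mono, evm]

theorem ev0_gx_neg_gdy (c : K) : ev0 (gx K * (-gdy K * sca c)) = 0 :=
  (congrArg ev0 ((congrArg (gx K * ·) (neg_mul (gdy K) (sca c))).trans (mul_neg _ _))).trans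
    ((map_neg (ev0 (K := K)) _).trans ((congrArg Neg.neg (ev0_gx_gdy c)).trans neg_zero))

theorem ev0_gy_neg_gdy (c : K) : ev0 (gy K * (-gdy K * sca c)) = 0 :=
  (congrArg ev0 ((congrArg (gy K * ·) (neg_mul (gdy K) (sca c))).trans (mul_neg _ _))).trans
    ((map_neg (ev0 (K := K)) _).trans ((congrArg Neg.neg (ev0_gy_gdy c)).trans neg_zero))

theorem c1_scalar (σ : ℤ × ℤ → K) (m : ℤ × ℤ) (h1 : 0 ≤ m.1) (h2 : 0 ≤ m.2) :
    ev0 ((c1 K (emb0 0 σ)).1 0 1 m) = -σ (m.1 + 1, m.2) ∧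
    ev0 ((c1 K (emb0 0 σ)).2 0 1 m) = -σ (m.1, m.2 + 1) := by
  constructor <;>
    simp [c1, reL, rfL, lOp, eW, fW, leT, lfT, emb0, lp, h1, h2, ev0_sca]

theorem c2_scalar (u v : ℤ × ℤ → K) (m : ℤ × ℤ) (h1 : 0 ≤ m.1) (h2 : 0 ≤ m.2) :
    ev0 ((c2 K (emb0 1 u, emb0 1 v)).1 0 1 m) =
      -(m.2 : K) * u m + (m.2 : K) * v (m.1 + 1, m.2 - 1) ∧
    ev0 ((c2 K (emb0 1 u, emb0 1 v)).2 0 1 m) =
      (m.1 : K) * u (m.1 - 1, m.2 + 1) - (m.1 : K) * v m := by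
  have h3 : 0 ≤ m.1 + 1 := by omega
  have h4 : 0 ≤ m.2 + 1 := by omega
  constructor <;>
    simp [c2, reL, rfL, lOp, eW, fW, leT, lfT, emb0, lp, h1, h2, h3, h4, ev0_sca,
      ev0_gx_neg_gdy, ev0_gy_gdx, ev0_gx_gdx, ev0_gy_neg_gdy, neg_mul, ev0_zsmul, -zsmul_eq_mul] <;>
    ring

theorem c3_scalar (u v : ℤ × ℤ → K) (m : ℤ × ℤ) (h1 : 0 ≤ m.1) (h2 : 0 ≤ m.2) :
    ev0 (c3 K (emb0 2 u, emb0 2 v) 0 0 m) =
      (m.1 : K) * u (m.1 - 1, m.2) + (m.2 : K) * v (m.1, m.2 - 1) := by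
  simp [c3, reL, rfL, lOp, eW, fW, leT, lfT, emb0, lp, h1, h2, ev0_sca, ev0_zsmul, -zsmul_eq_mul]

theorem mem_b0 {n : ℕ} {m : ℤ × ℤ} :
    m ∈ deg2 ((n : ℤ) + ob (lp 0)) ↔ 0 ≤ m.1 ∧ 0 ≤ m.2 ∧ m.1 + m.2 = n := by
  simp [mem_deg2, lp, ob]

theorem mem_b1 {n : ℕ} {m : ℤ × ℤ} :
    m ∈ deg2 ((n : ℤ) + ob (lp 1)) ↔ 0 ≤ m.1 ∧ 0 ≤ m.2 ∧ m.1 + m.2 = n - 1 := by
  simp [mem_deg2, lp, ob, sub_eq_add_neg]

theorem mem_b2 {n : ℕ} {m : ℤ × ℤ} :
    m ∈ deg2 ((n : ℤ) + ob (lp 2)) ↔ 0 ≤ m.1 ∧ 0 ≤ m.2 ∧ m.1 + m.2 = n - 1 := by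
  simp [mem_deg2, lp, ob, sub_eq_add_neg]

theorem mem_b3 {n : ℕ} {m : ℤ × ℤ} :
    m ∈ deg2 ((n : ℤ) + ob (lp 3)) ↔ 0 ≤ m.1 ∧ 0 ≤ m.2 ∧ m.1 + m.2 = n := by
  simp [mem_deg2, lp, ob]

theorem sc_zero {n : ℕ} (q : Fin 4) (m : ℤ × ℤ) :
    sc (n := n) q (0 : PM K n q →ₗ[A0 K] XM K 0) m = 0 := by
  unfold sc
  split_ifs <;> rfl

theorem homX_q0 {n : ℕ} (hn : 1 ≤ n) (ψ : PM K n 0 →ₗ[A0 K] XM K 0)
    (e : ψ ∘ₗ (res K n).d₁ = 0) : ψ = 0 := by
  refine eq_of_sc fun p hp => ?_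
  rw [sc_zero]
  obtain ⟨p0, p1, p2⟩ := mem_b0.1 hp
  rcases le_or_gt 1 p.1 with h | h
  · have hm : (p.1 - 1, p.2) ∈ deg2 ((n : ℤ) + ob (lp 1)) := mem_b1.2 (by simp; omega)
    have := (sc_comp_d1 ψ hm).1
    rw [e, (c1_scalar _ _ (by simp; omega) (by simpa using p1)).1] at this
    simpa [comp1, sc_zero] using this
  · have hm : (p.1, p.2 - 1) ∈ deg2 ((n : ℤ) + ob (lp 1)) := mem_b1.2 (by simp; omega)
    have := (sc_comp_d1 ψ hm).2
    rw [e, (c1_scalar _ _ (by simpa using p0) (by simp; omega)).2] at this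
    simpa [comp2, sc_zero] using this

theorem homX_q1 {n : ℕ} (ψ : PM2 K n 1 →ₗ[A0 K] XM K 0)
    (e : ψ ∘ₗ (res K n).d₂ = 0) : ∃ g, g ∘ₗ (res K n).d₁ = ψ := by
  let u := sc 1 (comp1 ψ)
  let v := sc 1 (comp2 ψ)
  obtain ⟨g, hg⟩ := exists_sc n 0
    fun p : ℤ × ℤ => if 1 ≤ p.1 then -u (p.1 - 1, p.2) else -v (p.1, p.2 - 1)
  refine ⟨g, eq_of_sc2 (fun m hm => ?_) fun m hm => ?_⟩
  · obtain ⟨m0, m1, m2⟩ := mem_b1.1 hm
    rw [(sc_comp_d1 g hm).1, (c1_scalar _ _ m0 m1).1, hg _ (mem_b0.2 (by simp; omega))]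
    simp [u, m0]
  · obtain ⟨m0, m1, m2⟩ := mem_b1.1 hm
    rw [(sc_comp_d1 g hm).2, (c1_scalar _ _ m0 m1).2, hg _ (mem_b0.2 (by simp; omega))]
    rcases le_or_gt 1 m.1 with h | h
    · have := (sc_comp_d2 ψ (m := m) (mem_b2.2 ⟨m0, m1, m2⟩)).2
      rw [e, (c2_scalar _ _ m m0 m1).2] at this
      simp only [comp2, LinearMap.zero_comp, sc_zero] at this
      have hne : (m.1 : K) ≠ 0 := Int.cast_ne_zero.2 (by omega)
      rw [← mul_sub] at this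
      have h2 := sub_eq_zero.1 ((mul_eq_zero.1 this.symm).resolve_left hne)
      simp only [if_pos h, neg_neg]
      exact h2
    · simp [v, not_le.2 h]

theorem homX_q2 {n : ℕ} (ψ : PM2 K n 2 →ₗ[A0 K] XM K 0)
    (e : ψ ∘ₗ (res K n).d₃ = 0) : ∃ g, g ∘ₗ (res K n).d₂ = ψ := by
  let u := sc 2 (comp1 ψ)
  let v := sc 2 (comp2 ψ)
  have rel : ∀ p : ℤ × ℤ, 0 ≤ p.1 → 0 ≤ p.2 → p.1 + p.2 = n →
      (p.1 : K) * u (p.1 - 1, p.2) + (p.2 : K) * v (p.1, p.2 - 1) = 0 := by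
    intro p p0 p1 p2
    have := sc_comp_d3 ψ (m := p) (mem_b3.2 ⟨p0, p1, p2⟩)
    rw [e, sc_zero, c3_scalar _ _ p p0 p1] at this
    exact this.symm
  obtain ⟨g, hg, hg'⟩ := exists_sc2 n 1 (fun m : ℤ × ℤ => -u m / (m.2 : K)) 0
  refine ⟨g, eq_of_sc2 (fun m hm => ?_) fun m hm => ?_⟩
  · obtain ⟨m0, m1, m2⟩ := mem_b2.1 hm
    rw [(sc_comp_d2 g hm).1, (c2_scalar _ _ m m0 m1).1, hg _ (mem_b1.2 ⟨m0, m1, m2⟩)]
    by_cases h : m.2 = 0
    · have hr := rel (m.1 + 1, m.2) (by simp; omega) (by simpa using m1) (by simp; omega)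
      simp only [h, add_sub_cancel_right, Int.cast_zero, zero_mul, add_zero] at hr
      have hne : ((m.1 + 1 : ℤ) : K) ≠ 0 := Int.cast_ne_zero.2 (by omega)
      have hu : u m = 0 := by
        have := (mul_eq_zero.1 hr).resolve_left hne
        rwa [← h] at this
      simp [h]
      exact hu.symm
    · have hne : (m.2 : K) ≠ 0 := Int.cast_ne_zero.2 h
      rw [hg' _ (mem_b1.2 (by simp; omega))]
      simp only [Pi.zero_apply, mul_zero, add_zero]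
      show -(m.2 : K) * (-u m / m.2) = u m
      field_simp
  · obtain ⟨m0, m1, m2⟩ := mem_b2.1 hm
    rw [(sc_comp_d2 g hm).2, (c2_scalar _ _ m m0 m1).2, hg' _ (mem_b1.2 ⟨m0, m1, m2⟩)]
    simp only [Pi.zero_apply, mul_zero, sub_zero]
    have hne : ((m.2 + 1 : ℤ) : K) ≠ 0 := Int.cast_ne_zero.2 (by omega)
    have hr := rel (m.1, m.2 + 1) (by simpa using m0) (by simp; omega) (by simp; omega)
    simp only [add_sub_cancel_right] at hr
    show _ = v m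
    by_cases h : m.1 = 0
    · simp only [h, Int.cast_zero, zero_mul, zero_add] at hr ⊢
      have := (mul_eq_zero.1 hr).resolve_left hne
      rw [← h] at this
      exact this.symm
    · rw [hg _ (mem_b1.2 (by simp; omega))]
      field_simp
      linear_combination -hr

theorem homX_q3 {n : ℕ} (hn : 1 ≤ n) (ψ : PM K n 3 →ₗ[A0 K] XM K 0) :
    ∃ g, g ∘ₗ (res K n).d₃ = ψ := by
  let w := sc 3 ψ
  obtain ⟨g, hg, hg'⟩ := exists_sc2 n 2 (fun m : ℤ × ℤ => w (m.1 + 1, m.2) / ((m.1 + 1 : ℤ) : K))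
    (fun m : ℤ × ℤ => if m.1 = 0 then w (m.1, m.2 + 1) / ((m.2 + 1 : ℤ) : K) else 0)
  refine ⟨g, eq_of_sc fun p hp => ?_⟩
  obtain ⟨p0, p1, p2⟩ := mem_b3.1 hp
  rw [sc_comp_d3 g hp, c3_scalar _ _ p p0 p1]
  by_cases h : p.1 = 0
  · have hne : (p.2 : K) ≠ 0 := Int.cast_ne_zero.2 (by omega)
    rw [hg' _ (mem_b2.2 (by simp; omega))]
    simp [h, sub_add_cancel, w]
    field_simp
    rw [show p = (0, p.2) from Prod.ext h rfl]
  · have hne : (p.1 : K) ≠ 0 := Int.cast_ne_zero.2 h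
    rw [hg _ (mem_b2.2 (by simp; omega))]
    simp only [sub_add_cancel]
    by_cases h2 : p.2 = 0
    · simp [h2, w]
      field_simp
      rw [show p = (p.1, 0) from Prod.ext rfl h2]
    · rw [hg' _ (mem_b2.2 (by simp; omega))]
      simp [h, w]
      field_simp

end Orbit

variable (K : Type) [Field K] [CharZero K]

/-- `Ext` from `H n` into `X 0` vanishes in every degree for `n ≥ 1` -/
theorem middleX0 (n : ℕ) (hn : 1 ≤ n) :
    ∀ j, Subsingleton (Ex (A0 K) (HM K n) (XM K 0) j) :=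
  middle_vanish (H := fun n => HM K n) (P := fun n => res K n) n (Orbit.homX_q0 hn) Orbit.homX_q1
    Orbit.homX_q2 (Orbit.homX_q3 hn)

/-- `Ext` from the orbit into `X 0` vanishes in every degree -/
theorem orbitX0 (i n : ℕ) (hn : 1 ≤ n) : Subsingleton (Ex (A0 K) (XM K n) (XM K 0) i) :=
  orbit_vanish (fun n => XM K n) (fun n => HM K n) (fun n => sesX K n) (middleX0 K) i n hn

end Vale.Agent.P195
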