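import Vale.Agent.P195.AVanish
import Vale.Agent.P195.Base0
import Vale.Agent.P195.Orbit
import Vale.Agent.P195.KillMain

/-!
The counterexample to the conjecture of Auslander and Reiten.
-/

namespace Vale.Agent.P195

open CategoryTheory

variable (K : Type) [Field K] [CharZero K]

/-- the data at the window algebra -/
noncomputable def theBase : Base K (A0 K) (XM K 0) (XM K 1) (HM K 0) :=
  base0 K (fun i hi => (extX0A0 K).2.2 i hi) (extX0A0 K).1 (extX0A0 K).2.1
    (fun i => orbitX0 K i 1 le_rfl)

theorem exists_ar_counterexample :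
    ∃ (A : Type) (_ : Ring A) (_ : Algebra K A), FiniteDimensional K A ∧
      ∃ M : ModuleCat.{0} A, Module.Finite A M ∧ ¬ Module.Projective A M ∧
        ∀ i : ℕ, 1 ≤ i → Subsingleton (Abelian.Ext M M i) ∧
          Subsingleton (Abelian.Ext M (ModuleCat.of A A) i) := by
  obtain ⟨M, hadd, hmod, hfin, hproj, hvan⟩ := (theBase K).exists_counterexample
  exact ⟨Kill (theBase K).θ, inferInstance, inferInstance, inferInstance,
    ModuleCat.of (Kill (theBase K).θ) M, hfin, hproj, hvan⟩

end Vale.Agent.P195
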