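import Vale.Agent.P195.WeylLemmas

/-!
The window algebra `A0`: eight vertices (levels 0, 1, 3, 4; two parities) and its trivial
extension by the weight-one shift, as matrices of Weyl elements.
-/

namespace Vale.Agent.P195

variable (K : Type) [Field K]

/-- vertices: level index and parity -/
abbrev V := Fin 4 × Fin 2

/-- the level of a vertex -/
def lev (v : V) : ℤ := ![0, 1, 3, 4] v.1

/-- the weight offset of a vertex -/
def off (v : V) : ℤ := ![0, -1] v.2

abbrev Big := Matrix (Fin 2 × V) (Fin 2 × V) (Am K)

/-- membership in the window algebra -/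
structure InA (s : Big K) : Prop where
  diag : ∀ v w, s (1, v) (1, w) = s (0, v) (0, w)
  lower : ∀ v w, s (1, v) (0, w) = 0
  base : ∀ v w, InW K (off v - off w) (lev v - lev w) (s (0, v) (0, w))
  tran : ∀ v w, InW K (off v - off w + 1) (lev v - lev w + 2) (s (0, v) (1, w))

theorem InA.mul {s t : Big K} (hs : InA K s) (ht : InA K t) : InA K (s * t) := by
  refine ⟨fun v w => ?_, fun v w => ?_, fun v w => ?_, fun v w => ?_⟩
  · simp [Matrix.mul_apply, Fintype.sum_prod_type, hs.lower, ht.lower, hs.diag, ht.diag]
  · simp [Matrix.mul_apply, Fintype.sum_prod_type, hs.lower, ht.lower]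
  · simp only [Matrix.mul_apply, Fintype.sum_prod_type (α₁ := Fin 2) (α₂ := V), Fin.sum_univ_two,
      ht.lower, mul_zero, Finset.sum_const_zero, add_zero]
    refine InW.sum _ _ fun x _ => ?_
    simpa using (hs.base v x).mul (ht.base x w)
  · simp only [Matrix.mul_apply, Fintype.sum_prod_type (α₁ := Fin 2) (α₂ := V), Fin.sum_univ_two,
      ht.diag]
    refine InW.add (InW.sum _ _ fun x _ => ?_) (InW.sum _ _ fun x _ => ?_)
    · have h := (hs.base v x).mul (ht.tran x w)
      convert h using 1 <;> ring
    · have h := (hs.tran v x).mul (ht.base x w)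
      convert h using 1 <;> ring

theorem InA.algebraMap_mem (r : K) : InA K (algebraMap K (Big K) r) := by
  have h0 : InW K 0 0 (algebraMap K (Am K) r) := by
    rw [Algebra.algebraMap_eq_smul_one]
    exact InW.one.smul r
  refine ⟨fun v w => ?_, fun v w => ?_, fun v w => ?_, fun v w => ?_⟩
  · simp [Matrix.algebraMap_matrix_apply]
  · simp [Matrix.algebraMap_matrix_apply]
  · by_cases h : v = w
    · subst h; simpa [Matrix.algebraMap_matrix_apply] using h0
    · simpa [Matrix.algebraMap_matrix_apply, h] using InW.zero (K := K) (off v - off w) (lev v - lev w)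
  · simpa [Matrix.algebraMap_matrix_apply] using
      InW.zero (K := K) (off v - off w + 1) (lev v - lev w + 2)

/-- the window algebra -/
noncomputable def A0sub : Subalgebra K (Big K) where
  carrier := {s | InA K s}
  mul_mem' := InA.mul K
  add_mem' := fun {s t} (hs : InA K s) (ht : InA K t) =>
    ⟨fun v w => by simp [hs.diag, ht.diag], fun v w => by simp [hs.lower, ht.lower],
      fun v w => (hs.base v w).add (ht.base v w), fun v w => (hs.tran v w).add (ht.tran v w)⟩
  algebraMap_mem' := InA.algebraMap_mem K

/-- the window algebra as a type -/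
def A0 : Type := A0sub K

noncomputable instance : Ring (A0 K) := inferInstanceAs (Ring (A0sub K))
noncomputable instance : Algebra K (A0 K) := inferInstanceAs (Algebra K (A0sub K))

/-- the matrix of an element -/
noncomputable def mat (s : A0 K) : Big K := Subtype.val (p := fun x => x ∈ A0sub K) s

/-- an element from a matrix -/
noncomputable def ofMat (x : Big K) (h : InA K x) : A0 K := (⟨x, h⟩ : A0sub K)

/-! Generators in `Mat₂` of the two parities: `e = [[0, x], [-∂y, 0]]`, `f = [[0, y], [∂x, 0]]`. -/

noncomputable def eW : Matrix (Fin 2) (Fin 2) (Am K) := !![0, gx K; -gdy K, 0]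
noncomputable def fW : Matrix (Fin 2) (Fin 2) (Am K) := !![0, gy K; gdx K, 0]

/-! Modules of polynomials. -/

/-- functions on exponents -/
abbrev Fn := ℤ × ℤ → K

/-- `p z^k` acts by `f ↦ (m ↦ p(m) f(m - k))` -/
noncomputable def actFn (a : Am K) (f : Fn K) : Fn K := fun m =>
  a.coeff.sum fun k p => MvPolynomial.eval ![((m.1 : ℤ) : K), ((m.2 : ℤ) : K)] p
    * f (m.1 - k.co 0, m.2 - k.co 1)

/-- homogeneous polynomials of degree `n` in two variables -/
def Hom2 (n : ℤ) : Submodule K (Fn K) where
  carrier := {f | ∀ m, f m ≠ 0 → 0 ≤ m.1 ∧ 0 ≤ m.2 ∧ m.1 + m.2 = n}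
  zero_mem' := fun m h => absurd rfl h
  add_mem' := fun {f g} hf hg m h => by
    by_cases hm : f m = 0
    · exact hg m (by simpa [hm] using h)
    · exact hf m hm
  smul_mem' := fun c f hf m h => hf m (fun hm => h (by simp [hm]))

/-- the module `X n`: polynomials of degree `n + off v` at the vertex `v` -/
def Xn (n : ℕ) : Type := (v : V) → Hom2 K ((n : ℤ) + off v)

noncomputable instance (n : ℕ) : AddCommGroup (Xn K n) :=
  inferInstanceAs (AddCommGroup ((v : V) → Hom2 K ((n : ℤ) + off v)))
noncomputable instance (n : ℕ) : Module K (Xn K n) :=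
  inferInstanceAs (Module K ((v : V) → Hom2 K ((n : ℤ) + off v)))

end Vale.Agent.P195
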