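import Vale.Agent.P195.Koszul
import Vale.Agent.P195.Win

/-!
The twisted Koszul complexes, in coordinates.

An element of a term is `z vp b m : Am`: `vp` is the parity of the vertex of the generator, `b` the
block of the coefficient space `Hom2 (n + ob b)`, `m` a monomial.  The chain maps are linear for
left multiplication, the cochain maps for right multiplication.
-/

namespace Vale.Agent.P195

variable (K : Type) [Field K]

/-- coordinates -/
abbrev Zc := Fin 2 → Fin 2 → ℤ × ℤ → Am K

/-- offset of a parity -/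
def ob (b : Fin 2) : ℤ := ![0, -1] b
/-- the four levels -/
def lv (q : Fin 4) : ℤ := ![0, 1, 3, 4] q
/-- parity of a level -/
def lp (q : Fin 4) : Fin 2 := ![0, 1, 1, 0] q

/-- right multiplication by a `2 × 2` matrix in the vertex parity -/
noncomputable def rOp (e : Matrix (Fin 2) (Fin 2) (Am K)) : Zc K →ₗ[Am K] Zc K where
  toFun z vp b m := z 0 b m * e 0 vp + z 1 b m * e 1 vp
  map_add' z z' := by funext vp b m; simp [add_mul]; abel
  map_smul' a z := by funext vp b m; simp [mul_add, mul_assoc]

noncomputable def re : Zc K →ₗ[Am K] Zc K := rOp K (eW K)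
noncomputable def rf : Zc K →ₗ[Am K] Zc K := rOp K (fW K)

/-- the action of `e` on the coefficient spaces -/
noncomputable def le : Zc K →ₗ[Am K] Zc K where
  toFun z vp b m := if b = 0 then z vp 1 (m.1 - 1, m.2) else (-(m.2 + 1)) • z vp 0 (m.1, m.2 + 1)
  map_add' z z' := by
    funext vp b m
    by_cases h : b = 0
    · simp only [h, if_true, Pi.add_apply]
    · simp only [h, if_false, Pi.add_apply]
      exact zsmul_add _ _ _
  map_smul' a z := by
    funext vp b m
    by_cases h : b = 0
    · simp only [h, if_true, Pi.smul_apply, RingHom.id_apply]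
    · simp only [h, if_false, Pi.smul_apply, RingHom.id_apply]
      exact smul_comm _ a _

/-- the action of `f` on the coefficient spaces -/
noncomputable def lf : Zc K →ₗ[Am K] Zc K where
  toFun z vp b m := if b = 0 then z vp 1 (m.1, m.2 - 1) else (m.1 + 1) • z vp 0 (m.1 + 1, m.2)
  map_add' z z' := by
    funext vp b m
    by_cases h : b = 0
    · simp only [h, if_true, Pi.add_apply]
    · simp only [h, if_false, Pi.add_apply]
      exact zsmul_add _ _ _
  map_smul' a z := by
    funext vp b m
    by_cases h : b = 0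
    · simp only [h, if_true, Pi.smul_apply, RingHom.id_apply]
    · simp only [h, if_false, Pi.smul_apply, RingHom.id_apply]
      exact smul_comm _ a _

noncomputable def d1 : Zc K × Zc K →ₗ[Am K] Zc K :=
  LinearMap.coprod (re K - le K) (rf K - lf K)

noncomputable def d2 : Zc K × Zc K →ₗ[Am K] Zc K × Zc K :=
  LinearMap.coprod
    (LinearMap.prod
      (le K ∘ₗ lf K + re K ∘ₗ lf K - le K ∘ₗ rf K - re K ∘ₗ rf K + LinearMap.id)
      (re K ∘ₗ re K - le K ∘ₗ le K))
    (LinearMap.prod
      (lf K ∘ₗ lf K - rf K ∘ₗ rf K)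
      (lf K ∘ₗ re K + rf K ∘ₗ re K - lf K ∘ₗ le K - le K ∘ₗ rf K + LinearMap.id))

noncomputable def d3 : Zc K →ₗ[Am K] Zc K × Zc K :=
  LinearMap.prod (rf K + lf K) (-(re K + le K))

/-! Cochains: left multiplication and transposes. -/

/-- left multiplication by a `2 × 2` matrix in the vertex parity -/
noncomputable def lOp (e : Matrix (Fin 2) (Fin 2) (Am K)) : Zc K →+ Zc K where
  toFun z vp b m := e vp 0 * z 0 b m + e vp 1 * z 1 b m
  map_zero' := by funext vp b m; simp
  map_add' z z' := by funext vp b m; simp [mul_add]; abel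

noncomputable def reL : Zc K →+ Zc K := lOp K (eW K)
noncomputable def rfL : Zc K →+ Zc K := lOp K (fW K)

/-- transpose of `le`, cut off to the quadrant of monomials -/
noncomputable def leT : Zc K →+ Zc K where
  toFun z vp b m :=
    if 0 ≤ m.1 ∧ 0 ≤ m.2 then
      if b = 0 then (-m.2) • z vp 1 (m.1, m.2 - 1) else z vp 0 (m.1 + 1, m.2)
    else 0
  map_zero' := by
    funext vp b m
    simp only [Pi.zero_apply]
    split_ifs
    · exact zsmul_zero _
    · rfl
    · rfl
  map_add' z z' := by
    funext vp b m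
    simp only [Pi.add_apply]
    split_ifs
    · exact zsmul_add _ _ _
    · rfl
    · exact (add_zero _).symm

/-- transpose of `lf`, cut off to the quadrant of monomials -/
noncomputable def lfT : Zc K →+ Zc K where
  toFun z vp b m :=
    if 0 ≤ m.1 ∧ 0 ≤ m.2 then
      if b = 0 then m.1 • z vp 1 (m.1 - 1, m.2) else z vp 0 (m.1, m.2 + 1)
    else 0
  map_zero' := by
    funext vp b m
    simp only [Pi.zero_apply]
    split_ifs
    · exact zsmul_zero _
    · rfl
    · rfl
  map_add' z z' := by
    funext vp b m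
    simp only [Pi.add_apply]
    split_ifs
    · exact zsmul_add _ _ _
    · rfl
    · exact (add_zero _).symm

/-- transpose of `d1` -/
noncomputable def c1 : Zc K →+ Zc K × Zc K :=
  AddMonoidHom.prod (reL K - leT K) (rfL K - lfT K)

/-- transpose of `d2` -/
noncomputable def c2 : Zc K × Zc K →+ Zc K × Zc K :=
  AddMonoidHom.prod
    (AddMonoidHom.coprod
      ((lfT K).comp (leT K) + (lfT K).comp (reL K) - (rfL K).comp (leT K)
        - (rfL K).comp (reL K) + AddMonoidHom.id _)
      ((reL K).comp (reL K) - (leT K).comp (leT K)))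
    (AddMonoidHom.coprod
      ((lfT K).comp (lfT K) - (rfL K).comp (rfL K))
      ((reL K).comp (lfT K) + (reL K).comp (rfL K) - (leT K).comp (lfT K)
        - (rfL K).comp (leT K) + AddMonoidHom.id _))

/-- transpose of `d3` -/
noncomputable def c3 : Zc K × Zc K →+ Zc K :=
  AddMonoidHom.coprod (rfL K + lfT K) (-(reL K + leT K))

/-! Membership. -/

/-- `m` is a monomial of degree `n + ob b` -/
def Sup (n : ℤ) (b : Fin 2) (m : ℤ × ℤ) : Prop := 0 ≤ m.1 ∧ 0 ≤ m.2 ∧ m.1 + m.2 = n + ob b

/-- the piece of a row: `w = off r + s`, `D = lev r + 2 s` -/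
def Mem (w n D : ℤ) (q : Fin 4) (z : Zc K) : Prop :=
  ∀ vp b m, z vp b m ≠ 0 → vp = b + lp q ∧ Sup n b m ∧ InW K (w - ob vp) (D - lv q) (z vp b m)

/-- the piece of a column: `v = s - off c`, `D = 2 s - lev c` -/
def CoMem (v n D : ℤ) (q : Fin 4) (z : Zc K) : Prop :=
  ∀ vp b m, z vp b m ≠ 0 → vp = b + lp q ∧ Sup n b m ∧ InW K (ob vp + v) (D + lv q) (z vp b m)

/-- pairs -/
def Mem2 (w n D : ℤ) (q : Fin 4) (z : Zc K × Zc K) : Prop :=
  Mem K w n D q z.1 ∧ Mem K w n D q z.2

/-- pairs -/
def CoMem2 (v n D : ℤ) (q : Fin 4) (z : Zc K × Zc K) : Prop :=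
  CoMem K v n D q z.1 ∧ CoMem K v n D q z.2

/-- a monomial as a function on exponents -/
noncomputable def mono (m : ℤ × ℤ) : Fn K := Pi.single m 1

/-- the exponents of degree `d` -/
def deg2 (d : ℤ) : Finset (ℤ × ℤ) :=
  (Finset.range (d + 1).toNat).image fun i : ℕ => ((i : ℤ), d - (i : ℤ))

/-- the augmentation of the row complex -/
noncomputable def aug (n : ℤ) (z : Zc K) : Fn K :=
  ∑ b, ∑ m ∈ deg2 (n + ob b), actFn K (z b b m) (mono K m)

/-- the evaluation of the top cochains on `f` -/
noncomputable def coAug (n : ℤ) (z : Zc K) (f : Fn K) : K :=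
  ∑ b : Fin 2, (-1 : K) ^ b.val * ∑ m ∈ deg2 (n + ob b), actFn K (z b b m) f m

end Vale.Agent.P195
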