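import Mathlib

/-!
Vanishing of Ext groups from a projective resolution with exact complex of homomorphisms.
-/

namespace Vale.Agent.P195

open CategoryTheory Abelian

variable {R : Type} [Ring R] {X : Type} [AddCommGroup X] [Module R X]

/-- the dimension shift along one short exact sequence with projective middle term -/
theorem ext_step {K' P N : Type} [AddCommGroup K'] [Module R K'] [AddCommGroup P] [Module R P]
    [Module.Projective R P] [AddCommGroup N] [Module R N] (ι : K' →ₗ[R] P) (f : P →ₗ[R] N)
    (hι : Function.Injective ι) (hf : Function.Surjective f) (he : Function.Exact ι f) :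
    ((∀ h : K' →ₗ[R] X, ∃ g : P →ₗ[R] X, g.comp ι = h) →
      Subsingleton (Ext (ModuleCat.of R N) (ModuleCat.of R X) 1)) ∧
    (∀ i, Subsingleton (Ext (ModuleCat.of R K') (ModuleCat.of R X) (i + 1)) →
      Subsingleton (Ext (ModuleCat.of R N) (ModuleCat.of R X) (i + 2))) := by
  let S := ShortComplex.moduleCatMk ι f he.linearMap_comp_eq_zero
  have hS : S.ShortExact := ModuleCat.shortComplex_shortExact S he hι hf
  have hP : Projective S.X₂ := (IsProjective.iff_projective P).1 inferInstance
  have hlift : ∀ n (x : Ext (ModuleCat.of R N) (ModuleCat.of R X) (n + 1)),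
      ∃ y : Ext (ModuleCat.of R K') (ModuleCat.of R X) n, hS.extClass.comp y (add_comm 1 n) = x :=
    fun n x => Ext.contravariant_sequence_exact₃ hS _ x (Ext.eq_zero_of_projective _) _
  refine ⟨fun hext => subsingleton_of_forall_eq 0 fun x => ?_,
    fun i hi => subsingleton_of_forall_eq 0 fun x => ?_⟩
  · obtain ⟨y, rfl⟩ := hlift 0 x
    obtain ⟨h, rfl⟩ := (Ext.mk₀_bijective _ _).2 y
    obtain ⟨g, hg⟩ := hext h.hom
    let g' : S.X₂ ⟶ ModuleCat.of R X := ModuleCat.ofHom g
    have hfac : h = S.f ≫ g' := by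
      ext a
      exact (LinearMap.congr_fun hg a).symm
    subst hfac
    exact (congrArg (fun z => hS.extClass.comp z _) (Ext.mk₀_comp_mk₀ S.f g').symm).trans
      (hS.extClass_comp_assoc (Ext.mk₀ g'))
  · obtain ⟨y, rfl⟩ := hlift (i + 1) x
    exact (congrArg (fun z => hS.extClass.comp z _) (Subsingleton.elim y 0)).trans (Ext.comp_zero _ _ _ _ _)

variable {M : Type} [AddCommGroup M] [Module R M] (C : ℕ → Type) [∀ n, AddCommGroup (C n)]
  [∀ n, Module R (C n)] [∀ n, Module.Projective R (C n)]
  (D : ∀ n, C (n + 1) →ₗ[R] C n) (π : C 0 →ₗ[R] M)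

/-- a resolution whose complex of maps into `X` is exact in positive degrees -/
theorem extVan_of_resolution (hπ : Function.Surjective π) (he0 : Function.Exact (D 0) π)
    (he : ∀ n, Function.Exact (D (n + 1)) (D n))
    (hX : ∀ n (f : C (n + 1) →ₗ[R] X), f.comp (D (n + 1)) = 0 →
      ∃ g : C n →ₗ[R] X, g.comp (D n) = f) :
    ∀ i, 1 ≤ i → Subsingleton (Ext (ModuleCat.of R M) (ModuleCat.of R X) i) := by
  -- homomorphisms on an image extend
  have hext : ∀ n (h : LinearMap.range (D n) →ₗ[R] X),
      ∃ g : C n →ₗ[R] X, g.comp (LinearMap.range (D n)).subtype = h := by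
    intro n h
    obtain ⟨g, hg⟩ := hX n (h.comp (D n).rangeRestrict) (LinearMap.ext fun x => by
      have : (D n).rangeRestrict (D (n + 1) x) = 0 := Subtype.ext ((he n).apply_apply_eq_zero x)
      simp [this])
    refine ⟨g, LinearMap.ext ?_⟩
    rintro ⟨_, y, rfl⟩
    exact LinearMap.congr_fun hg y
  have hex : ∀ n, Function.Exact (LinearMap.range (D (n + 1))).subtype (D n).rangeRestrict := by
    intro n y
    rw [← (D n).rangeRestrict.map_zero]
    constructor
    · intro hy
      obtain ⟨x, hx⟩ := (he n y).1 (by simpa using congrArg Subtype.val hy)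
      exact ⟨⟨y, x, hx⟩, rfl⟩
    · rintro ⟨⟨_, x, rfl⟩, rfl⟩
      exact Subtype.ext (by simpa using (he n).apply_apply_eq_zero x)
  have key : ∀ i n, Subsingleton
      (Ext (ModuleCat.of R (LinearMap.range (D n))) (ModuleCat.of R X) (i + 1)) := by
    intro i
    induction i with
    | zero => exact fun n => (ext_step _ _ (Submodule.injective_subtype _)
        (LinearMap.surjective_rangeRestrict _) (hex n)).1 (hext (n + 1))
    | succ i ih => exact fun n => (ext_step _ _ (Submodule.injective_subtype _)
        (LinearMap.surjective_rangeRestrict _) (hex n)).2 i (ih (n + 1))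
  have hex0 : Function.Exact (LinearMap.range (D 0)).subtype π := by
    intro y
    rw [he0 y]
    exact ⟨fun ⟨x, hx⟩ => ⟨⟨y, x, hx⟩, rfl⟩, fun ⟨⟨_, x, hx⟩, h⟩ => ⟨x, hx.trans h⟩⟩
  intro i hi
  obtain ⟨j, rfl⟩ : ∃ j, i = j + 1 := ⟨i - 1, by omega⟩
  rcases j with - | j
  · exact (ext_step _ _ (Submodule.injective_subtype _) hπ hex0).1 (hext 0)
  · exact (ext_step _ _ (Submodule.injective_subtype _) hπ hex0).2 j (key j 0)

end Vale.Agent.P195
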