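import Vale.Agent.P195.Aug

/-!
Exactness of the rows, including the weight one.
-/

namespace Vale.Agent.P195

variable {K : Type} [Field K] {σ : Fin 2} {w n e : ℤ}

theorem gx_comm (z : Zc K) : gx K • gy K • z = gy K • gx K • z := by
  rw [smul_smul, smul_smul, gx_gy]

theorem gx_comm2 (u : Zc K × Zc K) : gx K • gy K • u = gy K • gx K • u := by
  rw [smul_smul, smul_smul, gx_gy]

theorem RowP.gx {z : Zc K} (h : RowP σ w n e z) : RowP σ (w + 1) n (e + 1) (P195.gx K • z) := by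
  intro vp b m h0
  have h0' : P195.gx K * z vp b m ≠ 0 := h0
  obtain ⟨h1, h2, h3⟩ := h vp b m (right_ne_zero_of_mul h0')
  exact ⟨h1, h2, by rw [show w + 1 - ob vp = w - ob vp + 1 by ring]; exact inW_gx_mul h3⟩

theorem RowP.gy {z : Zc K} (h : RowP σ w n e z) : RowP σ (w + 1) n (e + 1) (P195.gy K • z) := by
  intro vp b m h0
  have h0' : P195.gy K * z vp b m ≠ 0 := h0
  obtain ⟨h1, h2, h3⟩ := h vp b m (right_ne_zero_of_mul h0')
  exact ⟨h1, h2, by rw [show w + 1 - ob vp = w - ob vp + 1 by ring]; exact inW_gy_mul h3⟩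

theorem RowP2.gx {u : Zc K × Zc K} (h : RowP2 σ w n e u) :
    RowP2 σ (w + 1) n (e + 1) (P195.gx K • u) := ⟨h.1.gx, h.2.gx⟩

theorem RowP2.gy {u : Zc K × Zc K} (h : RowP2 σ w n e u) :
    RowP2 σ (w + 1) n (e + 1) (P195.gy K • u) := ⟨h.1.gy, h.2.gy⟩

theorem gy_mul_cancel {a : Am K} (h : gy K * a = 0) : a = 0 := by
  have := congrArg tau h
  rw [tau_mul, tau_gy, map_zero] at this
  rw [← tau_tau a, mul_gx_cancel this, map_zero]

theorem gy_smul_fn_cancel {f : ℤ × ℤ → K} (h : gy K • f = 0) : f = 0 := by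
  funext m
  have := congrFun h (m.1, m.2 + 1)
  simpa [gy_smul_apply] using this

/-- a weight one element is a combination of left multiples of `x` and `y` -/
theorem RowP.split (hw : w = 1) {z : Zc K} (h : RowP σ w n e z) :
    ∃ A B, RowP σ 0 n (e - 1) A ∧ RowP σ 0 n (e - 1) B ∧ P195.gx K • A + P195.gy K • B = z := by
  subst hw
  have key : ∀ vp b m, ∃ a a', (z vp b m = 0 → a = 0 ∧ a' = 0) ∧
      InW K (0 - ob vp) (e - 1) a ∧ InW K (0 - ob vp) (e - 1) a' ∧
      P195.gx K * a + P195.gy K * a' = z vp b m := by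
    intro vp b m
    by_cases h0 : z vp b m = 0
    · exact ⟨0, 0, fun _ => ⟨rfl, rfl⟩, inW_zero _ _, inW_zero _ _, by simp [h0]⟩
    · obtain ⟨a, a', ha, ha', he⟩ := img_xy_left
        (by rcases two_cases vp with rfl | rfl <;> simp [ob]) (h.inW vp b m)
      refine ⟨a, a', fun hz => absurd hz h0, ?_, ?_, he⟩
      · rwa [show (0 : ℤ) - ob vp = 1 - ob vp - 1 by ring]
      · rwa [show (0 : ℤ) - ob vp = 1 - ob vp - 1 by ring]
  choose A B h0 hA hB he using key
  refine ⟨A, B, fun vp b m hne => ?_, fun vp b m hne => ?_, ?_⟩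
  · have hz : z vp b m ≠ 0 := fun hz => hne (h0 vp b m hz).1
    exact ⟨(h vp b m hz).1, (h vp b m hz).2.1, hA vp b m⟩
  · have hz : z vp b m ≠ 0 := fun hz => hne (h0 vp b m hz).2
    exact ⟨(h vp b m hz).1, (h vp b m hz).2.1, hB vp b m⟩
  · funext vp b m; exact he vp b m

theorem RowP2.split (hw : w = 1) {u : Zc K × Zc K} (h : RowP2 σ w n e u) :
    ∃ A B, RowP2 σ 0 n (e - 1) A ∧ RowP2 σ 0 n (e - 1) B ∧ P195.gx K • A + P195.gy K • B = u := by
  obtain ⟨A, B, hA, hB, e1⟩ := h.1.split hw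
  obtain ⟨A', B', hA', hB', e2⟩ := h.2.split hw
  exact ⟨(A, A'), (B, B'), ⟨hA, hA'⟩, ⟨hB, hB'⟩, Prod.ext e1 e2⟩

/-- the kernel of `(x, y)` -/
theorem RowP.ker {A B : Zc K} (hA : RowP σ w n e A) (hB : RowP σ w n e B)
    (h : P195.gx K • A + P195.gy K • B = 0) :
    ∃ U, RowP σ (w - 1) n (e - 1) U ∧ A = P195.gy K • U ∧ B = -(P195.gx K • U) := by
  have key : ∀ vp b m, ∃ s, InW K (w - ob vp - 1) (e - 1) s ∧
      A vp b m = P195.gy K * s ∧ B vp b m = -(P195.gx K * s) := fun vp b m =>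
    ker_xy_left (hA.inW vp b m) (hB.inW vp b m) (congrFun (congrFun (congrFun h vp) b) m)
  choose U hU e1 e2 using key
  refine ⟨U, fun vp b m hne => ?_, ?_, ?_⟩
  · have hz : A vp b m ≠ 0 := fun hz => hne (gy_mul_cancel (by rw [← e1 vp b m, hz]))
    exact ⟨(hA vp b m hz).1, (hA vp b m hz).2.1,
      by rw [show w - 1 - ob vp = w - ob vp - 1 by ring]; exact hU vp b m⟩
  · funext vp b m; exact e1 vp b m
  · funext vp b m; exact e2 vp b m

variable [CharZero K]

/-- the first homology of a row -/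
theorem row0_q1 (hw : -1 ≤ w) (hw' : w ≤ 1) {z : Zc K × Zc K} (h : RowP2 1 w n e z)
    (hd : d1 K z = 0) : ∃ u, RowP2 1 w n (e - 2) u ∧ d2 K u = z := by
  rcases (show w ≤ 0 ∨ w = 1 by omega) with hw0 | hw1
  · exact row_q1 (ε := 0) hw hw0 h hd
  obtain ⟨A, B, hA, hB, rfl⟩ := h.split hw1
  subst hw1
  have hdA := RowP2.d1 (σ := 0) hA
  have hdB := RowP2.d1 (σ := 0) hB
  rw [map_add, map_smul, map_smul] at hd
  obtain ⟨U, hU, e1, e2⟩ := hdA.ker hdB hd
  have haug : aug K n U = 0 := by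
    refine gy_smul_fn_cancel ?_
    rw [← aug_smul, ← e1]
    exact aug_d1_supp hA.1.suppN hA.2.suppN
  obtain ⟨V, C, hV, hC, -, hUV⟩ := row_q0 (ε := 0) (show -1 ≤ 0 - 1 by omega) (by omega) hU
  have hC0 : C = 0 := hC.eq_zero_of_aug (by
    rw [hUV, aug_add, aug_d1_supp hV.1.suppN hV.2.suppN, zero_add] at haug
    exact haug)
  rw [hC0, add_zero] at hUV
  have hA' : RowP2 1 0 n (e - 1) (A - gy K • V) := by
    refine hA.sub ?_
    have := hV.gy.mono (show e - 1 + 1 - 1 - 1 + 1 ≤ e - 1 by omega)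
    simpa using this
  have hB' : RowP2 1 0 n (e - 1) (B + gx K • V) := by
    refine hB.add ?_
    have := hV.gx.mono (show e - 1 + 1 - 1 - 1 + 1 ≤ e - 1 by omega)
    simpa using this
  obtain ⟨u1, hu1, eu1⟩ := row_q1 (ε := 0) (show (-1 : ℤ) ≤ 0 by omega) le_rfl hA'
    (by rw [map_sub, map_smul, e1, hUV, sub_self])
  obtain ⟨u2, hu2, eu2⟩ := row_q1 (ε := 0) (show (-1 : ℤ) ≤ 0 by omega) le_rfl hB'
    (by rw [map_add, map_smul, e2, hUV, neg_add_cancel])
  refine ⟨gx K • u1 + gy K • u2, ?_, ?_⟩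
  · have a := hu1.gx.add hu2.gy
    rwa [show e - 1 - 2 + 1 = e - 2 by ring, zero_add] at a
  · rw [map_add, map_smul, map_smul, eu1, eu2, smul_sub, smul_add, gx_comm2]
    abel

/-- the zeroth homology of a row -/
theorem row0_q0 (hw : -1 ≤ w) (hw' : w ≤ 1) (he : w = 1 → 2 ≤ e) {z : Zc K}
    (h : RowP 0 w n e z) (ha : aug K n z = 0) : ∃ u, RowP2 1 w n (e - 1) u ∧ d1 K u = z := by
  have base : ∀ w' e', -1 ≤ w' → w' ≤ 0 → ∀ X : Zc K, RowP 0 w' n e' X → aug K n X = 0 →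
      ∃ u, RowP2 1 w' n (e' - 1) u ∧ d1 K u = X := by
    intro w' e' h1 h2 X hX haX
    obtain ⟨u, C, hu, hC, -, eX⟩ := row_q0 (ε := 0) h1 h2 hX
    have hC0 : C = 0 := hC.eq_zero_of_aug (by
      rw [eX, aug_add, aug_d1_supp hu.1.suppN hu.2.suppN, zero_add] at haX
      exact haX)
    exact ⟨u, hu, by rw [eX, hC0, add_zero]⟩
  rcases (show w ≤ 0 ∨ w = 1 by omega) with hw0 | hw1
  · exact base w e hw hw0 z h ha
  obtain ⟨A, B, hA, hB, rfl⟩ := h.split hw1
  subst hw1
  rw [aug_add, aug_smul, aug_smul] at ha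
  have hmem : ∀ X : Zc K, RowP 0 0 n (e - 1) X → aug K n X ∈ Hom2 K n := by
    intro X hX
    rw [aug_eq]
    refine add_mem (Submodule.sum_mem _ fun m hm => ?_) (Submodule.sum_mem _ fun m hm => ?_)
    · have := actFn_hom2 (hX.inW 0 0 m) (mono_mem (K := K) hm)
      simpa [smul_fn, ob] using this
    · have := actFn_hom2 (hX.inW 1 1 m) (mono_mem (K := K) hm)
      simpa [smul_fn, ob] using this
  let g : ℤ × ℤ → K := fun m => aug K n A (m.1, m.2 + 1)
  have e1 : gy K • g = aug K n A := by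
    funext m; rw [gy_smul_apply]; simp [g]
  have e2 : gx K • g = -aug K n B := by
    funext m
    have := congrFun ha (m.1, m.2 + 1)
    simp only [Pi.add_apply, gx_smul_apply, gy_smul_apply, add_sub_cancel_right, Pi.zero_apply]
      at this
    rw [gx_smul_apply, Pi.neg_apply]
    exact eq_neg_of_add_eq_zero_left this
  have hg : g ∈ Hom2 K (n + ob 1) := by
    intro m hm
    obtain ⟨a, b, c⟩ := hmem A hA _ hm
    have hne : m.2 ≠ -1 := by
      intro hm2
      have hb := congrFun e2 (m.1 + 1, m.2)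
      rw [gx_smul_apply] at hb
      simp only [add_sub_cancel_right, Pi.neg_apply] at hb
      have : aug K n B (m.1 + 1, m.2) ≠ 0 := fun hz => hm (by rw [hb, hz, neg_zero])
      have := (hmem B hB _ this).2.1
      simp at this
      omega
    simp at a b c
    refine ⟨a, by omega, ?_⟩
    simp [ob]; omega
  let U := constC K n 1 g
  have hU : RowP 0 (-1) n (e - 2) U := by
    have := (constC_cst (K := K) (n := n) (b0 := 1) (g := g)).pm
      (show 0 ≤ e - 2 by have := he rfl; omega)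
    simpa [ob] using this
  have hUA : RowP 0 0 n (e - 1) (gy K • U) := by
    have := hU.gy
    rwa [show (-1 : ℤ) + 1 = 0 by ring, show e - 2 + 1 = e - 1 by ring] at this
  have hUB : RowP 0 0 n (e - 1) (gx K • U) := by
    have := hU.gx
    rwa [show (-1 : ℤ) + 1 = 0 by ring, show e - 2 + 1 = e - 1 by ring] at this
  obtain ⟨u1, hu1, eu1⟩ := base 0 (e - 1) (by omega) le_rfl (A - gy K • U) (hA.sub hUA)
    (by rw [aug_sub, aug_smul, aug_constC hg, e1, sub_self])
  obtain ⟨u2, hu2, eu2⟩ := base 0 (e - 1) (by omega) le_rfl (B + gx K • U) (hB.add hUB)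
    (by rw [aug_add, aug_smul, aug_constC hg, e2, add_neg_cancel])
  refine ⟨gx K • u1 + gy K • u2, ?_, ?_⟩
  · have a := hu1.gx.add hu2.gy
    rwa [show e - 1 - 1 + 1 = e - 1 by ring, zero_add] at a
  · rw [map_add, map_smul, map_smul, eu1, eu2, smul_sub, smul_add, gx_comm]
    abel

end Vale.Agent.P195
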