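import Vale.Agent.P195.Act

/-!
Modules over the window algebra made of column vectors, one entry for each block and vertex.
-/

namespace Vale.Agent.P195

variable {K : Type} [Field K]

theorem mat_mul (s t : A0 K) : mat K (s * t) = mat K s * mat K t := rfl
theorem mat_add (s t : A0 K) : mat K (s + t) = mat K s + mat K t := rfl
theorem mat_one : mat K (1 : A0 K) = 1 := rfl
theorem mat_zero : mat K (0 : A0 K) = 0 := rfl
theorem mat_algebraMap (c : K) : mat K (algebraMap K (A0 K) c) = algebraMap K (Big K) c := rfl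
theorem mat_mem (s : A0 K) : InA K (mat K s) :=
  Subtype.property (p := fun x => x ∈ A0sub K) s
theorem mat_injective {s t : A0 K} (h : mat K s = mat K t) : s = t :=
  Subtype.ext (p := fun x => x ∈ A0sub K) h
theorem mat_ofMat (x : Big K) (h : InA K x) : mat K (ofMat K x h) = x := rfl

/-- column vectors -/
def MV (K : Type) [Field K] (M : Type) : Type := Fin 2 × V → M

instance (M : Type) [AddCommGroup M] : AddCommGroup (MV K M) :=
  inferInstanceAs (AddCommGroup (Fin 2 × V → M))
noncomputable instance (M : Type) [AddCommGroup M] [Module K M] : Module K (MV K M) :=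
  inferInstanceAs (Module K (Fin 2 × V → M))

section
variable {M : Type} [AddCommGroup M] [Module (Am K) M]

noncomputable instance : Module (A0 K) (MV K M) where
  smul s z := fun i => ∑ j, mat K s i j • z j
  one_smul z := by
    funext i
    show ∑ j, mat K (1 : A0 K) i j • z j = z i
    rw [Finset.sum_eq_single i]
    · rw [mat_one, Matrix.one_apply_eq, one_smul]
    · intro j _ h
      rw [mat_one, Matrix.one_apply_ne (Ne.symm h), zero_smul]
    · simp
  mul_smul s t z := by
    funext i
    show ∑ j, mat K (s * t) i j • z j = ∑ l, mat K s i l • ∑ j, mat K t l j • z j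
    simp only [mat_mul, Matrix.mul_apply, Finset.sum_smul, Finset.smul_sum, mul_smul]
    exact Finset.sum_comm
  smul_zero s := funext fun i => Finset.sum_eq_zero fun j _ => smul_zero _
  smul_add s z z' := by
    funext i
    show ∑ j, mat K s i j • (z j + z' j) = (∑ j, _) + ∑ j, _
    simp only [smul_add, Finset.sum_add_distrib]
  add_smul s t z := by
    funext i
    show ∑ j, mat K (s + t) i j • z j = (∑ j, _) + ∑ j, _
    simp only [mat_add, Matrix.add_apply, add_smul, Finset.sum_add_distrib]
  zero_smul z := funext fun i => Finset.sum_eq_zero fun j _ => by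
    rw [mat_zero, Matrix.zero_apply, zero_smul]

theorem smul_mv (s : A0 K) (z : MV K M) (i : Fin 2 × V) :
    (s • z) i = ∑ j, mat K s i j • z j := rfl

instance [Module K M] [IsScalarTower K (Am K) M] : IsScalarTower K (A0 K) (MV K M) :=
  IsScalarTower.of_algebraMap_smul fun c z => by
    funext i
    show _ = c • z i
    rw [smul_mv, Finset.sum_eq_single i]
    · rw [mat_algebraMap, Matrix.algebraMap_matrix_apply, if_pos rfl, algebraMap_smul]
    · intro j _ h
      rw [mat_algebraMap, Matrix.algebraMap_matrix_apply, if_neg (Ne.symm h), zero_smul]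
    · simp

theorem smul_mv_one (s : A0 K) (z : MV K M) (r : V) :
    (s • z) (1, r) = ∑ v, mat K s (0, r) (0, v) • z (1, v) := by
  rw [smul_mv, Fintype.sum_prod_type, Fin.sum_univ_two]
  simp only [(mat_mem s).lower, (mat_mem s).diag, zero_smul, Finset.sum_const_zero, zero_add]

theorem smul_mv_zero (s : A0 K) (z : MV K M) (r : V) :
    (s • z) (0, r) = ∑ v, mat K s (0, r) (0, v) • z (0, v)
      + ∑ v, mat K s (0, r) (1, v) • z (1, v) := by
  rw [smul_mv, Fintype.sum_prod_type, Fin.sum_univ_two]

/-- a family of predicates on `M`, indexed by weight and degree, stable under Weyl elements -/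
structure QProp (K : Type) [Field K] (M : Type) [AddCommGroup M] [Module (Am K) M] where
  mem : ℤ → ℤ → M → Prop
  zero : ∀ w d, mem w d 0
  add : ∀ {w d x y}, mem w d x → mem w d y → mem w d (x + y)
  smul : ∀ {w w' d d' a x}, InW K (w - w') (d - d') a → mem w' d' x → mem w d (a • x)

theorem QProp.sum (Q : QProp K M) {ι : Type} (S : Finset ι) {w d : ℤ} {f : ι → M}
    (h : ∀ i ∈ S, Q.mem w d (f i)) : Q.mem w d (∑ i ∈ S, f i) :=
  Finset.sum_induction f (Q.mem w d) (fun _ _ => Q.add) (Q.zero w d) h

/-- vectors whose lower entry lies in the piece of the row and upper entry in the shifted piece -/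
def rowSub (Q : QProp K M) : Submodule (A0 K) (MV K M) where
  carrier := {z | ∀ r, Q.mem (off r) (lev r) (z (1, r)) ∧ Q.mem (off r + 1) (lev r + 2) (z (0, r))}
  zero_mem' _ := ⟨Q.zero _ _, Q.zero _ _⟩
  add_mem' hz hz' r := ⟨Q.add (hz r).1 (hz' r).1, Q.add (hz r).2 (hz' r).2⟩
  smul_mem' s z hz r := by
    refine ⟨?_, ?_⟩
    · rw [smul_mv_one]
      exact Q.sum _ fun v _ => Q.smul ((mat_mem s).base r v) (hz v).1
    · rw [smul_mv_zero]
      refine Q.add (Q.sum _ fun v _ => Q.smul ?_ (hz v).2) (Q.sum _ fun v _ => Q.smul ?_ (hz v).1)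
      · simpa [add_sub_add_right_eq_sub] using (mat_mem s).base r v
      · have := (mat_mem s).tran r v
        rw [show off r + 1 - off v = off r - off v + 1 by ring,
          show lev r + 2 - lev v = lev r - lev v + 2 by ring]
        exact this

theorem mem_rowSub {Q : QProp K M} {z : MV K M} : z ∈ rowSub Q ↔
    ∀ r, Q.mem (off r) (lev r) (z (1, r)) ∧ Q.mem (off r + 1) (lev r + 2) (z (0, r)) := Iff.rfl

variable {M' : Type} [AddCommGroup M'] [Module (Am K) M']

/-- componentwise maps -/
noncomputable def mapMV (g : M →ₗ[Am K] M') : MV K M →ₗ[A0 K] MV K M' where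
  toFun z i := g (z i)
  map_add' z z' := funext fun i => map_add g _ _
  map_smul' s z := funext fun i => by
    show g (∑ j, mat K s i j • z j) = ∑ j, mat K s i j • g (z j)
    simp only [map_sum, map_smul]

/-- componentwise maps on rows -/
noncomputable def rowMap (Q : QProp K M) (Q' : QProp K M') (g : M →ₗ[Am K] M')
    (h : ∀ w d x, Q.mem w d x → Q'.mem w d (g x)) : rowSub Q →ₗ[A0 K] rowSub Q' :=
  (mapMV g).restrict fun _ hz r => ⟨h _ _ _ (hz r).1, h _ _ _ (hz r).2⟩

theorem rowMap_apply (Q : QProp K M) (Q' : QProp K M') (g : M →ₗ[Am K] M') (h) (z : rowSub Q)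
    (i : Fin 2 × V) : (rowMap Q Q' g h z).1 i = g (z.1 i) := rfl

/-- the weights and degrees occurring -/
def Valid (w d : ℤ) : Prop := (w = -1 ∨ w = 0 ∨ w = 1) ∧ (w = 1 → 2 ≤ d)

theorem valid_base (r : V) : Valid (off r) (lev r) := by
  obtain ⟨a, b⟩ := r
  fin_cases b <;> simp [Valid, off]

theorem valid_top (r : V) : Valid (off r + 1) (lev r + 2) := by
  obtain ⟨a, b⟩ := r
  refine ⟨by fin_cases b <;> simp [off], fun _ => ?_⟩
  fin_cases a <;> simp [lev]

variable {M'' : Type} [AddCommGroup M''] [Module (Am K) M'']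

/-- exactness is componentwise -/
theorem rowMap_exact (Q : QProp K M) (Q' : QProp K M') (Q'' : QProp K M'') (g : M →ₗ[Am K] M')
    (h) (g' : M' →ₗ[Am K] M'') (h') (h0 : ∀ w d x, Q.mem w d x → g' (g x) = 0)
    (hex : ∀ w d y, Valid w d → Q'.mem w d y → g' y = 0 → ∃ x, Q.mem w d x ∧ g x = y) :
    Function.Exact (rowMap Q Q' g h) (rowMap Q' Q'' g' h') := by
  intro y
  constructor
  · intro e
    have e' : ∀ i, g' (y.1 i) = 0 := fun i => congrFun (congrArg Subtype.val e) i
    choose x hx hgx using fun r => hex _ _ _ (valid_base r) (y.2 r).1 (e' _)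
    choose x' hx' hgx' using fun r => hex _ _ _ (valid_top r) (y.2 r).2 (e' _)
    let z : MV K M := fun i => if i.1 = 0 then x' i.2 else x i.2
    refine ⟨⟨z, fun r => ⟨hx r, hx' r⟩⟩, Subtype.ext (funext fun i => ?_)⟩
    obtain ⟨a, r⟩ := i
    fin_cases a
    · exact hgx' r
    · exact hgx r
  · rintro ⟨x, rfl⟩
    refine Subtype.ext (funext fun i => ?_)
    obtain ⟨a, r⟩ := i
    fin_cases a
    · exact h0 _ _ _ (x.2 r).2
    · exact h0 _ _ _ (x.2 r).1

theorem rowMap_injective (Q : QProp K M) (Q' : QProp K M') (g : M →ₗ[Am K] M') (h)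
    (hi : ∀ w d x, Valid w d → Q.mem w d x → g x = 0 → x = 0) :
    Function.Injective (rowMap Q Q' g h) := by
  refine (injective_iff_map_eq_zero _).2 fun x e => ?_
  have e' : ∀ i, g (x.1 i) = 0 := fun i => congrFun (congrArg Subtype.val e) i
  refine Subtype.ext (funext fun i => ?_)
  obtain ⟨a, r⟩ := i
  fin_cases a
  · exact hi _ _ _ (valid_top r) (x.2 r).2 (e' _)
  · exact hi _ _ _ (valid_base r) (x.2 r).1 (e' _)

end

end Vale.Agent.P195
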