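import Vale.Agent.P195.Ops
import Vale.Agent.P195.Anti

/-!
Cochains of one parity, and the leading parts of the differentials.
-/

namespace Vale.Agent.P195

variable {K : Type} [Field K]

theorem two_cases (p : Fin 2) : p = 0 ∨ p = 1 := by revert p; decide

theorem fin2_add_two (σ : Fin 2) : σ + 1 + 1 = σ := by revert σ; decide

/-- elements supported on the parity `σ`, of weight `w`, with degree at most `e` -/
def RowP (σ : Fin 2) (w n e : ℤ) (z : Zc K) : Prop :=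
  ∀ vp b m, z vp b m ≠ 0 → vp = b + σ ∧ Sup n b m ∧ InW K (w - ob vp) e (z vp b m)

/-- pairs -/
def RowP2 (σ : Fin 2) (w n e : ℤ) (z : Zc K × Zc K) : Prop :=
  RowP σ w n e z.1 ∧ RowP σ w n e z.2

variable {σ : Fin 2} {w n e e' : ℤ} {z z' : Zc K}

theorem mem_iff {D : ℤ} {q : Fin 4} : Mem K w n D q z ↔ RowP (lp q) w n (D - lv q) z := Iff.rfl

theorem RowP.inW (h : RowP σ w n e z) (vp b : Fin 2) (m : ℤ × ℤ) :
    InW K (w - ob vp) e (z vp b m) := by
  by_cases h0 : z vp b m = 0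
  · rw [h0]; exact inW_zero _ _
  · exact (h vp b m h0).2.2

theorem RowP.eq_zero (h : RowP σ w n e z) {vp b : Fin 2} {m : ℤ × ℤ}
    (h' : vp ≠ b + σ ∨ ¬ Sup n b m) : z vp b m = 0 := by
  by_contra h0
  obtain ⟨h1, h2, -⟩ := h vp b m h0
  exact h'.elim (fun f => f h1) (fun f => f h2)

theorem RowP.zero : RowP σ w n e (0 : Zc K) := fun _ _ _ h => absurd rfl h

theorem RowP.add (h : RowP σ w n e z) (h' : RowP σ w n e z') : RowP σ w n e (z + z') := by
  intro vp b m h0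
  by_cases hz : z vp b m = 0
  · have e0 : (z + z') vp b m = z' vp b m := by
      simp only [Pi.add_apply, hz]; exact zero_add _
    rw [e0] at h0 ⊢; exact h' vp b m h0
  · exact ⟨(h vp b m hz).1, (h vp b m hz).2.1, inW_add (h.inW vp b m) (h'.inW vp b m)⟩

theorem RowP.neg (h : RowP σ w n e z) : RowP σ w n e (-z) := fun vp b m h0 => by
  have hz : z vp b m ≠ 0 := fun hz => h0 (by simp [hz])
  exact ⟨(h vp b m hz).1, (h vp b m hz).2.1, inW_neg (h.inW vp b m)⟩

theorem RowP.sub (h : RowP σ w n e z) (h' : RowP σ w n e z') : RowP σ w n e (z - z') := by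
  rw [sub_eq_add_neg]; exact h.add h'.neg

theorem RowP.mono (h : RowP σ w n e z) (he : e ≤ e') : RowP σ w n e' z := fun vp b m h0 =>
  ⟨(h vp b m h0).1, (h vp b m h0).2.1, inW_mono (h.inW vp b m) he⟩

theorem RowP.eq_zero_of_neg (h : RowP σ w n e z) (hw : -1 ≤ w) (he : e < 0) : z = 0 := by
  funext vp b m
  refine Vale.Agent.P195.eq_zero_of_neg (h.inW vp b m) ?_ he
  rcases two_cases vp with rfl | rfl <;> simp [ob] <;> omega

theorem RowP.ext (h : RowP σ w n e z) (h' : RowP σ w n e' z')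
    (heq : ∀ b m, z (b + σ) b m = z' (b + σ) b m) : z = z' := by
  funext vp b m
  by_cases hv : vp = b + σ
  · rw [hv]; exact heq b m
  · rw [h.eq_zero (Or.inl hv), h'.eq_zero (Or.inl hv)]

theorem RowP2.zero : RowP2 σ w n e (0 : Zc K × Zc K) := ⟨RowP.zero, RowP.zero⟩

variable {u u' : Zc K × Zc K}

theorem RowP2.add (h : RowP2 σ w n e u) (h' : RowP2 σ w n e u') : RowP2 σ w n e (u + u') :=
  ⟨h.1.add h'.1, h.2.add h'.2⟩

theorem RowP2.neg (h : RowP2 σ w n e u) : RowP2 σ w n e (-u) := ⟨h.1.neg, h.2.neg⟩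

theorem RowP2.sub (h : RowP2 σ w n e u) (h' : RowP2 σ w n e u') : RowP2 σ w n e (u - u') :=
  ⟨h.1.sub h'.1, h.2.sub h'.2⟩

theorem RowP2.mono (h : RowP2 σ w n e u) (he : e ≤ e') : RowP2 σ w n e' u :=
  ⟨h.1.mono he, h.2.mono he⟩

theorem RowP2.eq_zero_of_neg (h : RowP2 σ w n e u) (hw : -1 ≤ w) (he : e < 0) : u = 0 :=
  Prod.ext (h.1.eq_zero_of_neg hw he) (h.2.eq_zero_of_neg hw he)

theorem RowP2.ext (h : RowP2 σ w n e u) (h' : RowP2 σ w n e' u')
    (h1 : ∀ b m, u.1 (b + σ) b m = u'.1 (b + σ) b m)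
    (h2 : ∀ b m, u.2 (b + σ) b m = u'.2 (b + σ) b m) : u = u' :=
  Prod.ext (h.1.ext h'.1 h1) (h.2.ext h'.2 h2)

/-- elements from their entries -/
theorem exists_PM {R : Fin 2 → ℤ × ℤ → Am K → Prop}
    (h : ∀ b m, Sup n b m → ∃ a, InW K (w - ob (b + σ)) e a ∧ R b m a)
    (h0 : ∀ b m, ¬ Sup n b m → R b m 0) :
    ∃ z, RowP σ w n e z ∧ ∀ b m, R b m (z (b + σ) b m) := by
  classical
  choose f hf1 hf2 using h
  refine ⟨fun vp b m => if hv : vp = b + σ then if hs : Sup n b m then f b m hs else 0 else 0,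
    fun vp b m hne => ?_, fun b m => ?_⟩
  · by_cases hv : vp = b + σ
    · by_cases hs : Sup n b m
      · simp only [dif_pos hv, dif_pos hs]
        exact ⟨hv, hs, by rw [hv]; exact hf1 b m hs⟩
      · exact absurd (by simp only [dif_pos hv, dif_neg hs]) hne
    · exact absurd (by simp only [dif_neg hv]) hne
  · by_cases hs : Sup n b m
    · simp only [dite_true, dif_pos hs]; exact hf2 b m hs
    · simp only [dite_true, dif_neg hs]; exact h0 b m hs

/-- pairs from their entries -/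
theorem exists_PM2 {R : Fin 2 → ℤ × ℤ → Am K → Am K → Prop}
    (h : ∀ b m, Sup n b m →
      ∃ a a', InW K (w - ob (b + σ)) e a ∧ InW K (w - ob (b + σ)) e a' ∧ R b m a a')
    (h0 : ∀ b m, ¬ Sup n b m → R b m 0 0) :
    ∃ u : Zc K × Zc K, RowP2 σ w n e u ∧ ∀ b m, R b m (u.1 (b + σ) b m) (u.2 (b + σ) b m) := by
  classical
  choose f g hf hg hR using h
  refine ⟨(fun vp b m => if hv : vp = b + σ then if hs : Sup n b m then f b m hs else 0 else 0,
      fun vp b m => if hv : vp = b + σ then if hs : Sup n b m then g b m hs else 0 else 0),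
    ⟨fun vp b m hne => ?_, fun vp b m hne => ?_⟩, fun b m => ?_⟩
  · by_cases hv : vp = b + σ
    · by_cases hs : Sup n b m
      · simp only [dif_pos hv, dif_pos hs]
        exact ⟨hv, hs, by rw [hv]; exact hf b m hs⟩
      · exact absurd (by simp only [dif_pos hv, dif_neg hs]) hne
    · exact absurd (by simp only [dif_neg hv]) hne
  · by_cases hv : vp = b + σ
    · by_cases hs : Sup n b m
      · simp only [dif_pos hv, dif_pos hs]
        exact ⟨hv, hs, by rw [hv]; exact hg b m hs⟩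
      · exact absurd (by simp only [dif_pos hv, dif_neg hs]) hne
    · exact absurd (by simp only [dif_neg hv]) hne
  · by_cases hs : Sup n b m
    · simp only [dite_true, dif_pos hs]; exact hR b m hs
    · simp only [dite_true, dif_neg hs]; exact h0 b m hs

/-! The entries of the operators. -/

theorem re_zero (z : Zc K) (b : Fin 2) (m : ℤ × ℤ) : re K z 0 b m = -(z 1 b m * gdy K) := by
  show z 0 b m * eW K 0 0 + z 1 b m * eW K 1 0 = _
  simp [eW, am_mul_neg]

theorem re_one (z : Zc K) (b : Fin 2) (m : ℤ × ℤ) : re K z 1 b m = z 0 b m * gx K := by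
  show z 0 b m * eW K 0 1 + z 1 b m * eW K 1 1 = _
  simp [eW]

theorem rf_zero (z : Zc K) (b : Fin 2) (m : ℤ × ℤ) : rf K z 0 b m = z 1 b m * gdx K := by
  show z 0 b m * fW K 0 0 + z 1 b m * fW K 1 0 = _
  simp [fW]

theorem rf_one (z : Zc K) (b : Fin 2) (m : ℤ × ℤ) : rf K z 1 b m = z 0 b m * gy K := by
  show z 0 b m * fW K 0 1 + z 1 b m * fW K 1 1 = _
  simp [fW]

theorem le_zero' (z : Zc K) (vp : Fin 2) (m : ℤ × ℤ) :
    le K z vp 0 m = z vp 1 (m.1 - 1, m.2) := rfl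

theorem le_one' (z : Zc K) (vp : Fin 2) (m : ℤ × ℤ) :
    le K z vp 1 m = (-(m.2 + 1)) • z vp 0 (m.1, m.2 + 1) := rfl

theorem lf_zero' (z : Zc K) (vp : Fin 2) (m : ℤ × ℤ) :
    lf K z vp 0 m = z vp 1 (m.1, m.2 - 1) := rfl

theorem lf_one' (z : Zc K) (vp : Fin 2) (m : ℤ × ℤ) :
    lf K z vp 1 m = (m.1 + 1) • z vp 0 (m.1 + 1, m.2) := rfl

theorem RowP.re (h : RowP σ w n e z) : RowP (σ + 1) w n (e + 1) (P195.re K z) := by
  intro vp b m h0
  rcases two_cases vp with rfl | rfl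
  · rw [re_zero] at h0 ⊢
    have hz : z 1 b m ≠ 0 := fun hz => h0 (by simp [hz])
    obtain ⟨h1, h2, h3⟩ := h 1 b m hz
    refine ⟨by rw [← add_assoc, ← h1]; decide, h2, inW_neg ?_⟩
    simpa [ob] using inW_mul_gdy h3
  · rw [re_one] at h0 ⊢
    obtain ⟨h1, h2, h3⟩ := h 0 b m (left_ne_zero_of_mul h0)
    refine ⟨by rw [← add_assoc, ← h1]; decide, h2, ?_⟩
    simpa [ob] using inW_mul_gx h3

theorem RowP.rf (h : RowP σ w n e z) : RowP (σ + 1) w n (e + 1) (P195.rf K z) := by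
  intro vp b m h0
  rcases two_cases vp with rfl | rfl
  · rw [rf_zero] at h0 ⊢
    obtain ⟨h1, h2, h3⟩ := h 1 b m (left_ne_zero_of_mul h0)
    refine ⟨by rw [← add_assoc, ← h1]; decide, h2, ?_⟩
    simpa [ob] using inW_mul_gdx h3
  · rw [rf_one] at h0 ⊢
    obtain ⟨h1, h2, h3⟩ := h 0 b m (left_ne_zero_of_mul h0)
    refine ⟨by rw [← add_assoc, ← h1]; decide, h2, ?_⟩
    simpa [ob] using inW_mul_gy h3

theorem RowP.le (h : RowP σ w n e z) : RowP (σ + 1) w n e (P195.le K z) := by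
  intro vp b m h0
  rcases two_cases b with rfl | rfl
  · rw [le_zero'] at h0 ⊢
    obtain ⟨h1, ⟨h2, h3, h4⟩, h5⟩ := h vp 1 _ h0
    refine ⟨by rw [h1, add_comm σ 1, ← add_assoc]; rfl, ⟨?_, h3, ?_⟩, h5⟩ <;> simp [ob] at * <;> omega
  · rw [le_one'] at h0 ⊢
    have hm : m.2 + 1 ≠ 0 := fun hm => h0 (by rw [hm]; simp)
    obtain ⟨h1, ⟨h2, h3, h4⟩, h5⟩ := h vp 0 _ (fun hz => h0 (by rw [hz]; exact zsmul_zero _))
    refine ⟨by rw [h1, add_comm σ 1, ← add_assoc]; rfl, ⟨h2, ?_, ?_⟩, inW_zsmul _ h5⟩ <;>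
      simp [ob] at * <;> omega

theorem RowP.lf (h : RowP σ w n e z) : RowP (σ + 1) w n e (P195.lf K z) := by
  intro vp b m h0
  rcases two_cases b with rfl | rfl
  · rw [lf_zero'] at h0 ⊢
    obtain ⟨h1, ⟨h2, h3, h4⟩, h5⟩ := h vp 1 _ h0
    refine ⟨by rw [h1, add_comm σ 1, ← add_assoc]; rfl, ⟨h2, ?_, ?_⟩, h5⟩ <;> simp [ob] at * <;> omega
  · rw [lf_one'] at h0 ⊢
    have hm : m.1 + 1 ≠ 0 := fun hm => h0 (by rw [hm]; simp)
    obtain ⟨h1, ⟨h2, h3, h4⟩, h5⟩ := h vp 0 _ (fun hz => h0 (by rw [hz]; exact zsmul_zero _))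
    refine ⟨by rw [h1, add_comm σ 1, ← add_assoc]; rfl, ⟨?_, h3, ?_⟩, inW_zsmul _ h5⟩ <;>
      simp [ob] at * <;> omega

/-! The leading parts. -/

variable (K) in
/-- the leading part of `d1` -/
noncomputable def d10 : Zc K × Zc K →ₗ[Am K] Zc K := LinearMap.coprod (P195.re K) (P195.rf K)

variable (K) in
/-- the leading part of `d2` -/
noncomputable def d20 : Zc K × Zc K →ₗ[Am K] Zc K × Zc K :=
  LinearMap.coprod
    (LinearMap.prod (-(P195.re K ∘ₗ P195.rf K) + LinearMap.id) (P195.re K ∘ₗ P195.re K))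
    (LinearMap.prod (-(P195.rf K ∘ₗ P195.rf K)) (P195.rf K ∘ₗ P195.re K + LinearMap.id))

variable (K) in
/-- the leading part of `d3` -/
noncomputable def d30 : Zc K →ₗ[Am K] Zc K × Zc K := LinearMap.prod (P195.rf K) (-(P195.re K))

theorem d10_zero (a : Zc K × Zc K) (b : Fin 2) (m : ℤ × ℤ) :
    d10 K a 0 b m = -(a.1 1 b m * gdy K) + a.2 1 b m * gdx K := by
  simp [d10, re_zero, rf_zero]

theorem d10_one (a : Zc K × Zc K) (b : Fin 2) (m : ℤ × ℤ) :
    d10 K a 1 b m = a.1 0 b m * gx K + a.2 0 b m * gy K := by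
  simp [d10, re_one, rf_one]

theorem d20_one (u : Zc K × Zc K) (b : Fin 2) (m : ℤ × ℤ) :
    (d20 K u).1 1 b m = -((u.1 1 b m * gx K + u.2 1 b m * gy K) * gdx K) ∧
    (d20 K u).2 1 b m = -((u.1 1 b m * gx K + u.2 1 b m * gy K) * gdy K) := by
  constructor
  · show -(re K (rf K u.1)) 1 b m + u.1 1 b m + -(rf K (rf K u.2)) 1 b m = _
    simp only [re_one, rf_one, rf_zero, add_mul, mul_assoc, gdx_gx, gdx_gy, mul_add,
      mul_one]
    abel
  · show re K (re K u.1) 1 b m + (rf K (re K u.2) 1 b m + u.2 1 b m) = _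
    simp only [re_one, rf_one, re_zero, am_neg_mul, add_mul, mul_assoc, gdy_gx, gdy_gy, mul_add,
      mul_one]
    abel

theorem d20_zero (u : Zc K × Zc K) (b : Fin 2) (m : ℤ × ℤ) :
    (d20 K u).1 0 b m = (u.1 0 b m * gdy K - u.2 0 b m * gdx K) * gy K ∧
    (d20 K u).2 0 b m = -((u.1 0 b m * gdy K - u.2 0 b m * gdx K) * gx K) := by
  constructor
  · show -(re K (rf K u.1)) 0 b m + u.1 0 b m + -(rf K (rf K u.2)) 0 b m = _
    simp only [re_zero, rf_one, rf_zero, sub_mul, mul_assoc, gdy_gy, gdx_gy, mul_add,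
      mul_one]
    abel
  · show re K (re K u.1) 0 b m + (rf K (re K u.2) 0 b m + u.2 0 b m) = _
    simp only [re_zero, re_one, rf_zero, sub_mul, mul_assoc, gdy_gx, gdx_gx, mul_add, mul_one]
    abel

theorem d10_d20 (u : Zc K × Zc K) : d10 K (d20 K u) = 0 := by
  funext vp b m
  rcases two_cases vp with rfl | rfl
  · rw [d10_zero, (d20_one u b m).1, (d20_one u b m).2, am_neg_mul, am_neg_mul, mul_assoc,
      mul_assoc, gdx_gdy]
    rw [neg_neg]
    exact add_neg_cancel _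
  · rw [d10_one, (d20_zero u b m).1, (d20_zero u b m).2, am_neg_mul, mul_assoc, mul_assoc, gx_gy]
    exact add_neg_cancel _

theorem d30_zero (z : Zc K) (b : Fin 2) (m : ℤ × ℤ) :
    (d30 K z).1 0 b m = z 1 b m * gdx K ∧ (d30 K z).2 0 b m = z 1 b m * gdy K := by
  refine ⟨rf_zero z b m, ?_⟩
  show -(re K z 0 b m) = _
  rw [re_zero, neg_neg]

theorem d30_one (z : Zc K) (b : Fin 2) (m : ℤ × ℤ) :
    (d30 K z).1 1 b m = z 0 b m * gy K ∧ (d30 K z).2 1 b m = -(z 0 b m * gx K) := by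
  refine ⟨rf_one z b m, ?_⟩
  show -(re K z 1 b m) = _
  rw [re_one]

theorem d20_d30 (z : Zc K) : d20 K (d30 K z) = 0 := by
  refine Prod.ext ?_ ?_
  all_goals
    funext vp b m
    rcases two_cases vp with rfl | rfl
    · first
        | rw [(d20_zero _ b m).1]
        | rw [(d20_zero _ b m).2]
      rw [(d30_zero z b m).1, (d30_zero z b m).2, mul_assoc, mul_assoc, gdx_gdy, sub_self]
      simp
    · first
        | rw [(d20_one _ b m).1]
        | rw [(d20_one _ b m).2]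
      rw [(d30_one z b m).1, (d30_one z b m).2, am_neg_mul, mul_assoc, mul_assoc, gx_gy,
        add_neg_cancel]
      simp

theorem RowP2.d10 (h : RowP2 (σ + 1) w n e u) : RowP σ w n (e + 1) (d10 K u) := by
  have h1 := h.1.re
  have h2 := h.2.rf
  rw [fin2_add_two] at h1 h2
  exact h1.add h2

theorem RowP2.d20 (h : RowP2 σ w n e u) : RowP2 σ w n (e + 2) (d20 K u) := by
  have a1 := h.1.rf.re
  have a2 := h.1.re.re
  have a3 := h.2.rf.rf
  have a4 := h.2.re.rf
  rw [fin2_add_two, add_assoc e 1 1] at a1 a2 a3 a4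
  exact ⟨(a1.neg.add (h.1.mono (by omega))).add a3.neg,
    a2.add (a4.add (h.2.mono (by omega)))⟩

theorem RowP.d30 (h : RowP σ w n e z) : RowP2 (σ + 1) w n (e + 1) (d30 K z) :=
  ⟨h.rf, h.re.neg⟩

end Vale.Agent.P195
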