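import Vale.Agent.P195.CellMaps
import Vale.Agent.P195.ExtTools

/-!
Inflated free modules over `Kill θ`: the two short exact sequences through `E2` and `P1 θ 1`, and a
criterion for a module to have vanishing `Ext` from all inflated modules.
-/

namespace Vale.Agent.P195

open Kill ExtTools

variable {K : Type} [Field K] {A₀ : Type} [Ring A₀] [Algebra K A₀] {θ : Cocycle K A₀}

variable (θ) in
theorem isNormal_one : Cocycle.IsNormal θ 1 :=
  { idem := mul_one 1, left := θ.one_left, mid := θ.one_mid, right := θ.one_right }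

namespace Kill

theorem mem_P0 {x : Kill θ} : x ∈ P1 θ 1 ↔ x.r = 0 ∧ x.c = 0 := by
  rw [mem_P1 θ.one_mid]
  constructor
  · exact fun h => ⟨h.2.2.1, h.2.2.2.2⟩
  · exact fun h => ⟨mul_one _, qright_one _, h.1, by ext a; simp, h.2⟩

section Maps

variable {Y Y' : Type} [AddCommGroup Y] [Module A₀ Y] [AddCommGroup Y'] [Module A₀ Y']

variable (θ) in
/-- inflation of a map -/
noncomputable def inflMap (f : Y →ₗ[A₀] Y') : Infl θ Y →ₗ[Kill θ] Infl θ Y' where
  toFun y := f y
  map_add' := f.map_add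
  map_smul' a y := f.map_smul a.u y

theorem inflMap_apply (f : Y →ₗ[A₀] Y') (y : Infl θ Y) : inflMap θ f y = f y := rfl

/-- a map of inflated modules is linear over `A₀` -/
noncomputable def deflMap (f : Infl θ Y →ₗ[Kill θ] Infl θ Y') : Y →ₗ[A₀] Y' where
  toFun y := f y
  map_add' := f.map_add
  map_smul' a y := f.map_smul (emb θ a) y

theorem infl_smul_eq {T : Type} [AddCommGroup T] [Module (Kill θ) T] (h : Infl θ Y →ₗ[Kill θ] T)
    (x : Kill θ) (hx : x.u = 0) (y : Infl θ Y) : x • h y = 0 := by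
  rw [← map_smul, infl_smul, hx, zero_smul]
  exact map_zero h

end Maps

variable (θ)

/-- the augmentation of `P1 θ 1` -/
noncomputable def aug₁ : P1 θ 1 →ₗ[Kill θ] Infl θ A₀ where
  toFun x := (x : Kill θ).u
  map_add' _ _ := rfl
  map_smul' _ _ := rfl

/-- left multiplications inside `E2` -/
noncomputable def iota₁ : Infl θ A₀ →ₗ[Kill θ] E2 θ where
  toFun a := ⟨LinearMap.mul K A₀ a, 0⟩
  map_add' a b := by
    ext1
    · exact map_add (LinearMap.mul K A₀) a b
    · simp
  map_smul' x a := by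
    refine E2.ext (LinearMap.ext fun c => ?_) (by simp)
    refine (mul_assoc x.u (show A₀ from a) c).trans ?_
    simp
    rfl

theorem iota₁_F (a : Infl θ A₀) : (iota₁ θ a).F = LinearMap.mul K A₀ a := rfl

/-- `E2 → P1 θ 1` -/
noncomputable def sig₁ : E2 θ →ₗ[Kill θ] P1 θ 1 :=
  LinearMap.codRestrict _ sigW fun _ => mem_P0.2 ⟨rfl, rfl⟩

@[simp] theorem coe_sig₁ (y : E2 θ) : (sig₁ θ y : Kill θ) = sigW y := rfl

/-- the kernel of the augmentation -/
noncomputable abbrev Syz₁ : Submodule (Kill θ) (P1 θ 1) := LinearMap.ker (aug₁ θ)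

/-- `E2 → Syz₁` -/
noncomputable def sigSyz : E2 θ →ₗ[Kill θ] Syz₁ θ :=
  LinearMap.codRestrict _ (sig₁ θ) fun _ => rfl

theorem aug₁_surjective : Function.Surjective (aug₁ θ) :=
  fun a => ⟨⟨emb θ a, mem_P0.2 ⟨rfl, rfl⟩⟩, rfl⟩

theorem sigSyz_surjective : Function.Surjective (sigSyz θ) := by
  rintro ⟨⟨x, hx⟩, hu⟩
  obtain ⟨F, hF⟩ := Submodule.Quotient.mk_surjective _ x.q
  obtain ⟨hr, hc⟩ := mem_P0.1 hx
  exact ⟨⟨F, x.s⟩, Subtype.ext (Subtype.ext (Kill.ext (Eq.symm hu) hF hr.symm rfl hc.symm))⟩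

theorem iota₁_injective : Function.Injective (iota₁ θ) := fun a b h => by
  have := LinearMap.congr_fun (congrArg E2.F h) 1
  exact (mul_one (show A₀ from a)).symm.trans (this.trans (mul_one (show A₀ from b)))

theorem exact_iota₁_sigSyz : Function.Exact (iota₁ θ) (sigSyz θ) := by
  refine fun y => ⟨fun h => ?_, fun ⟨a, ha⟩ => ?_⟩
  · have h' : sigW y = 0 := congrArg (fun z : Syz₁ θ => ((z : P1 θ 1) : Kill θ)) h
    obtain ⟨a, ha⟩ := (Submodule.Quotient.mk_eq_zero _).1 (congrArg Kill.q h')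
    exact ⟨a, E2.ext ha (congrArg Kill.s h').symm⟩
  · subst ha
    exact Subtype.ext (Subtype.ext (Kill.ext rfl ((Submodule.Quotient.mk_eq_zero _).2 ⟨_, rfl⟩)
      rfl rfl rfl))

/-- a module with no maps out of the syzygies that fail to extend has no `Ext` from `Infl A₀` -/
theorem van_infl_self [Module.Finite K A₀] {T : Type} [AddCommGroup T] [Module (Kill θ) T]
    (hsyz : ∀ h : Syz₁ θ →ₗ[Kill θ] T, ∃ k : P1 θ 1 →ₗ[Kill θ] T, k.comp (Syz₁ θ).subtype = h)
    (hfree : ∀ h : Infl θ A₀ →ₗ[Kill θ] T, ∃ k : E2 θ →ₗ[Kill θ] T, k.comp (iota₁ θ) = h) :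
    ∀ i, Van (Kill θ) (Infl θ A₀) T (i + 1) := by
  have : Module.Projective (Kill θ) (P1 θ 1) := projective_P1 (mul_one 1) θ.one_mid
  have : Module.Projective (Kill θ) (E2 θ) := projective_E2
  suffices h : ∀ i, Van (Kill θ) (Infl θ A₀) T (i + 1) ∧ Van (Kill θ) (Syz₁ θ) T (i + 1) from
    fun i => (h i).1
  intro i
  induction i with
  | zero =>
    exact ⟨van_one_of_extend Subtype.val_injective (aug₁_surjective θ) (exact_ker _)
        (van_of_projective 0) hsyz,
      van_one_of_extend (iota₁_injective θ) (sigSyz_surjective θ) (exact_iota₁_sigSyz θ)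
        (van_of_projective 0) hfree⟩
  | succ i ih =>
    exact ⟨van_right Subtype.val_injective (aug₁_surjective θ) (exact_ker _) ih.2
        (van_of_projective _),
      van_right (iota₁_injective θ) (sigSyz_surjective θ) (exact_iota₁_sigSyz θ) ih.1
        (van_of_projective _)⟩

variable {θ}

/-- the section of `End → Quot₀` with values vanishing at `1` -/
noncomputable def qsec : Quot₀ K A₀ →ₗ[K] Module.End K A₀ :=
  Submodule.liftQ _ (LinearMap.id - LinearMap.mul K A₀ ∘ₗ LinearMap.applyₗ (1 : A₀)) (by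
    rintro _ ⟨a, rfl⟩
    ext c
    simp)

theorem qsec_mk (F : Module.End K A₀) :
    qsec (Submodule.Quotient.mk F : Quot₀ K A₀) = F - LinearMap.mul K A₀ (F 1) := rfl

theorem mk_qsec (q : Quot₀ K A₀) : (Submodule.Quotient.mk (qsec q) : Quot₀ K A₀) = q := by
  induction q using Submodule.Quotient.induction_on with
  | _ F =>
    rw [qsec_mk]
    exact mk_eq_mk (a := -F 1) fun x => by simp

theorem qsec_qleft (a : A₀) (q : Quot₀ K A₀) :
    qsec (qleft a q) = LinearMap.mul K A₀ a ∘ₗ qsec q := by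
  induction q using Submodule.Quotient.induction_on with
  | _ F => rw [qleft_mk, qsec_mk, qsec_mk]; ext x; simp [mul_sub, mul_assoc]

section E2Hom

variable {T : Type} [AddCommGroup T] [Module (Kill θ) T]

theorem e₂_smul_pure (χ : Module.Dual K A₀) : e₂ θ • (⟨0, χ⟩ : E2 θ) = ⟨0, χ⟩ := by
  ext <;> simp

/-- a map out of `E2` is determined on the pairs `(0, φ)` -/
theorem hom_E2_ext [Module.Finite K A₀] {g g' : E2 θ →ₗ[Kill θ] T}
    (h : ∀ χ : Module.Dual K A₀, g ⟨0, χ⟩ = g' ⟨0, χ⟩) : g = g' := by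
  let b := Module.Free.chooseBasis K A₀
  let Fh : E2 θ →+ Module.End K A₀ := AddMonoidHom.mk' E2.F fun _ _ => rfl
  let φh : E2 θ →+ Module.Dual K A₀ := AddMonoidHom.mk' E2.φ fun _ _ => rfl
  refine LinearMap.ext fun y => ?_
  have hy : y = ∑ j, (⟨0, 0, y.F (b j), 0, 0⟩ : Kill θ) • (⟨0, b.coord j⟩ : E2 θ) + ⟨0, y.φ⟩ := by
    refine E2.ext ?_ ?_
    · rw [E2.add_F, show ∀ f : _ → E2 θ, (∑ j, f j).F = ∑ j, (f j).F from
        fun f => map_sum Fh f Finset.univ]
      refine b.ext fun k => ?_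
      simp [Finsupp.single_apply, ite_smul]
    · rw [E2.add_φ, show ∀ f : _ → E2 θ, (∑ j, f j).φ = ∑ j, (f j).φ from
        fun f => map_sum φh f Finset.univ]
      simp
  rw [hy]
  simp only [map_add, map_sum, map_smul, h]

theorem ksmul_E2 (k : K) (y : E2 θ) : algebraMap K (Kill θ) k • y = k • y := by
  rw [Algebra.algebraMap_eq_smul_one]
  ext <;> simp

end E2Hom

end Kill

end Vale.Agent.P195
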