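import Vale.Agent.P195.Rels
import Vale.Agent.P195.Act

/-!
The transport from columns to rows by the anti-automorphism.
-/

namespace Vale.Agent.P195

variable {K : Type} [Field K]

variable (K) in
/-- `1 / i!`, and `0` for negative `i` -/
noncomputable def gam' (i : ℤ) : K := if 0 ≤ i then ((i.toNat.factorial : ℕ) : K)⁻¹ else 0

variable (K) in
/-- the scaling -/
noncomputable def twc (m : ℤ × ℤ) : K := (-1) ^ m.1 * gam' K m.1 * gam' K m.2

variable (K) in
/-- the inverse scaling -/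
noncomputable def twc' (m : ℤ × ℤ) : K :=
  (-1) ^ m.1 * (m.1.toNat.factorial : ℕ) * (m.2.toNat.factorial : ℕ)

theorem gam'_sub_one [CharZero K] (i : ℤ) : gam' K (i - 1) = (i : K) * gam' K i := by
  rcases lt_trichotomy i 0 with h | h | h
  · simp only [gam']
    rw [if_neg (by omega), if_neg (by omega), mul_zero]
  · subst h; simp [gam']
  · obtain ⟨k, rfl⟩ : ∃ k : ℕ, i = k + 1 := ⟨(i - 1).toNat, by omega⟩
    have h1 : ((k : ℤ) + 1).toNat = k + 1 := by omega
    have h2 : ((k + 1 : ℕ) : K) ≠ 0 := Nat.cast_ne_zero.mpr (by omega)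
    have h3 : ((k.factorial : ℕ) : K) ≠ 0 := Nat.cast_ne_zero.mpr k.factorial_ne_zero
    simp only [gam', show (0 : ℤ) ≤ k + 1 - 1 by omega, show (0 : ℤ) ≤ k + 1 by omega, if_true,
      show ((k : ℤ) + 1 - 1).toNat = k by omega, h1, Nat.factorial_succ]
    push_cast
    field_simp

theorem twc_shift_one [CharZero K] (m : ℤ × ℤ) :
    twc K (m.1 - 1, m.2) = -((m.1 : K) * twc K m) := by
  simp only [twc, gam'_sub_one, zpow_sub₀ (show (-1 : K) ≠ 0 by simp), zpow_one]
  field_simp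

theorem twc_shift_two [CharZero K] (m : ℤ × ℤ) :
    twc K (m.1, m.2 - 1) = (m.2 : K) * twc K m := by
  simp only [twc, gam'_sub_one]
  ring

theorem twc_eq_zero {m : ℤ × ℤ} (h : ¬ (0 ≤ m.1 ∧ 0 ≤ m.2)) : twc K m = 0 := by
  by_cases h1 : 0 ≤ m.1
  · simp [twc, gam', show ¬ 0 ≤ m.2 from fun h2 => h ⟨h1, h2⟩]
  · simp [twc, gam', h1]

theorem twc_mul [CharZero K] {m : ℤ × ℤ} (h : 0 ≤ m.1) (h' : 0 ≤ m.2) :
    twc K m * twc' K m = 1 := by
  have e : ((-1 : K) ^ m.1) * (-1) ^ m.1 = 1 := by rw [← mul_zpow]; simp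
  have h1 : ((m.1.toNat.factorial : ℕ) : K) ≠ 0 := Nat.cast_ne_zero.mpr (Nat.factorial_ne_zero _)
  have h2 : ((m.2.toNat.factorial : ℕ) : K) ≠ 0 := Nat.cast_ne_zero.mpr (Nat.factorial_ne_zero _)
  simp only [twc, twc', gam', h, h', if_true]
  calc _ = ((-1 : K) ^ m.1 * (-1) ^ m.1) * (((m.1.toNat.factorial : ℕ) : K)⁻¹ *
        (m.1.toNat.factorial : ℕ)) * (((m.2.toNat.factorial : ℕ) : K)⁻¹ *
        (m.2.toNat.factorial : ℕ)) := by ring
    _ = 1 := by rw [e, inv_mul_cancel₀ h1, inv_mul_cancel₀ h2, one_mul, one_mul]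

variable (K) in
/-- columns to rows -/
noncomputable def tw : Zc K →+ Zc K where
  toFun z vp b m := twc K m • tau (z (vp + 1) b m)
  map_zero' := by funext vp b m; simp
  map_add' z z' := by funext vp b m; simp [smul_add]

variable (K) in
/-- rows to columns -/
noncomputable def tw' : Zc K →+ Zc K where
  toFun z vp b m := twc' K m • tau (z (vp + 1) b m)
  map_zero' := by funext vp b m; simp
  map_add' z z' := by funext vp b m; simp [smul_add]

variable (K) in
/-- on pairs -/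
noncomputable def tw2 : Zc K × Zc K →+ Zc K × Zc K :=
  AddMonoidHom.prod ((tw K).comp (AddMonoidHom.fst _ _))
    (-((tw K).comp (AddMonoidHom.snd _ _)))

theorem tw_apply (z : Zc K) (vp b : Fin 2) (m : ℤ × ℤ) :
    tw K z vp b m = twc K m • tau (z (vp + 1) b m) := rfl

theorem tw'_apply (z : Zc K) (vp b : Fin 2) (m : ℤ × ℤ) :
    tw' K z vp b m = twc' K m • tau (z (vp + 1) b m) := rfl

theorem tw2_apply (u : Zc K × Zc K) : tw2 K u = (tw K u.1, -(tw K u.2)) := rfl

theorem reL_zero (z : Zc K) (b : Fin 2) (m : ℤ × ℤ) : reL K z 0 b m = gx K * z 1 b m := by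
  show eW K 0 0 * z 0 b m + eW K 0 1 * z 1 b m = _
  simp [eW]

theorem reL_one (z : Zc K) (b : Fin 2) (m : ℤ × ℤ) : reL K z 1 b m = -(gdy K * z 0 b m) := by
  show eW K 1 0 * z 0 b m + eW K 1 1 * z 1 b m = _
  simp [eW, am_neg_mul]

theorem rfL_zero (z : Zc K) (b : Fin 2) (m : ℤ × ℤ) : rfL K z 0 b m = gy K * z 1 b m := by
  show fW K 0 0 * z 0 b m + fW K 0 1 * z 1 b m = _
  simp [fW]

theorem rfL_one (z : Zc K) (b : Fin 2) (m : ℤ × ℤ) : rfL K z 1 b m = gdx K * z 0 b m := by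
  show fW K 1 0 * z 0 b m + fW K 1 1 * z 1 b m = _
  simp [fW]

theorem tw_reL (z : Zc K) : tw K (reL K z) = rf K (tw K z) := by
  funext vp b m
  rcases two_cases vp with rfl | rfl
  · rw [rf_zero, tw_apply, tw_apply, show (0 : Fin 2) + 1 = 1 from rfl,
      show (1 : Fin 2) + 1 = 0 from rfl, reL_one, map_neg, tau_mul, tau_gdy, am_mul_neg, neg_neg,
      smul_mul_assoc]
  · rw [rf_one, tw_apply, tw_apply, show (0 : Fin 2) + 1 = 1 from rfl,
      show (1 : Fin 2) + 1 = 0 from rfl, reL_zero, tau_mul, tau_gx, smul_mul_assoc]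

theorem tw_rfL (z : Zc K) : tw K (rfL K z) = re K (tw K z) := by
  funext vp b m
  rcases two_cases vp with rfl | rfl
  · rw [re_zero, tw_apply, tw_apply, show (0 : Fin 2) + 1 = 1 from rfl,
      show (1 : Fin 2) + 1 = 0 from rfl, rfL_one, tau_mul, tau_gdx, am_mul_neg, smul_neg,
      smul_mul_assoc]
  · rw [re_one, tw_apply, tw_apply, show (0 : Fin 2) + 1 = 1 from rfl,
      show (1 : Fin 2) + 1 = 0 from rfl, rfL_zero, tau_mul, tau_gy, smul_mul_assoc]

variable [CharZero K]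

theorem tw_leT (z : Zc K) : tw K (leT K z) = -(lf K (tw K z)) := by
  funext vp b m
  rcases two_cases b with rfl | rfl
  · simp only [Pi.neg_apply, lf_zero', tw_apply]
    by_cases hm : 0 ≤ m.1 ∧ 0 ≤ m.2
    · show twc K m • tau (if 0 ≤ m.1 ∧ 0 ≤ m.2 then _ else _) = _
      rw [if_pos hm, if_pos rfl, twc_shift_two, map_zsmul, ← Int.cast_smul_eq_zsmul K, smul_smul]
      push_cast
      module
    · show twc K m • tau (if 0 ≤ m.1 ∧ 0 ≤ m.2 then _ else _) = _
      rw [if_neg hm, map_zero, smul_zero, twc_shift_two, twc_eq_zero hm]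
      simp
  · simp only [Pi.neg_apply, lf_one', tw_apply]
    have h := twc_shift_one (K := K) (m.1 + 1, m.2)
    simp only [add_sub_cancel_right] at h
    push_cast at h
    show twc K m • tau (if 0 ≤ m.1 ∧ 0 ≤ m.2 then _ else _) = _
    by_cases hm : 0 ≤ m.1 ∧ 0 ≤ m.2
    · rw [if_pos hm, if_neg (by decide), ← Int.cast_smul_eq_zsmul K, smul_smul,
        show twc K m = twc K (m.1, m.2) from rfl, h]
      push_cast
      module
    · rw [if_neg hm, map_zero, smul_zero, ← Int.cast_smul_eq_zsmul K, smul_smul]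
      push_cast
      rw [show ((m.1 : K) + 1) * twc K (m.1 + 1, m.2) = -twc K m by
        rw [show twc K m = twc K (m.1, m.2) from rfl, h]; ring, twc_eq_zero hm]
      simp

theorem tw_lfT (z : Zc K) : tw K (lfT K z) = -(le K (tw K z)) := by
  funext vp b m
  rcases two_cases b with rfl | rfl
  · simp only [Pi.neg_apply, le_zero', tw_apply]
    show twc K m • tau (if 0 ≤ m.1 ∧ 0 ≤ m.2 then _ else _) = _
    by_cases hm : 0 ≤ m.1 ∧ 0 ≤ m.2
    · rw [if_pos hm, if_pos rfl, twc_shift_one, map_zsmul, ← Int.cast_smul_eq_zsmul K, smul_smul]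
      module
    · rw [if_neg hm, map_zero, smul_zero, twc_shift_one, twc_eq_zero hm]
      simp
  · simp only [Pi.neg_apply, le_one', tw_apply]
    have h := twc_shift_two (K := K) (m.1, m.2 + 1)
    simp only [add_sub_cancel_right] at h
    push_cast at h
    show twc K m • tau (if 0 ≤ m.1 ∧ 0 ≤ m.2 then _ else _) = _
    by_cases hm : 0 ≤ m.1 ∧ 0 ≤ m.2
    · rw [if_pos hm, if_neg (by decide), ← Int.cast_smul_eq_zsmul K, smul_smul,
        show twc K m = twc K (m.1, m.2) from rfl, h]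
      push_cast
      module
    · rw [if_neg hm, map_zero, smul_zero, ← Int.cast_smul_eq_zsmul K, smul_smul]
      push_cast
      rw [show (-((m.2 : K) + 1)) * twc K (m.1, m.2 + 1) = -twc K m by
        rw [show twc K m = twc K (m.1, m.2) from rfl, h]; ring, twc_eq_zero hm]
      simp

theorem tw2_c1 (z : Zc K) : tw2 K (c1 K z) = d3 K (tw K z) := by
  simp only [c1, d3, tw2_apply, AddMonoidHom.prod_apply, AddMonoidHom.sub_apply,
    LinearMap.prod_apply, Function.prod, LinearMap.add_apply, LinearMap.neg_apply, map_sub,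
    tw_reL, tw_rfL, tw_leT, tw_lfT, sub_neg_eq_add]

theorem tw2_c2 (u : Zc K × Zc K) : tw2 K (c2 K u) = d2 K (tw2 K u) := by
  simp only [c2, d2, tw2_apply, AddMonoidHom.prod_apply, AddMonoidHom.coprod_apply,
    AddMonoidHom.sub_apply, AddMonoidHom.add_apply, AddMonoidHom.comp_apply, AddMonoidHom.id_apply,
    LinearMap.coprod_apply, LinearMap.prod_apply, Function.prod, LinearMap.add_apply,
    LinearMap.sub_apply, LinearMap.comp_apply, LinearMap.id_apply, map_add,
    map_sub, map_neg, tw_reL, tw_rfL, tw_leT, tw_lfT, le_rf, lf_re]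
  refine Prod.ext ?_ ?_ <;> dsimp only [Prod.fst_add, Prod.snd_add, Prod.fst_sub, Prod.snd_sub,
    Prod.fst_neg, Prod.snd_neg] <;> abel

theorem tw_c3 (u : Zc K × Zc K) : tw K (c3 K u) = d1 K (tw2 K u) := by
  simp only [c3, d1, tw2_apply, AddMonoidHom.coprod_apply, AddMonoidHom.add_apply,
    AddMonoidHom.neg_apply, LinearMap.coprod_apply, LinearMap.sub_apply, map_add, map_neg,
    tw_reL, tw_rfL, tw_leT, tw_lfT]
  abel

/-! Membership. -/

/-- elements of a column supported on the parity `σ` -/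
def ColP (σ : Fin 2) (v n e : ℤ) (z : Zc K) : Prop :=
  ∀ vp b m, z vp b m ≠ 0 → vp = b + σ ∧ Sup n b m ∧ InW K (ob vp + v) e (z vp b m)

/-- pairs -/
def ColP2 (σ : Fin 2) (v n e : ℤ) (z : Zc K × Zc K) : Prop :=
  ColP σ v n e z.1 ∧ ColP σ v n e z.2

variable {σ : Fin 2} {v w n e : ℤ} {z : Zc K}

omit [CharZero K] in
theorem ob_flip (vp : Fin 2) : ob (vp + 1) = -1 - ob vp := by
  rcases two_cases vp with rfl | rfl <;> simp [ob]

omit [CharZero K] in
theorem ColP.tw (h : ColP σ v n e z) : RowP (σ + 1) (v - 1) n e (P195.tw K z) := by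
  intro vp b m h0
  rw [tw_apply] at h0 ⊢
  have hz : z (vp + 1) b m ≠ 0 := fun hz => h0 (by rw [hz, map_zero, smul_zero])
  obtain ⟨h1, h2, h3⟩ := h _ b m hz
  refine ⟨?_, h2, inW_smul _ (inW_tau ?_)⟩
  · rw [← add_assoc, ← h1, fin2_add_two]
  · rw [ob_flip, show -1 - ob vp + v = v - 1 - ob vp by ring] at h3
    exact h3

omit [CharZero K] in
theorem RowP.tw' (h : RowP σ w n e z) : ColP (σ + 1) (w + 1) n e (P195.tw' K z) := by
  intro vp b m h0
  rw [tw'_apply] at h0 ⊢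
  have hz : z (vp + 1) b m ≠ 0 := fun hz => h0 (by rw [hz, map_zero, smul_zero])
  obtain ⟨h1, h2, h3⟩ := h _ b m hz
  refine ⟨?_, h2, inW_smul _ (inW_tau ?_)⟩
  · rw [← add_assoc, ← h1, fin2_add_two]
  · rw [ob_flip, show w - (-1 - ob vp) = ob vp + (w + 1) by ring] at h3
    exact h3

theorem tw_tw' (h : RowP σ w n e z) : P195.tw K (P195.tw' K z) = z := by
  funext vp b m
  rw [tw_apply, tw'_apply, tau_smul, fin2_add_two, tau_tau, smul_smul]
  by_cases hz : z vp b m = 0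
  · rw [hz, smul_zero]
  · obtain ⟨-, ⟨h1, h2, -⟩, -⟩ := h vp b m hz
    rw [twc_mul h1 h2, one_smul]

theorem tw'_tw (h : ColP σ v n e z) : P195.tw' K (P195.tw K z) = z := by
  funext vp b m
  rw [tw'_apply, tw_apply, tau_smul, fin2_add_two, tau_tau, smul_smul, mul_comm]
  by_cases hz : z vp b m = 0
  · rw [hz, smul_zero]
  · obtain ⟨-, ⟨h1, h2, -⟩, -⟩ := h vp b m hz
    rw [twc_mul h1 h2, one_smul]

theorem ColP.eq_of_tw {z' : Zc K} (h : ColP σ v n e z) {e' : ℤ} {σ' : Fin 2}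
    (h' : ColP σ' v n e' z') (he : P195.tw K z = P195.tw K z') : z = z' := by
  rw [← tw'_tw h, he, tw'_tw h']

variable (K) in
/-- rows to columns, on pairs -/
noncomputable def tw2' : Zc K × Zc K →+ Zc K × Zc K :=
  AddMonoidHom.prod ((tw' K).comp (AddMonoidHom.fst _ _))
    (-((tw' K).comp (AddMonoidHom.snd _ _)))

variable {u : Zc K × Zc K}

omit [CharZero K] in
theorem ColP2.tw2 (h : ColP2 σ v n e u) : RowP2 (σ + 1) (v - 1) n e (P195.tw2 K u) :=
  ⟨h.1.tw, h.2.tw.neg⟩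

omit [CharZero K] in
theorem ColP.neg (h : ColP σ v n e z) : ColP σ v n e (-z) := fun vp b m h0 => by
  have hz : z vp b m ≠ 0 := fun hz => h0 (by simp [hz])
  exact ⟨(h vp b m hz).1, (h vp b m hz).2.1, inW_neg (h vp b m hz).2.2⟩

omit [CharZero K] in
theorem RowP2.tw2' (h : RowP2 σ w n e u) : ColP2 (σ + 1) (w + 1) n e (P195.tw2' K u) :=
  ⟨h.1.tw', h.2.tw'.neg⟩

theorem tw2_tw2' (h : RowP2 σ w n e u) : P195.tw2 K (P195.tw2' K u) = u := by
  show (P195.tw K (P195.tw' K u.1), -(P195.tw K (-(P195.tw' K u.2)))) = u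
  rw [map_neg, neg_neg, tw_tw' h.1, tw_tw' h.2]

theorem ColP2.eq_of_tw2 {u' : Zc K × Zc K} (h : ColP2 σ v n e u) {e' : ℤ} {σ' : Fin 2}
    (h' : ColP2 σ' v n e' u') (he : P195.tw2 K u = P195.tw2 K u') : u = u' :=
  Prod.ext (h.1.eq_of_tw h'.1 (congrArg Prod.fst he))
    (h.2.eq_of_tw h'.2 (neg_injective (congrArg Prod.snd he)))

end Vale.Agent.P195
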