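import Mathlib

/-!
The ambient algebra: polynomials in `N₁, N₂` twisted by the shifts of `ℤ × ℤ`.
The monomial `single k p` stands for `p(N) z^k`; so `(p z^k)(q z^l) = p(N) q(N - k) z^(k+l)`.
The Weyl algebra is the span of the `p z^k` with `p` vanishing at `N_i = t` for `k_i ≤ t < 0`.
-/

namespace Vale.Agent.P195

open MvPolynomial

variable (K : Type) [Field K]

/-- the group of shifts -/
def Sh : Type := Multiplicative (ℤ × ℤ)

instance : CommGroup Sh := inferInstanceAs (CommGroup (Multiplicative (ℤ × ℤ)))
instance : DecidableEq Sh := inferInstanceAs (DecidableEq (Multiplicative (ℤ × ℤ)))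

/-- a shift from its two coordinates -/
def sh (a b : ℤ) : Sh := Multiplicative.ofAdd (a, b)
/-- the coordinates of a shift -/
def Sh.co (k : Sh) : Fin 2 → ℤ := ![(Multiplicative.toAdd k).1, (Multiplicative.toAdd k).2]

abbrev Pol := MvPolynomial (Fin 2) K

/-- translation of polynomials -/
noncomputable def trans (k : Sh) : Pol K →ₐ[K] Pol K := aeval fun i => X i - C ((k.co i : ℤ) : K)

theorem trans_one : trans K 1 = AlgHom.id K (Pol K) := by
  apply MvPolynomial.algHom_ext; intro i; simp [trans, show (1 : Sh).co i = 0 by fin_cases i <;> rfl]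

theorem trans_mul (k l : Sh) : trans K (k * l) = (trans K k).comp (trans K l) := by
  apply MvPolynomial.algHom_ext; intro i
  have h : (k * l).co i = k.co i + l.co i := by fin_cases i <;> rfl
  simp [trans, h]; ring

noncomputable instance : MulSemiringAction Sh (Pol K) where
  smul k p := trans K k p
  one_smul p := by show trans K 1 p = p; rw [trans_one]; rfl
  mul_smul k l p := by show trans K (k * l) p = _; rw [trans_mul]; rfl
  smul_zero k := map_zero (trans K k)
  smul_add k := map_add (trans K k)
  smul_one k := map_one (trans K k)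
  smul_mul k := map_mul (trans K k)

theorem smul_eq_trans (k : Sh) (p : Pol K) : k • p = trans K k p := rfl

instance : SMulCommClass Sh K (Pol K) :=
  ⟨fun k c p => by simp [smul_eq_trans, map_smul]⟩

abbrev Am := SkewMonoidAlgebra (Pol K) Sh

/-- `p z^k` -/
noncomputable abbrev mon (a b : ℤ) (p : Pol K) : Am K := SkewMonoidAlgebra.single (sh a b) p

/-- `x ↦ z₁`, `∂ₓ ↦ N₁`-lowering -/
noncomputable def gx : Am K := mon K 1 0 1
noncomputable def gy : Am K := mon K 0 1 1
noncomputable def gdx : Am K := mon K (-1) 0 (X 0 + 1)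
noncomputable def gdy : Am K := mon K 0 (-1) (X 1 + 1)

/-- homogeneous Weyl elements of weight `w` and degree at most `d` -/
def InW (w d : ℤ) (a : Am K) : Prop :=
  ∀ k : Sh, a.coeff k ≠ 0 →
    k.co 0 + k.co 1 = w ∧ w + 2 * ((a.coeff k).totalDegree : ℤ) ≤ d ∧
    ∀ (i : Fin 2) (t : ℤ), k.co i ≤ t → t < 0 →
      aeval (fun j => if j = i then C ((t : ℤ) : K) else X j) (a.coeff k) = 0

/-- the derivation `∂/∂N_i` on coefficients -/
noncomputable def D (i : Fin 2) (a : Am K) : Am K :=
  ⟨a.coeff.mapRange (pderiv i) (map_zero _)⟩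

/-- polynomials as polynomials in `N₂` with coefficients in `N₁` -/
noncomputable def polY : Pol K ≃ₐ[K] Polynomial (MvPolynomial (Fin 1) K) :=
  (renameEquiv K (Equiv.swap (0 : Fin 2) 1)).trans (finSuccEquiv K 1)

/-- the product of `(N₂ + t)`, `1 ≤ t ≤ n` -/
noncomputable def fall (n : ℕ) : Polynomial (MvPolynomial (Fin 1) K) :=
  ∏ t ∈ Finset.range n, (Polynomial.X + Polynomial.C (C ((t + 1 : ℕ) : K)))

/-- the part without negative powers of `y`: the multiple of the divisor closest to `p` -/
noncomputable def proj (k : Sh) (p : Pol K) : Pol K :=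
  (polY K).symm (fall K (-(k.co 1)).toNat * (polY K p /ₘ fall K (-(k.co 1)).toNat))

/-- the projection on the chart `x ≠ 0` -/
noncomputable def piX (a : Am K) : Am K :=
  a.coeff.sum fun k p => SkewMonoidAlgebra.single k (proj K k p)

/-- the two-cochain on matrices -/
noncomputable def hm {ι : Type} [Fintype ι] (s t : Matrix ι ι (Am K)) : Matrix ι ι (Am K) :=
  Matrix.of fun i j => piX K (∑ l, D K 0 (s i l) * D K 1 (t l j))

/-- its coboundary -/
noncomputable def thm3 {ι : Type} [Fintype ι] (a b c : Matrix ι ι (Am K)) : Matrix ι ι (Am K) :=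
  a * hm K b c - hm K (a * b) c + hm K a (b * c) - hm K a b * c

end Vale.Agent.P195
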