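import Vale.Agent.P195.Weyl

/-!
Closure properties of Weyl elements, and the three-cochain.

`Good i a` says that the coefficient of `z^k` vanishes on the hyperplanes `N_i = t`, `k_i ≤ t < 0`:
it is regular in the direction `i`.  The projection `piX` is regular in direction 1, and in weight
at least `-1` the remainder is regular in direction 0.
-/

namespace Vale.Agent.P195

open MvPolynomial

variable {K : Type} [Field K]

theorem Sh.co_mul (k l : Sh) (i : Fin 2) : (k * l).co i = k.co i + l.co i := by
  fin_cases i <;> rfl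

theorem Sh.co_one (i : Fin 2) : (1 : Sh).co i = 0 := by fin_cases i <;> rfl

theorem Sh.sh_co (k : Sh) : sh (k.co 0) (k.co 1) = k := rfl

/-! Polynomials. -/

/-- substitute `t` for `N_i` -/
noncomputable def sbs (i : Fin 2) (t : ℤ) : Pol K →ₐ[K] Pol K :=
  aeval (fun j => if j = i then C ((t : ℤ) : K) else X j)

theorem sbs_X (i j : Fin 2) (t : ℤ) :
    sbs (K := K) i t (X j) = if j = i then C ((t : ℤ) : K) else X j := aeval_X _ _

theorem trans_X (k : Sh) (j : Fin 2) :
    trans K k (X j) = X j - C ((k.co j : ℤ) : K) := aeval_X _ _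

theorem totalDegree_trans_le (k : Sh) (p : Pol K) :
    (trans K k p).totalDegree ≤ p.totalDegree := by
  conv_lhs => rw [p.as_sum, map_sum]
  refine (totalDegree_finsetSum _ _).trans (Finset.sup_le fun e he => ?_)
  have h1 : ∀ j, (X j - C ((k.co j : ℤ) : K) : Pol K).totalDegree ≤ 1 := fun j => by
    refine (totalDegree_sub _ _).trans ?_
    rw [totalDegree_X, totalDegree_C]
    simp
  refine le_trans ?_ (le_totalDegree he)
  rw [trans, aeval_monomial, algebraMap_eq]
  refine (totalDegree_mul _ _).trans ?_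
  rw [totalDegree_C, zero_add, Finsupp.prod]
  refine (totalDegree_finsetProd _ _).trans (Finset.sum_le_sum fun j _ => ?_)
  exact (totalDegree_pow _ _).trans (mul_le_of_le_one_right (Nat.zero_le _) (h1 j))

theorem totalDegree_pderiv_le (i : Fin 2) (p : Pol K) :
    (pderiv i p).totalDegree ≤ p.totalDegree := by
  conv_lhs => rw [p.as_sum, map_sum]
  refine (totalDegree_finsetSum _ _).trans (Finset.sup_le fun e he => ?_)
  rw [pderiv_monomial]
  refine (totalDegree_monomial_le _ _).trans (le_trans ?_ (le_totalDegree he))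
  rw [Finsupp.sum_fintype _ _ (fun _ => rfl), Finsupp.sum_fintype _ _ (fun _ => rfl)]
  exact Finset.sum_le_sum fun j _ => by simp [Finsupp.tsub_apply]

theorem pderiv_trans (i : Fin 2) (k : Sh) (p : Pol K) :
    pderiv i (trans K k p) = trans K k (pderiv i p) := by
  induction p using MvPolynomial.induction_on with
  | C a => simp [trans]
  | add p q hp hq => simp [hp, hq]
  | mul_X p j hp =>
    rw [map_mul, pderiv_mul, pderiv_mul, map_add, map_mul, map_mul, hp, trans_X]
    congr 1
    rw [map_sub, pderiv_C, sub_zero, pderiv_X]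
    by_cases h : j = i <;> simp [h]

theorem sbs_trans (k : Sh) (i : Fin 2) (t : ℤ) (p : Pol K) :
    sbs i t (trans K k p)
      = trans K k (sbs i (t - k.co i) p) := by
  suffices h : (sbs (K := K) i t).comp (trans K k)
      = (trans K k).comp (sbs i (t - k.co i)) from DFunLike.congr_fun h p
  apply MvPolynomial.algHom_ext
  intro j
  have c1 : ∀ x : K, sbs i t (C x) = C x := fun x => aeval_C _ _
  have c2 : ∀ x : K, trans K k (C x) = C x := fun x => aeval_C _ _
  rw [AlgHom.comp_apply, AlgHom.comp_apply, trans_X, map_sub, sbs_X, c1, sbs_X]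
  by_cases h : j = i
  · subst h
    rw [if_pos rfl, if_pos rfl, c2, ← map_sub, Int.cast_sub]
  · rw [if_neg h, if_neg h, trans_X]

/-! Regularity in one direction. -/

/-- regular coefficient -/
def GoodC (i : Fin 2) (k : Sh) (p : Pol K) : Prop :=
  ∀ t : ℤ, k.co i ≤ t → t < 0 → sbs i t p = 0

/-- regular element -/
def Good (i : Fin 2) (a : Am K) : Prop := ∀ k, GoodC i k (a.coeff k)

theorem GoodC.zero (i : Fin 2) (k : Sh) : GoodC i k (0 : Pol K) := fun _ _ _ => map_zero _

theorem GoodC.mul {i : Fin 2} {k l : Sh} {p q : Pol K} (hp : GoodC i k p) (hq : GoodC i l q) :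
    GoodC i (k * l) (p * trans K k q) := by
  intro t h1 h2
  rw [Sh.co_mul] at h1
  rw [map_mul]
  by_cases h : k.co i ≤ t
  · rw [hp t h h2, zero_mul]
  · rw [sbs_trans, hq (t - k.co i) (by omega) (by omega), map_zero, mul_zero]

theorem Good.zero (i : Fin 2) : Good i (0 : Am K) := fun k => by
  simpa using GoodC.zero i k

theorem Good.add {i : Fin 2} {a b : Am K} (ha : Good i a) (hb : Good i b) : Good i (a + b) := by
  intro k t h1 h2
  simp [ha k t h1 h2, hb k t h1 h2]

theorem Good.neg {i : Fin 2} {a : Am K} (ha : Good i a) : Good i (-a) := by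
  intro k t h1 h2
  simp [ha k t h1 h2]

theorem Good.sub {i : Fin 2} {a b : Am K} (ha : Good i a) (hb : Good i b) : Good i (a - b) := by
  rw [sub_eq_add_neg]; exact ha.add hb.neg

theorem Good.smul {i : Fin 2} {a : Am K} (c : K) (ha : Good i a) : Good i (c • a) := by
  intro k t h1 h2
  simp [map_smul, ha k t h1 h2]

theorem Good.sum {i : Fin 2} {σ : Type} (s : Finset σ) (f : σ → Am K)
    (h : ∀ x ∈ s, Good i (f x)) : Good i (∑ x ∈ s, f x) :=
  Finset.sum_induction f (Good i) (fun _ _ => Good.add) (Good.zero i) h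

theorem good_single {i : Fin 2} {k : Sh} {p : Pol K} (h : GoodC i k p) :
    Good i (SkewMonoidAlgebra.single k p) := by
  intro l
  rw [SkewMonoidAlgebra.coeff_single]
  by_cases hl : k = l
  · subst hl; simpa using h
  · simpa [Finsupp.single_eq_of_ne (Ne.symm hl)] using GoodC.zero i l

theorem Good.mul {i : Fin 2} {a b : Am K} (ha : Good i a) (hb : Good i b) : Good i (a * b) := by
  rw [SkewMonoidAlgebra.mul_def, SkewMonoidAlgebra.sum_def']
  refine Good.sum _ _ fun k _ => ?_
  rw [SkewMonoidAlgebra.sum_def']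
  refine Good.sum _ _ fun l _ => good_single ?_
  rw [smul_eq_trans]
  exact (ha k).mul (hb l)

/-! Weight and degree, without regularity. -/

/-- weight exactly `w`, degree at most `d` -/
def Gr (w d : ℤ) (a : Am K) : Prop :=
  ∀ k : Sh, a.coeff k ≠ 0 → k.co 0 + k.co 1 = w ∧ w + 2 * ((a.coeff k).totalDegree : ℤ) ≤ d

theorem inW_iff_good {w d : ℤ} {a : Am K} : InW K w d a ↔ Gr w d a ∧ Good 0 a ∧ Good 1 a := by
  constructor
  · intro h
    refine ⟨fun k hk => ⟨(h k hk).1, (h k hk).2.1⟩, ?_, ?_⟩
    all_goals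
      intro k t h1 h2
      by_cases hk : a.coeff k = 0
      · rw [hk, map_zero]
      · exact (h k hk).2.2 _ t h1 h2
  · rintro ⟨hg, h0, h1⟩ k hk
    refine ⟨(hg k hk).1, (hg k hk).2, fun i t hi ht => ?_⟩
    fin_cases i
    · exact h0 k t hi ht
    · exact h1 k t hi ht

theorem Gr.zero (w d : ℤ) : Gr w d (0 : Am K) := fun k h => absurd (by simp) h

theorem Gr.add {w d : ℤ} {a b : Am K} (ha : Gr w d a) (hb : Gr w d b) : Gr w d (a + b) := by
  intro k hk
  rw [SkewMonoidAlgebra.coeff_add, Finsupp.add_apply] at hk ⊢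
  by_cases h1 : a.coeff k = 0
  · rw [h1, zero_add] at hk ⊢; exact hb k hk
  by_cases h2 : b.coeff k = 0
  · rw [h2, add_zero] at hk ⊢; exact ha k hk
  obtain ⟨e1, d1⟩ := ha k h1
  obtain ⟨-, d2⟩ := hb k h2
  refine ⟨e1, ?_⟩
  have := totalDegree_add (a.coeff k) (b.coeff k)
  rcases le_max_iff.1 this with h | h <;> omega

theorem Gr.neg {w d : ℤ} {a : Am K} (ha : Gr w d a) : Gr w d (-a) := by
  intro k hk
  simp only [SkewMonoidAlgebra.coeff_neg, Finsupp.neg_apply, ne_eq, neg_eq_zero] at hk
  simpa using ha k hk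

theorem Gr.sub {w d : ℤ} {a b : Am K} (ha : Gr w d a) (hb : Gr w d b) : Gr w d (a - b) := by
  rw [sub_eq_add_neg]; exact ha.add hb.neg

theorem Gr.sum {w d : ℤ} {σ : Type} (s : Finset σ) (f : σ → Am K)
    (h : ∀ x ∈ s, Gr w d (f x)) : Gr w d (∑ x ∈ s, f x) :=
  Finset.sum_induction f (Gr w d) (fun _ _ => Gr.add) (Gr.zero w d) h

theorem Gr.mul {w w' d d' : ℤ} {a b : Am K} (ha : Gr w d a) (hb : Gr w' d' b) :
    Gr (w + w') (d + d') (a * b) := by
  rw [SkewMonoidAlgebra.mul_def, SkewMonoidAlgebra.sum_def']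
  refine Gr.sum _ _ fun k hk => ?_
  rw [SkewMonoidAlgebra.sum_def']
  refine Gr.sum _ _ fun l hl => ?_
  obtain ⟨e1, d1⟩ := ha k (Finsupp.mem_support_iff.1 hk)
  obtain ⟨e2, d2⟩ := hb l (Finsupp.mem_support_iff.1 hl)
  intro m hm
  rw [SkewMonoidAlgebra.coeff_single] at hm ⊢
  by_cases hkl : k * l = m
  · subst hkl
    rw [Finsupp.single_eq_same] at hm ⊢
    rw [Sh.co_mul, Sh.co_mul]
    refine ⟨by omega, ?_⟩
    have h3 := totalDegree_mul (a.coeff k) (k • b.coeff l)
    have h4 := totalDegree_trans_le k (b.coeff l)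
    rw [smul_eq_trans] at h3 ⊢
    omega
  · simp [Finsupp.single_eq_of_ne (Ne.symm hkl)] at hm

/-! Closure properties. -/

theorem InW.zero (w d : ℤ) : InW K w d 0 := inW_iff_good.2 ⟨Gr.zero w d, Good.zero 0, Good.zero 1⟩

theorem InW.one : InW K 0 0 1 := by
  intro k hk
  rw [SkewMonoidAlgebra.coeff_one] at hk ⊢
  by_cases h : k = 1
  · subst h
    refine ⟨by simp [Sh.co_one], by simp, fun i t h1 h2 => ?_⟩
    rw [Sh.co_one] at h1
    omega
  · simp [Finsupp.single_eq_of_ne h] at hk

theorem InW.add {w d : ℤ} {a b : Am K} (ha : InW K w d a) (hb : InW K w d b) :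
    InW K w d (a + b) := by
  rw [inW_iff_good] at *
  exact ⟨ha.1.add hb.1, ha.2.1.add hb.2.1, ha.2.2.add hb.2.2⟩

theorem InW.sum {w d : ℤ} {σ : Type} (s : Finset σ) (f : σ → Am K)
    (h : ∀ x ∈ s, InW K w d (f x)) : InW K w d (∑ x ∈ s, f x) :=
  Finset.sum_induction f (InW K w d) (fun _ _ => InW.add) (InW.zero w d) h

theorem InW.smul {w d : ℤ} (c : K) {a : Am K} (ha : InW K w d a) : InW K w d (c • a) := by
  rw [inW_iff_good] at *
  refine ⟨fun k hk => ?_, ha.2.1.smul c, ha.2.2.smul c⟩
  rw [SkewMonoidAlgebra.coeff_smul, Finsupp.smul_apply] at hk ⊢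
  obtain ⟨e, h⟩ := ha.1 k (fun h0 => hk (by rw [h0, smul_zero]))
  refine ⟨e, ?_⟩
  have := totalDegree_smul_le c (a.coeff k)
  omega

theorem InW.mono {w d d' : ℤ} {a : Am K} (ha : InW K w d a) (h : d ≤ d') : InW K w d' a :=
  fun k hk => ⟨(ha k hk).1, (ha k hk).2.1.trans h, (ha k hk).2.2⟩

theorem InW.mul {w w' d d' : ℤ} {a b : Am K} (ha : InW K w d a) (hb : InW K w' d' b) :
    InW K (w + w') (d + d') (a * b) := by
  rw [inW_iff_good] at *
  exact ⟨ha.1.mul hb.1, ha.2.1.mul hb.2.1, ha.2.2.mul hb.2.2⟩

/-! The derivations and the projection. -/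

theorem D_coeff (i : Fin 2) (a : Am K) (k : Sh) : (D K i a).coeff k = pderiv i (a.coeff k) := by
  simp [D]

theorem D_zero (i : Fin 2) : D K i (0 : Am K) = 0 := by
  ext1 k; simp [D_coeff]

theorem D_add (i : Fin 2) (a b : Am K) : D K i (a + b) = D K i a + D K i b := by
  ext1 k; simp [D_coeff]

theorem D_smul (i : Fin 2) (c : K) (a : Am K) : D K i (c • a) = c • D K i a := by
  ext1 k; simp [D_coeff, map_smul]

theorem D_sum (i : Fin 2) {σ : Type} (s : Finset σ) (f : σ → Am K) :
    D K i (∑ x ∈ s, f x) = ∑ x ∈ s, D K i (f x) :=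
  map_sum (AddMonoidHom.mk' (D K i) (D_add i)) f s

theorem D_single (i : Fin 2) (k : Sh) (p : Pol K) :
    D K i (SkewMonoidAlgebra.single k p) = SkewMonoidAlgebra.single k (pderiv i p) := by
  classical
  ext1 l
  rw [D_coeff, SkewMonoidAlgebra.coeff_single, SkewMonoidAlgebra.coeff_single]
  by_cases h : k = l
  · subst h; simp
  · simp [Finsupp.single_eq_of_ne (Ne.symm h)]

theorem D_algebraMap (i : Fin 2) (r : K) : D K i (algebraMap K (Am K) r) = 0 := by
  rw [SkewMonoidAlgebra.coe_algebraMap, Function.comp_apply, D_single]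
  simp

theorem D_one (i : Fin 2) : D K i (1 : Am K) = 0 := by
  rw [← map_one (algebraMap K (Am K)), D_algebraMap]

theorem D_mul (i : Fin 2) (a b : Am K) : D K i (a * b) = D K i a * b + a * D K i b := by
  induction a using SkewMonoidAlgebra.induction_on with
  | zero => simp [D_zero]
  | add a a' ha ha' => simp only [add_mul, D_add, ha, ha']; abel
  | single k p =>
    induction b using SkewMonoidAlgebra.induction_on with
    | zero => simp [D_zero]
    | add b b' hb hb' => simp only [mul_add, D_add, hb, hb']; abel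
    | single l q =>
      simp only [SkewMonoidAlgebra.single_mul_single, D_single, smul_eq_trans]
      rw [pderiv_mul, pderiv_trans, SkewMonoidAlgebra.single_add]

theorem Gr.D {w d : ℤ} {a : Am K} (ha : Gr w d a) (i : Fin 2) : Gr w d (D K i a) := by
  intro k hk
  rw [D_coeff] at hk ⊢
  obtain ⟨e, h⟩ := ha k (fun h0 => hk (by rw [h0, map_zero]))
  have := totalDegree_pderiv_le i (a.coeff k)
  exact ⟨e, by omega⟩

/-- the divisor over the ground field -/
noncomputable def fallK (n : ℕ) : Polynomial K :=
  ∏ t ∈ Finset.range n, (Polynomial.X + Polynomial.C ((t + 1 : ℕ) : K))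

theorem fallK_monic (n : ℕ) : (fallK (K := K) n).Monic :=
  Polynomial.monic_prod_of_monic _ _ fun _ _ => Polynomial.monic_X_add_C _

theorem fall_eq_map (n : ℕ) :
    fall K n = (fallK (K := K) n).map (C : K →+* MvPolynomial (Fin 1) K) := by
  simp [fall, fallK, Polynomial.map_prod]

theorem fall_monic (n : ℕ) : (fall K n).Monic := by
  rw [fall_eq_map]; exact (fallK_monic n).map _

/-- the remainder of the projection, as a linear map -/
noncomputable def rem (n : ℕ) : Pol K →ₗ[K] Pol K :=
  (polY K).symm.toLinearMap ∘ₗ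
    ((Polynomial.modByMonicHom (fall K n)).restrictScalars K) ∘ₗ (polY K).toLinearMap

theorem proj_eq (k : Sh) (p : Pol K) : proj K k p = p - rem (-(k.co 1)).toNat p := by
  set f := fall K (-(k.co 1)).toNat with hf
  have h : f * (polY K p /ₘ f) = polY K p - polY K p %ₘ f :=
    eq_sub_of_add_eq' (Polynomial.modByMonic_add_div (polY K p) f)
  rw [proj, ← hf, h, map_sub, AlgEquiv.symm_apply_apply]
  rfl

theorem polY_X_zero : polY K (X 0) = Polynomial.C (X 0) := by
  have h : Equiv.swap (0 : Fin 2) 1 0 = Fin.succ 0 := rfl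
  rw [polY, AlgEquiv.trans_apply, renameEquiv_apply, rename_X, h]
  exact finSuccEquiv_X_succ

theorem polY_X_one : polY K (X 1) = Polynomial.X := by
  simp [polY, renameEquiv_apply, finSuccEquiv_X_zero]

theorem polY_C (c : K) : polY K (C c) = Polynomial.C (C c) := by
  simp [polY, renameEquiv_apply, finSuccEquiv_apply]

theorem polY_aeval_one (g : Polynomial K) :
    polY K (Polynomial.aeval (X 1) g) = g.map (C : K →+* MvPolynomial (Fin 1) K) := by
  induction g using Polynomial.induction_on' with
  | add g g' h h' => simp [h, h']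
  | monomial m c =>
    simp [Polynomial.aeval_monomial, polY_X_one, polY_C,
      ← Polynomial.C_mul_X_pow_eq_monomial]

theorem totalDegree_aeval_one_le (g : Polynomial K) :
    (Polynomial.aeval (X 1 : Pol K) g).totalDegree ≤ g.natDegree := by
  rw [Polynomial.aeval_eq_sum_range]
  refine (totalDegree_finsetSum _ _).trans (Finset.sup_le fun m hm => ?_)
  refine (totalDegree_smul_le _ _).trans ?_
  rw [totalDegree_X_pow]
  have := Finset.mem_range.1 hm
  omega

theorem totalDegree_rem_le (n : ℕ) (p : Pol K) : (rem n p).totalDegree ≤ p.totalDegree := by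
  conv_lhs => rw [p.as_sum, map_sum]
  refine (totalDegree_finsetSum _ _).trans (Finset.sup_le fun e he => ?_)
  refine le_trans ?_ (le_totalDegree he)
  set c := p.coeff e
  have hm : (monomial e c : Pol K) = C c * X 0 ^ e 0 * X 1 ^ e 1 := by
    rw [monomial_eq, Finsupp.prod_fintype _ _ (fun j => by simp), Fin.prod_univ_two, mul_assoc]
  set g : Polynomial K := Polynomial.X ^ e 1 %ₘ fallK n with hg
  have hr : rem n (monomial e c) = C c * X 0 ^ e 0 * Polynomial.aeval (X 1) g := by
    apply (polY K).injective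
    rw [hm]
    simp only [rem, LinearMap.coe_comp, Function.comp_apply, AlgEquiv.toLinearMap_apply,
      LinearMap.coe_restrictScalars, AlgEquiv.apply_symm_apply, map_mul, map_pow, polY_X_zero,
      polY_X_one, polY_C, polY_aeval_one]
    rw [← Polynomial.C_pow, ← Polynomial.C_mul, ← Polynomial.smul_eq_C_mul, map_smul,
      Polynomial.modByMonicHom_apply, Polynomial.smul_eq_C_mul, hg,
      Polynomial.map_modByMonic _ (fallK_monic n), ← fall_eq_map, Polynomial.map_pow,
      Polynomial.map_X]
  have h1 : g.natDegree ≤ e 1 := by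
    refine (Polynomial.natDegree_modByMonic_le_left).trans ?_
    simp
  rw [hr]
  refine (totalDegree_mul _ _).trans ?_
  have h2 := totalDegree_aeval_one_le g
  have h3 : (C c * X 0 ^ e 0 : Pol K).totalDegree ≤ e 0 := by
    refine (totalDegree_mul _ _).trans ?_
    simp
  rw [Finsupp.sum_fintype _ _ (fun _ => rfl), Fin.sum_univ_two]
  omega

theorem totalDegree_proj_le (k : Sh) (p : Pol K) :
    (proj K k p).totalDegree ≤ p.totalDegree := by
  rw [proj_eq]
  exact (totalDegree_sub _ _).trans (max_le le_rfl (totalDegree_rem_le _ _))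

theorem proj_zero (k : Sh) : proj K k (0 : Pol K) = 0 := by simp [proj_eq]

theorem proj_add (k : Sh) (p q : Pol K) : proj K k (p + q) = proj K k p + proj K k q := by
  simp only [proj_eq, map_add]; abel

theorem proj_smul (k : Sh) (c : K) (p : Pol K) : proj K k (c • p) = c • proj K k p := by
  simp only [proj_eq, map_smul, smul_sub]

theorem proj_of_nonneg (k : Sh) (h : 0 ≤ k.co 1) (p : Pol K) : proj K k p = p := by
  rw [proj_eq, show (-(k.co 1)).toNat = 0 by omega]
  simp [rem, fall]

theorem goodC_proj (k : Sh) (p : Pol K) : GoodC 1 k (proj K k p) := by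
  intro t h1 h2
  set n := (-(k.co 1)).toNat with hn
  set u : Polynomial (MvPolynomial (Fin 1) K) := polY K p /ₘ fall K n
  have hproj : proj K k p = (polY K).symm (fall K n) * (polY K).symm u := by
    rw [proj, ← hn, map_mul]
  have hf : (polY K).symm (fall K n) = Polynomial.aeval (X 1) (fallK (K := K) n) := by
    rw [AlgEquiv.symm_apply_eq, polY_aeval_one, fall_eq_map]
  rw [hproj, map_mul, hf, ← Polynomial.aeval_algHom_apply, sbs_X, if_pos rfl]
  have h0 : Polynomial.aeval (C ((t : ℤ) : K) : Pol K) (fallK (K := K) n) = 0 := by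
    rw [fallK, map_prod]
    refine Finset.prod_eq_zero (i := (-t).toNat - 1) (by simp only [Finset.mem_range]; omega) ?_
    have hz : (((-t).toNat - 1 + 1 : ℕ) : K) = -((t : ℤ) : K) := by
      rw [show (-t).toNat - 1 + 1 = (-t).toNat by omega, ← Int.cast_natCast,
        Int.toNat_of_nonneg (by omega), Int.cast_neg]
    rw [map_add, Polynomial.aeval_X, Polynomial.aeval_C, hz, algebraMap_eq, map_neg, add_neg_cancel]
  rw [h0, zero_mul]

theorem piX_zero : piX K (0 : Am K) = 0 := by simp [piX]

theorem piX_add (a b : Am K) : piX K (a + b) = piX K a + piX K b := by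
  simp only [piX, SkewMonoidAlgebra.coeff_add]
  rw [Finsupp.sum_add_index']
  · intro k; simp [proj_zero]
  · intro k p q; simp [proj_add, SkewMonoidAlgebra.single_add]

theorem piX_sum {σ : Type} (s : Finset σ) (f : σ → Am K) :
    piX K (∑ x ∈ s, f x) = ∑ x ∈ s, piX K (f x) :=
  map_sum (AddMonoidHom.mk' (piX K) piX_add) f s

theorem piX_single (k : Sh) (p : Pol K) :
    piX K (SkewMonoidAlgebra.single k p) = SkewMonoidAlgebra.single k (proj K k p) := by
  rw [piX, SkewMonoidAlgebra.coeff_single, Finsupp.sum_single_index]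
  simp [proj_zero]

theorem piX_coeff (a : Am K) (k : Sh) : (piX K a).coeff k = proj K k (a.coeff k) := by
  classical
  induction a using SkewMonoidAlgebra.induction_on with
  | zero => simp [piX_zero, proj_zero]
  | add a b ha hb => simp [piX_add, proj_add, ha, hb]
  | single l p =>
    rw [piX_single, SkewMonoidAlgebra.coeff_single, SkewMonoidAlgebra.coeff_single]
    by_cases h : l = k
    · subst h; simp
    · simp [Finsupp.single_eq_of_ne (Ne.symm h), proj_zero]

theorem piX_smul (c : K) (a : Am K) : piX K (c • a) = c • piX K a := by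
  ext1 k; simp [piX_coeff, proj_smul]

theorem good_piX (a : Am K) : Good 1 (piX K a) := fun k => by
  rw [piX_coeff]; exact goodC_proj k _

theorem Gr.piX {w d : ℤ} {a : Am K} (ha : Gr w d a) : Gr w d (piX K a) := by
  intro k hk
  rw [piX_coeff] at hk ⊢
  obtain ⟨e, h⟩ := ha k (fun h0 => hk (by rw [h0, proj_zero]))
  have := totalDegree_proj_le k (a.coeff k)
  exact ⟨e, by omega⟩

/-- in weight at least `-1` the remainder of the projection is regular in the other direction -/
theorem good_remainder {w d : ℤ} {a : Am K} (ha : Gr w d a) (hw : -1 ≤ w) :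
    Good 0 (a - piX K a) := by
  intro k t h1 h2
  by_cases hk : a.coeff k = 0
  · simp [piX_coeff, hk, proj_zero]
  have e := (ha k hk).1
  simp [piX_coeff, proj_of_nonneg k (by omega)]

/-- Weyl elements of given weight and degree form a finite-dimensional space. -/
theorem InW.finite [CharZero K] (w d : ℤ) :
    ∃ S : Submodule K (Am K), Module.Finite K S ∧ ∀ a, InW K w d a → a ∈ S := by
  classical
  set N : ℕ := ((d - w) / 2).toNat
  set I : Finset Sh := (Finset.Icc (-(N : ℤ)) (w + N)).image fun x => sh x (w - x)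
  let S : Submodule K (Am K) := ⨆ k ∈ I,
    (restrictTotalDegree (Fin 2) K N).map
      ({ toFun := SkewMonoidAlgebra.single k
         map_add' := fun p q => SkewMonoidAlgebra.single_add k p q
         map_smul' := fun c p => (SkewMonoidAlgebra.smul_single c k p).symm } :
        Pol K →ₗ[K] Am K)
  have hfin : ∀ k : Sh, Module.Finite K ↥((restrictTotalDegree (Fin 2) K N).map
      ({ toFun := SkewMonoidAlgebra.single k
         map_add' := fun p q => SkewMonoidAlgebra.single_add k p q
         map_smul' := fun c p => (SkewMonoidAlgebra.smul_single c k p).symm } :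
        Pol K →ₗ[K] Am K)) := fun k => by
    haveI : Module.Finite K ↥(restrictTotalDegree (Fin 2) K N) := by
      refine Module.Finite.iff_fg.2 ⟨((Finset.range (N + 1)) ×ˢ (Finset.range (N + 1))).image
        (fun ab => (X 0 ^ ab.1 * X 1 ^ ab.2 : Pol K)) |>.filter
          (fun q => q.totalDegree ≤ N), le_antisymm ?_ ?_⟩
      · rw [Submodule.span_le]
        intro q hq
        simp only [Finset.coe_filter, Set.mem_setOf_eq] at hq
        exact (mem_restrictTotalDegree _ _ _).2 hq.2
      · intro q hq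
        rw [q.as_sum]
        refine Submodule.sum_mem _ fun e he => ?_
        have h1 := (le_totalDegree he).trans ((mem_restrictTotalDegree _ _ _).1 hq)
        rw [Finsupp.sum_fintype _ _ (fun _ => rfl), Fin.sum_univ_two] at h1
        have hm : (monomial e (q.coeff e) : Pol K)
            = (q.coeff e) • (X 0 ^ e 0 * X 1 ^ e 1) := by
          rw [monomial_eq, Finsupp.prod_fintype _ _ (fun j => by simp), Fin.prod_univ_two,
            smul_eq_C_mul]
        rw [hm]
        refine Submodule.smul_mem _ _ (Submodule.subset_span ?_)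
        simp only [Finset.coe_filter, Set.mem_setOf_eq, Finset.mem_image, Finset.mem_product,
          Finset.mem_range]
        refine ⟨⟨(e 0, e 1), ⟨by omega, by omega⟩, rfl⟩, ?_⟩
        refine (totalDegree_mul _ _).trans ?_
        simpa using h1
    infer_instance
  refine ⟨S, ?_, fun a ha => ?_⟩
  · haveI := hfin
    exact Module.Finite.iff_fg.2 (Submodule.fg_biSup _ _ fun k _ => Module.Finite.iff_fg.1 (hfin k))
  have key : ∀ (i : Fin 2) (k : Sh), a.coeff k ≠ 0 → -(N : ℤ) ≤ k.co i := by
    intro i k hk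
    obtain ⟨-, hdeg, hv⟩ := ha k hk
    by_contra hc
    let e : Pol K ≃ₐ[K] Polynomial (MvPolynomial (Fin 1) K) :=
      (renameEquiv K (Equiv.swap (0 : Fin 2) i)).trans (finSuccEquiv K 1)
    set P := e (a.coeff k)
    have hP : P ≠ 0 := by simpa [P] using hk
    have hdP : P.natDegree ≤ (a.coeff k).totalDegree := by
      simp only [P, e, AlgEquiv.trans_apply, renameEquiv_apply]
      rw [natDegree_finSuccEquiv]
      refine (degreeOf_le_totalDegree _ _).trans ?_
      exact totalDegree_rename_le _ _
    set s : Finset (MvPolynomial (Fin 1) K) :=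
      (Finset.Ico (k.co i) 0).image fun t : ℤ => C ((t : ℤ) : K) with hs
    have hroots : ∀ x ∈ s, P.IsRoot x := by
      intro x hx
      obtain ⟨t, ht, rfl⟩ := Finset.mem_image.1 hx
      obtain ⟨h1, h2⟩ := Finset.mem_Ico.1 ht
      have he : ∀ j, e (X j) = if j = i then Polynomial.X else Polynomial.C (X 0) := by
        intro j
        simp only [e, AlgEquiv.trans_apply, renameEquiv_apply, rename_X]
        by_cases hji : j = i
        · subst hji
          rw [Equiv.swap_apply_right, if_pos rfl]
          exact finSuccEquiv_X_zero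
        · rw [if_neg hji, (show ∀ a b : Fin 2, ¬ a = b → Equiv.swap (0 : Fin 2) b a = Fin.succ 0 by
            decide) j i hji]
          exact finSuccEquiv_X_succ
      have hcomp : ((Polynomial.aeval (C ((t : ℤ) : K) : MvPolynomial (Fin 1) K)).restrictScalars K).comp
          (e : Pol K →ₐ[K] Polynomial (MvPolynomial (Fin 1) K))
          = (aeval (fun j => if j = i then C ((t : ℤ) : K) else X 0) :
              Pol K →ₐ[K] MvPolynomial (Fin 1) K).comp (sbs i t) := by
        apply MvPolynomial.algHom_ext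
        intro j
        simp only [AlgHom.comp_apply, AlgHom.coe_restrictScalars', AlgEquiv.coe_toAlgHom, he, sbs_X]
        by_cases hji : j = i
        · simp [hji]
        · simp [hji]
      have := DFunLike.congr_fun hcomp (a.coeff k)
      simp only [AlgHom.comp_apply, AlgHom.coe_restrictScalars', AlgEquiv.coe_toAlgHom] at this
      have hz : sbs i t (a.coeff k) = 0 := hv i t h1 h2
      rw [hz, map_zero] at this
      simpa [Polynomial.IsRoot, P] using this
    have hcard : s.card = (Finset.Ico (k.co i) 0).card :=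
      Finset.card_image_of_injective _ ((C_injective (Fin 1) K).comp Int.cast_injective)
    have := Polynomial.card_le_degree_of_subset_roots (p := P) (Z := s)
      (fun x hx => (Polynomial.mem_roots hP).2 (hroots x hx))
    rw [hcard, Int.card_Ico] at this
    omega
  rw [← SkewMonoidAlgebra.sum_single a, SkewMonoidAlgebra.sum_def']
  refine Submodule.sum_mem _ fun k hk => ?_
  have hk' : a.coeff k ≠ 0 := Finsupp.mem_support_iff.1 hk
  obtain ⟨hw, hdeg, -⟩ := ha k hk'
  have hkI : k ∈ I := by
    refine Finset.mem_image.2 ⟨k.co 0, Finset.mem_Icc.2 ⟨key 0 k hk', ?_⟩, ?_⟩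
    · have := key 1 k hk'; omega
    · rw [show w - k.co 0 = k.co 1 by omega, Sh.sh_co]
  refine Submodule.mem_iSup_of_mem k (Submodule.mem_iSup_of_mem hkI ?_)
  exact Submodule.mem_map.2 ⟨a.coeff k, (mem_restrictTotalDegree _ _ _).2 (by omega), rfl⟩

/-! The cochain on matrices. -/

variable {ι : Type} [Fintype ι]

theorem hm_apply (s t : Matrix ι ι (Am K)) (i j : ι) :
    hm K s t i j = piX K (∑ l, D K 0 (s i l) * D K 1 (t l j)) := rfl

theorem hm_add_left (s s' t : Matrix ι ι (Am K)) : hm K (s + s') t = hm K s t + hm K s' t := by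
  ext1 i j; simp [hm_apply, D_add, add_mul, Finset.sum_add_distrib, piX_add]

theorem hm_add_right (s t t' : Matrix ι ι (Am K)) : hm K s (t + t') = hm K s t + hm K s t' := by
  ext1 i j; simp [hm_apply, D_add, mul_add, Finset.sum_add_distrib, piX_add]

theorem hm_smul_left (r : K) (s t : Matrix ι ι (Am K)) : hm K (r • s) t = r • hm K s t := by
  ext1 i j; simp [hm_apply, D_smul, smul_mul_assoc, ← Finset.smul_sum, piX_smul]

theorem hm_smul_right (r : K) (s t : Matrix ι ι (Am K)) : hm K s (r • t) = r • hm K s t := by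
  ext1 i j; simp [hm_apply, D_smul, mul_smul_comm, ← Finset.smul_sum, piX_smul]

theorem hm_one_left [DecidableEq ι] (t : Matrix ι ι (Am K)) : hm K 1 t = 0 := by
  ext1 i j
  have h : ∀ l, D K 0 ((1 : Matrix ι ι (Am K)) i l) = 0 := fun l => by
    by_cases h : i = l <;> simp [Matrix.one_apply, h, D_zero, D_one]
  simp [hm_apply, h, piX_zero]

theorem hm_one_right [DecidableEq ι] (s : Matrix ι ι (Am K)) : hm K s 1 = 0 := by
  ext1 i j
  have h : ∀ l, D K 1 ((1 : Matrix ι ι (Am K)) l j) = 0 := fun l => by
    by_cases h : l = j <;> simp [Matrix.one_apply, h, D_zero, D_one]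
  simp [hm_apply, h, piX_zero]

/-- the cocycle identity -/
theorem thm3_closed (a b c d : Matrix ι ι (Am K)) :
    a * thm3 K b c d - thm3 K (a * b) c d + thm3 K a (b * c) d - thm3 K a b (c * d)
      + thm3 K a b c * d = 0 := by
  simp only [thm3, mul_sub, mul_add, sub_mul, add_mul, Matrix.mul_assoc]
  abel

theorem thm3_one_left [DecidableEq ι] (b c : Matrix ι ι (Am K)) : thm3 K 1 b c = 0 := by
  simp [thm3, hm_one_left]

theorem thm3_one_mid [DecidableEq ι] (a c : Matrix ι ι (Am K)) : thm3 K a 1 c = 0 := by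
  simp [thm3, hm_one_left, hm_one_right]

theorem thm3_one_right [DecidableEq ι] (a b : Matrix ι ι (Am K)) : thm3 K a b 1 = 0 := by
  simp [thm3, hm_one_right]

theorem thm3_add_left (a a' b c : Matrix ι ι (Am K)) :
    thm3 K (a + a') b c = thm3 K a b c + thm3 K a' b c := by
  simp only [thm3, add_mul, hm_add_left]; abel

theorem thm3_add_mid (a b b' c : Matrix ι ι (Am K)) :
    thm3 K a (b + b') c = thm3 K a b c + thm3 K a b' c := by
  simp only [thm3, mul_add, add_mul, hm_add_left, hm_add_right]; abel

theorem thm3_add_right (a b c c' : Matrix ι ι (Am K)) :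
    thm3 K a b (c + c') = thm3 K a b c + thm3 K a b c' := by
  simp only [thm3, mul_add, hm_add_right]; abel

theorem thm3_smul_left (r : K) (a b c : Matrix ι ι (Am K)) :
    thm3 K (r • a) b c = r • thm3 K a b c := by
  simp only [thm3, smul_mul_assoc, hm_smul_left, smul_sub, smul_add]

theorem thm3_smul_mid (r : K) (a b c : Matrix ι ι (Am K)) :
    thm3 K a (r • b) c = r • thm3 K a b c := by
  simp only [thm3, mul_smul_comm, smul_mul_assoc, hm_smul_left, hm_smul_right, smul_sub,
    smul_add]

theorem thm3_smul_right (r : K) (a b c : Matrix ι ι (Am K)) :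
    thm3 K a b (r • c) = r • thm3 K a b c := by
  simp only [thm3, mul_smul_comm, hm_smul_right, smul_sub, smul_add]

/-- the three-cochain on single entries -/
noncomputable def th (a b c : Am K) : Am K :=
  a * piX K (D K 0 b * D K 1 c) - piX K (D K 0 (a * b) * D K 1 c)
    + piX K (D K 0 a * D K 1 (b * c)) - piX K (D K 0 a * D K 1 b) * c

theorem thm3_apply (a b c : Matrix ι ι (Am K)) (i j : ι) :
    thm3 K a b c i j = ∑ l, ∑ m, th (a i l) (b l m) (c m j) := by
  simp only [thm3, Matrix.sub_apply, Matrix.add_apply, Matrix.mul_apply, hm_apply, piX_sum,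
    D_sum, Finset.sum_mul, Finset.mul_sum, th, Finset.sum_sub_distrib, Finset.sum_add_distrib]
  rw [Finset.sum_comm (γ := ι) (f := fun l m => piX K (D K 0 (a i m * b m l) * D K 1 (c l j))),
    Finset.sum_comm (γ := ι) (f := fun l m => piX K (D K 0 (a i m) * D K 1 (b m l)) * c l j)]

/-- Weyl elements are closed under the cochain as long as every two-step weight is at least `-1` -/
theorem thm3_scalar [CharZero K] {wa wb wc da db dc : ℤ} {a b c : Am K} (ha : InW K wa da a)
    (hb : InW K wb db b) (hc : InW K wc dc c) (h1 : -1 ≤ wa + wb) (h2 : -1 ≤ wb + wc)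
    (h3 : -1 ≤ wa + wb + wc) :
    InW K (wa + wb + wc) (da + db + dc)
      (a * piX K (D K 0 b * D K 1 c) - piX K (D K 0 (a * b) * D K 1 c)
        + piX K (D K 0 a * D K 1 (b * c)) - piX K (D K 0 a * D K 1 b) * c) := by
  rw [inW_iff_good] at *
  set u := D K 0 b * D K 1 c with hu
  set v := D K 0 (a * b) * D K 1 c with hv
  set x := D K 0 a * D K 1 (b * c) with hx
  set y := D K 0 a * D K 1 b with hy
  have gu : Gr (wb + wc) (db + dc) u := (hb.1.D 0).mul (hc.1.D 1)
  have gv : Gr (wa + wb + wc) (da + db + dc) v := ((ha.1.mul hb.1).D 0).mul (hc.1.D 1)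
  have gx : Gr (wa + wb + wc) (da + db + dc) x := by
    rw [add_assoc wa, add_assoc da]; exact (ha.1.D 0).mul ((hb.1.mul hc.1).D 1)
  have gy : Gr (wa + wb) (da + db) y := (ha.1.D 0).mul (hb.1.D 1)
  refine ⟨?_, ?_, ?_⟩
  · have g1 : Gr (wa + wb + wc) (da + db + dc) (a * piX K u) := by
      rw [add_assoc wa, add_assoc da]; exact ha.1.mul gu.piX
    exact ((g1.sub gv.piX).add gx.piX).sub (gy.piX.mul hc.1)
  · have hcocycle : a * u - v + x - y * c = 0 := by
      simp only [hu, hv, hx, hy, D_mul, add_mul, mul_add, mul_assoc]; abel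
    have key : a * piX K u - piX K v + piX K x - piX K y * c
        = -(a * (u - piX K u) - (v - piX K v) + (x - piX K x) - (y - piX K y) * c) := by
      rw [mul_sub, sub_mul, eq_comm, ← sub_eq_zero]
      linear_combination (norm := abel) -hcocycle
    rw [key]
    exact (((ha.2.1.mul (good_remainder gu h2)).sub (good_remainder gv h3)).add
      (good_remainder gx h3) |>.sub ((good_remainder gy h1).mul hc.2.1)).neg
  · exact (((ha.2.2.mul (good_piX u)).sub (good_piX v)).add (good_piX x)).sub
      ((good_piX y).mul hc.2.2)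

end Vale.Agent.P195
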